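import Vale.Agent.P211.AlgP

/-! P211 AlgD (TASK, owner helper99). Helper names end with `_AlgD`. All statements were checked numerically.
`param`: an Einstein curvature array is determined by its two Weyl matrices. First derive `r a a c d = 0`, `r a b c d = -r a b d c`; both sides are antisymmetric in `(a, b)`, in `(c, d)` and pair symmetric, so
21 entries matter. One way: `funext a b c d; fin_cases` on all four with `simp [mdl, weyl, eta, Fin.sum_univ_three]` and `linarith` on a prepared list (the ten `ein` equations after `Fin.sum_univ_four`, normalised by `anti`, `pair`,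
one `bia 0 1 2 3`); split in lemmas per first index to stay under the heartbeat limit. `st`: `pair`, `ein`, `bia`. `zero`: from `param`.
`jet_dv`: for fixed `n` let `(p, a, b)` be the three indices other than `n`; `b1 p a b c d` for the six pairs `(c, d)`, rewritten by `param` for `r1 p`, `r1 a`, `r1 b`, are six linear equations whose sums and differences
(`(c, d) = (0, i+1)` and its complement) are the three relations for each sign. -/

namespace Vale.Agent.P211

open Filter Topology Set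

noncomputable section

variable {μ s : ℝ} {r : Arr} {r1 : Fin 4 → Arr} {r2 : Fin 4 → Fin 4 → Arr} {A B : M3}
  {D : Fin 4 → M3}

theorem sum_AlgD (A C : M3) (a b : Fin 4) (j : Fin 3) :
    mdl 0 A C a b 0 (![1, 2, 3] j) + mdl 0 A C a b (![2, 3, 1] j) (![3, 1, 2] j) =
        ∑ i, eta 1 i a b * A i j ∧
      mdl 0 A C a b 0 (![1, 2, 3] j) - mdl 0 A C a b (![2, 3, 1] j) (![3, 1, 2] j) =
        ∑ i, eta (-1) i a b * C i j := by
  have e : ∀ s : ℝ, (eta s 0 0 1 = 1 ∧ eta s 1 0 1 = 0 ∧ eta s 2 0 1 = 0) ∧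
      (eta s 0 0 2 = 0 ∧ eta s 1 0 2 = 1 ∧ eta s 2 0 2 = 0) ∧
      (eta s 0 0 3 = 0 ∧ eta s 1 0 3 = 0 ∧ eta s 2 0 3 = 1) ∧
      (eta s 0 2 3 = s ∧ eta s 1 2 3 = 0 ∧ eta s 2 2 3 = 0) ∧
      (eta s 0 3 1 = 0 ∧ eta s 1 3 1 = s ∧ eta s 2 3 1 = 0) ∧
      (eta s 0 1 2 = 0 ∧ eta s 1 1 2 = 0 ∧ eta s 2 1 2 = s) := fun s => by simp [eta]
  fin_cases j <;> simp [mdl, Fin.sum_univ_three, e] <;> constructor <;> ring

theorem dv_AlgD (hs : s = 1 ∨ s = -1) (h1 : ∀ m i j, D m i j = D m j i)
    (h2 : ∀ p a b j, ∑ i, eta s i a b * D p i j + ∑ i, eta s i b p * D a i j +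
      ∑ i, eta s i p a * D b i j = 0) : Dv s D := by
  intro i n
  have a0 := h2 1 2 3 i
  have a1 := h2 0 2 3 i
  have a2 := h2 0 1 3 i
  have a3 := h2 0 1 2 i
  simp only [h1 _ i]
  rcases hs with rfl | rfl <;> simp [eta, Fin.sum_univ_three] at a0 a1 a2 a3 <;> fin_cases n <;>
    simp [eta, Fin.sum_univ_three, Fin.sum_univ_four] <;> linarith

theorem Jet.dv (h : Jet μ r r1 r2) (ε : Bool) : Dv (sg ε) fun m => weyl (sg ε) 0 (r1 m) := by
  refine dv_AlgD (sg_cases ε) (fun m => ((h.c1 m).st ε).symm) fun p a b j => ?_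
  have e1 := h.b1 p a b 0 (![1, 2, 3] j)
  have e2 := h.b1 p a b (![2, 3, 1] j) (![3, 1, 2] j)
  have f := fun m a b => sum_AlgD (weyl 1 0 (r1 m)) (weyl (-1) 0 (r1 m)) a b j
  simp only [← (h.c1 _).param] at f
  cases ε
  · simp only [sg, Bool.false_eq_true, if_false]
    linarith [(f p a b).2, (f a b p).2, (f b p a).2]
  · simp only [sg, if_true]
    linarith [(f p a b).1, (f a b p).1, (f b p a).1]

end

end Vale.Agent.P211
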