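import Vale.Agent.P211.Defs

/-! P211 Spec (TASK, owner helper99). Helper names end with `_Spec`.
`diag3`: `Matrix.IsHermitian.spectral_theorem` for `Matrix.of A` (`P` = `eigenvectorUnitary`, `w` = `eigenvalues`).
`neg_dir`: the trace is `∑ w = 0`, `nsq A = ∑ w ^ 2`; for the least eigenvalue `w k` (column `α i = P i k`, value `w k`) one has `∑ w ^ 2 ≤ 6 (w k) ^ 2` and `w k ≤ 0`
(with `x, y ≥ t`, `x + y = -t`: `x ^ 2 + y ^ 2 ≤ 5 t ^ 2` since `(x - t) (y - t) ≥ 0`). -/

namespace Vale.Agent.P211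

open Filter Topology Set

noncomputable section

variable {μ s : ℝ} {r : Arr} {r1 : Fin 4 → Arr} {r2 : Fin 4 → Fin 4 → Arr} {A B : M3}
  {D : Fin 4 → M3}

theorem diag3 (h : ∀ i j, A i j = A j i) : ∃ (P : M3) (w : Fin 3 → ℝ),
    (∀ k l, ∑ i, P i k * P i l = if k = l then 1 else 0) ∧
    (∀ i j, ∑ k, P i k * P j k = if i = j then 1 else 0) ∧
    ∀ i j, A i j = ∑ k, P i k * w k * P j k := by
  have hA : (Matrix.of A).IsHermitian := by
    ext i j
    simpa using h j i
  refine ⟨fun i k => (hA.eigenvectorUnitary : Matrix (Fin 3) (Fin 3) ℝ) i k, hA.eigenvalues,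
    fun k l => ?_, fun i j => ?_, fun i j => ?_⟩
  · have := congrFun (congrFun (Unitary.coe_star_mul_self hA.eigenvectorUnitary) k) l
    simpa only [Matrix.mul_apply, Matrix.star_apply, star_trivial, Matrix.one_apply] using this
  · have := congrFun (congrFun (Unitary.coe_mul_star_self hA.eigenvectorUnitary) i) j
    simpa only [Matrix.mul_apply, Unitary.coe_star, Matrix.star_apply, star_trivial,
      Matrix.one_apply] using this
  · have := congrFun (congrFun hA.spectral_theorem i) j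
    rw [Unitary.conjStarAlgAut_apply, Matrix.mul_apply] at this
    simpa only [Matrix.of_apply, Matrix.mul_diagonal, Matrix.star_apply, star_trivial,
      Function.comp, RCLike.ofReal_real_eq_id, id] using this

theorem min_Spec {x y z : ℝ} (h : x + y + z = 0) (h1 : x ≤ y) (h2 : x ≤ z) :
    x ≤ -(√(x ^ 2 + y ^ 2 + z ^ 2) / √6) := by
  have h6 : 0 < √6 := by positivity
  rw [le_neg, div_le_iff₀ h6, Real.sqrt_le_left (mul_nonneg (by linarith) h6.le), mul_pow,
    Real.sq_sqrt (by norm_num)]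
  have := mul_nonneg (sub_nonneg.2 h1) (sub_nonneg.2 h2)
  obtain rfl : z = -x - y := by linarith
  linarith

theorem neg_dir (h : ST A) : ∃ α : Fin 3 → ℝ, ∑ i, α i ^ 2 = 1 ∧
    ∑ i, ∑ j, α i * α j * A i j ≤ -(√(nsq A) / √6) := by
  obtain ⟨P, w, h1, -, h3⟩ := diag3 h.symm
  have e1 : ∀ i l, ∑ j, A i j * P j l = P i l * w l := fun i l => by
    simp only [h3, Finset.sum_mul]
    rw [Finset.sum_comm]
    simp only [mul_assoc _ _ (P _ l), ← Finset.mul_sum, h1]
    simp
  have e2 : ∀ k, ∑ i, ∑ j, P i k * P j k * A i j = w k := fun k => by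
    have : ∀ i, ∑ j, P i k * P j k * A i j = P i k * P i k * w k := fun i => by
      rw [mul_assoc, ← e1, Finset.mul_sum]
      exact Finset.sum_congr rfl fun j _ => by ring
    simp only [this, ← Finset.sum_mul, h1, if_pos, one_mul]
  have e3 : w 0 + w 1 + w 2 = 0 := by
    have := h.tr
    have a0 := h1 0 0
    have a1 := h1 1 1
    have a2 := h1 2 2
    simp only [h3, Fin.sum_univ_three, if_pos] at this a0 a1 a2
    linear_combination this - w 0 * a0 - w 1 * a1 - w 2 * a2
  have e4 : nsq A = w 0 ^ 2 + w 1 ^ 2 + w 2 ^ 2 := by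
    have : nsq A = ∑ i, ∑ j, A i j * ∑ k, P i k * w k * P j k := by
      simp only [← h3, nsq, sq]
    have a0 := e2 0
    have a1 := e2 1
    have a2 := e2 2
    simp only [Fin.sum_univ_three] at this a0 a1 a2
    linear_combination this + w 0 * a0 + w 1 * a1 + w 2 * a2
  obtain ⟨k, hk⟩ := Finite.exists_min w
  refine ⟨fun i => P i k, by simpa only [sq, if_pos] using h1 k k, ?_⟩
  rw [e2, e4]
  fin_cases k
  · exact min_Spec e3 (hk 1) (hk 2)
  · rw [add_comm (w 0 ^ 2)]
    exact min_Spec (by rw [← e3, add_comm (w 0)]; rfl) (hk 0) (hk 2)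
  · rw [add_comm, ← add_assoc]
    exact min_Spec (by rw [← e3, add_comm (w 0 + w 1), add_assoc]; rfl) (hk 0) (hk 1)

end

end Vale.Agent.P211
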