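import Vale.Agent.P211.AlgP
import Vale.Agent.P211.Spec

/-! P211 AlgK (TASK, owner helper99). Helper names end with `_AlgK`. Checked numerically.
`planes`: `J = ∑ α k • eta 1 k`, `K = ∑ β k • eta (-1) k` (4 by 4) commute, are skew, `J J = K K = -1`. For a basis vector `w` put `u = w - J (K w)`, `v = -J u`; then `J u = K u`, `N = ∑ u a ^ 2`.
For every `u`: `∑ eta 1 i a b * u a * (-(J u) b) = α i * ∑ u a ^ 2` by `ring` after unfolding, the same for `K`. The four values of `N` for the four basis vectors add up to `8` (trace of `J K` is `0`), so one is positive.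
`Curv.pos`: by `param` the sum is `(∑ x i x j (A i j + μ δ) + ∑ y i y j (C i j + μ δ)) / 2` with `x i = ∑ eta 1 i a b u a v b`, `y` likewise; take `α`, `β` from `neg_dir`, divide by `N ^ 2`; `√6 * √6 = 6`. -/

namespace Vale.Agent.P211

open Filter Topology Set

noncomputable section

variable {μ s : ℝ} {r : Arr} {r1 : Fin 4 → Arr} {r2 : Fin 4 → Fin 4 → Arr} {A B : M3}
  {D : Fin 4 → M3}

/-- The complex structure with coefficients `α`. -/
def jv_AlgK (s : ℝ) (α : Fin 3 → ℝ) (u : Fin 4 → ℝ) : Fin 4 → ℝ :=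
  ![-(α 0 * u 1 + α 1 * u 2 + α 2 * u 3), α 0 * u 0 - s * α 2 * u 2 + s * α 1 * u 3,
    α 1 * u 0 + s * α 2 * u 1 - s * α 0 * u 3, α 2 * u 0 - s * α 1 * u 1 + s * α 0 * u 2]

theorem quad_AlgK (hs : s = 1 ∨ s = -1) (α : Fin 3 → ℝ) (u : Fin 4 → ℝ) (i : Fin 3) :
    ∑ a, ∑ b, eta s i a b * u a * jv_AlgK s α u b =
      (u 0 ^ 2 + u 1 ^ 2 + u 2 ^ 2 + u 3 ^ 2) * α i := by
  rcases hs with rfl | rfl <;> fin_cases i <;> simp [eta, jv_AlgK, Fin.sum_univ_four] <;> ring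

theorem aux_AlgK {α β : Fin 3 → ℝ} (x y z w : ℝ) (hN : 0 < x ^ 2 + y ^ 2 + z ^ 2 + w ^ 2)
    (h0 : α 0 * y + α 1 * z + α 2 * w = β 0 * y + β 1 * z + β 2 * w)
    (h1 : α 0 * x - α 2 * z + α 1 * w = β 0 * x + β 2 * z - β 1 * w)
    (h2 : α 1 * x + α 2 * y - α 0 * w = β 1 * x - β 2 * y + β 0 * w)
    (h3 : α 2 * x - α 1 * y + α 0 * z = β 2 * x + β 1 * y - β 0 * z) :
    ∃ (u v : Fin 4 → ℝ) (N : ℝ), 0 < N ∧ (∀ i, ∑ a, ∑ b, eta 1 i a b * u a * v b = N * α i) ∧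
      ∀ i, ∑ a, ∑ b, eta (-1) i a b * u a * v b = N * β i := by
  have h : jv_AlgK 1 α ![x, y, z, w] = jv_AlgK (-1) β ![x, y, z, w] := by
    funext b
    fin_cases b <;> simp [jv_AlgK] <;> linarith
  refine ⟨![x, y, z, w], jv_AlgK 1 α ![x, y, z, w], _, hN,
    fun i => quad_AlgK (Or.inl rfl) α _ i, fun i => ?_⟩
  rw [h]
  exact quad_AlgK (Or.inr rfl) β _ i

theorem swap_AlgK {P I : Type*} [Fintype P] [Fintype I] (z : P → ℝ) (e : I → P → ℝ)
    (T : I → I → ℝ) :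
    ∑ p, ∑ q, z p * z q * ∑ i, ∑ j, e i p * e j q * T i j =
      ∑ i, ∑ j, (∑ p, e i p * z p) * (∑ q, e j q * z q) * T i j := by
  calc ∑ p, ∑ q, z p * z q * ∑ i, ∑ j, e i p * e j q * T i j
      = ∑ x : P × P, ∑ y : I × I, z x.1 * z x.2 * (e y.1 x.1 * e y.2 x.2 * T y.1 y.2) := by
        simp only [Fintype.sum_prod_type, Finset.mul_sum]
    _ = ∑ y : I × I, ∑ x : P × P, z x.1 * z x.2 * (e y.1 x.1 * e y.2 x.2 * T y.1 y.2) :=
        Finset.sum_comm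
    _ = _ := by
        simp only [Fintype.sum_prod_type, Finset.sum_mul_sum]
        simp only [Finset.sum_mul]
        refine Finset.sum_congr rfl fun i _ => Finset.sum_congr rfl fun j _ =>
          Finset.sum_congr rfl fun p _ => Finset.sum_congr rfl fun q _ => ?_
        ring

theorem half_AlgK (s μ N : ℝ) (u v : Fin 4 → ℝ) {α : Fin 3 → ℝ} (A : M3) (hα : ∑ i, α i ^ 2 = 1)
    (h : ∀ i, ∑ a, ∑ b, eta s i a b * u a * v b = N * α i) :
    ∑ a, ∑ b, ∑ c, ∑ d, u a * v b * u c * v d *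
      ((∑ i, ∑ j, eta s i a b * eta s j c d * (A i j + if i = j then μ else 0)) / 2) =
        N ^ 2 * (∑ i, ∑ j, α i * α j * A i j + μ) / 2 := by
  have h1 := swap_AlgK (fun p : Fin 4 × Fin 4 => u p.1 * v p.2) (fun i p => eta s i p.1 p.2)
    fun i j => A i j + if i = j then μ else 0
  simp only [Fintype.sum_prod_type, ← mul_assoc, h] at h1
  simp only [← mul_div_assoc, ← Finset.sum_div]
  rw [h1]
  simp only [Fin.sum_univ_three] at hα ⊢
  simp only [Fin.isValue, Fin.reduceEq, ↓reduceIte]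
  linear_combination N ^ 2 * μ / 2 * hα

theorem planes {α β : Fin 3 → ℝ} (hα : ∑ i, α i ^ 2 = 1) (hβ : ∑ i, β i ^ 2 = 1) :
    ∃ (u v : Fin 4 → ℝ) (N : ℝ), 0 < N ∧ (∀ i, ∑ a, ∑ b, eta 1 i a b * u a * v b = N * α i) ∧
      ∀ i, ∑ a, ∑ b, eta (-1) i a b * u a * v b = N * β i := by
  simp only [Fin.sum_univ_three] at hα hβ
  by_cases c0 : 0 < 0 ^ 2 + (α 0 + β 0) ^ 2 + (α 1 + β 1) ^ 2 + (α 2 + β 2) ^ 2
  · refine aux_AlgK _ _ _ _ c0 ?_ ?_ ?_ ?_
    · linear_combination hα - hβ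
    all_goals ring
  by_cases c1 : 0 < (α 0 + β 0) ^ 2 + 0 ^ 2 + (β 2 - α 2) ^ 2 + (α 1 - β 1) ^ 2
  · refine aux_AlgK _ _ _ _ c1 ?_ ?_ ?_ ?_
    · ring
    · linear_combination hα - hβ
    all_goals ring
  by_cases c2 : 0 < (α 1 + β 1) ^ 2 + (α 2 - β 2) ^ 2 + 0 ^ 2 + (β 0 - α 0) ^ 2
  · refine aux_AlgK _ _ _ _ c2 ?_ ?_ ?_ ?_
    · ring
    · ring
    · linear_combination hα - hβ
    · ring
  exfalso
  nlinarith [sq_nonneg (α 0 + β 0), sq_nonneg (α 1 + β 1), sq_nonneg (α 2 + β 2),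
    sq_nonneg (α 0 - β 0), sq_nonneg (α 1 - β 1), sq_nonneg (α 2 - β 2)]

theorem Curv.pos (h : Curv μ r)
    (hK : ∀ u v : Fin 4 → ℝ, 0 ≤ ∑ a, ∑ b, ∑ c, ∑ d, u a * v b * u c * v d * r a b c d) :
    √(nsq (weyl 1 μ r)) + √(nsq (weyl (-1) μ r)) ≤ 2 * √6 * μ := by
  obtain ⟨α, hα, h1⟩ := neg_dir (h.st true)
  obtain ⟨β, hβ, h2⟩ := neg_dir (h.st false)
  have e1 : sg true = 1 := rfl
  have e2 : sg false = -1 := rfl
  rw [e1] at h1
  rw [e2] at h2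
  obtain ⟨u, v, N, hN, hu, hv⟩ := planes hα hβ
  have h3 := hK u v
  have hp := h.param
  generalize weyl 1 μ r = A at *
  generalize weyl (-1) μ r = C at *
  rw [hp] at h3
  simp only [mdl, mul_add (_ * v _), Finset.sum_add_distrib] at h3
  rw [half_AlgK 1 μ N u v A hα hu, half_AlgK (-1) μ N u v C hβ hv, ← add_div, ← mul_add] at h3
  rw [mul_div_assoc, mul_nonneg_iff_of_pos_left (by positivity)] at h3
  have h4 : (√(nsq A) + √(nsq C)) / √6 ≤ 2 * μ := by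
    rw [add_div]
    linarith
  rw [div_le_iff₀ (by positivity)] at h4
  linarith

end

end Vale.Agent.P211
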