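import Vale.Agent.P211.AlgP

/-! P211 AlgL1 (TASK, owner helper99). Helper names end with `_AlgL1`. The Weitzenboeck formula (checked numerically).
`Jet.div`: `r2 q p b p c d = r2 q p c d b p` (`pair`), then `b2 q p c d b p`, and the sums over `p` of `r2 q c d p b p`, `r2 q d p c b p` vanish by `anti`, `pair`, `ein`.
`Jet.lapr`: `b2 p p a b c d`, `ric p a b p c d`, `ric p b p a c d`, `Jet.div` (and `anti`).
`com_weyl`: rewrite `r` by `Curv.param`, write the two symmetric traceless matrices (`Curv.st`) with five real entries each; get first a table of the 256 values of `mdl` (an explicit nested vector, or the 36 values with `a < b`, `c < d`),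
then for each sign and each of the 9 entries (one lemma each if needed) `simp [weyl, com, wz, mul3, nsq, Fin.sum_univ_four, Fin.sum_univ_three, table]`, `ring`. `weyl s 0` is additive in the array. -/

namespace Vale.Agent.P211

open Filter Topology Set

noncomputable section

variable {μ s : ℝ} {r : Arr} {r1 : Fin 4 → Arr} {r2 : Fin 4 → Fin 4 → Arr} {A B : M3}
  {D : Fin 4 → M3}

/-- The table of a curvature array. -/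
def tb_AlgL1 (x1 x2 x3 x4 x5 x6 y1 y2 y3 y4 y5 y6 : ℝ) : Arr :=
  ![![![![0, 0, 0, 0], ![0, 0, 0, 0], ![0, 0, 0, 0], ![0, 0, 0, 0]],
      ![![0, x1, x2, x3], ![-x1, 0, y3, -y2], ![-x2, -y3, 0, y1], ![-x3, y2, -y1, 0]],
      ![![0, x2, x4, x5], ![-x2, 0, y5, -y4], ![-x4, -y5, 0, y2], ![-x5, y4, -y2, 0]],
      ![![0, x3, x5, x6], ![-x3, 0, y6, -y5], ![-x5, -y6, 0, y3], ![-x6, y5, -y3, 0]]],
    ![![![0, -x1, -x2, -x3], ![x1, 0, -y3, y2], ![x2, y3, 0, -y1], ![x3, -y2, y1, 0]],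
      ![![0, 0, 0, 0], ![0, 0, 0, 0], ![0, 0, 0, 0], ![0, 0, 0, 0]],
      ![![0, y3, y5, y6], ![-y3, 0, x6, -x5], ![-y5, -x6, 0, x3], ![-y6, x5, -x3, 0]],
      ![![0, -y2, -y4, -y5], ![y2, 0, -x5, x4], ![y4, x5, 0, -x2], ![y5, -x4, x2, 0]]],
    ![![![0, -x2, -x4, -x5], ![x2, 0, -y5, y4], ![x4, y5, 0, -y2], ![x5, -y4, y2, 0]],
      ![![0, -y3, -y5, -y6], ![y3, 0, -x6, x5], ![y5, x6, 0, -x3], ![y6, -x5, x3, 0]],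
      ![![0, 0, 0, 0], ![0, 0, 0, 0], ![0, 0, 0, 0], ![0, 0, 0, 0]],
      ![![0, y1, y2, y3], ![-y1, 0, x3, -x2], ![-y2, -x3, 0, x1], ![-y3, x2, -x1, 0]]],
    ![![![0, -x3, -x5, -x6], ![x3, 0, -y6, y5], ![x5, y6, 0, -y3], ![x6, -y5, y3, 0]],
      ![![0, y2, y4, y5], ![-y2, 0, x5, -x4], ![-y4, -x5, 0, x2], ![-y5, x4, -x2, 0]],
      ![![0, -y1, -y2, -y3], ![y1, 0, -x3, x2], ![y2, x3, 0, -x1], ![y3, -x2, x1, 0]],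
      ![![0, 0, 0, 0], ![0, 0, 0, 0], ![0, 0, 0, 0], ![0, 0, 0, 0]]]]

/-- Symmetric traceless matrices. -/
def sy_AlgL1 (a1 a2 a3 a4 a5 : ℝ) : M3 := ![![a1, a2, a3], ![a2, a4, a5], ![a3, a5, -a1 - a4]]

/-- The table in terms of the two Weyl matrices. -/
def tw_AlgL1 (μ a1 a2 a3 a4 a5 c1 c2 c3 c4 c5 : ℝ) : Arr :=
  tb_AlgL1 ((a1 + c1) / 2 + μ) ((a2 + c2) / 2) ((a3 + c3) / 2) ((a4 + c4) / 2 + μ) ((a5 + c5) / 2)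
    (μ - (a1 + a4 + c1 + c4) / 2) ((a1 - c1) / 2) ((a2 - c2) / 2) ((a3 - c3) / 2) ((a4 - c4) / 2)
    ((a5 - c5) / 2) ((c1 + c4 - a1 - a4) / 2)

variable {a1 a2 a3 a4 a5 c1 c2 c3 c4 c5 : ℝ}

theorem t00_AlgL1 (c d : Fin 4) : mdl μ (sy_AlgL1 a1 a2 a3 a4 a5) (sy_AlgL1 c1 c2 c3 c4 c5) 0 0 c d =
    tw_AlgL1 μ a1 a2 a3 a4 a5 c1 c2 c3 c4 c5 0 0 c d := by
  fin_cases c <;> fin_cases d <;>
    simp [mdl, eta, tw_AlgL1, tb_AlgL1, sy_AlgL1, Fin.sum_univ_three]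

theorem t01_AlgL1 (c d : Fin 4) : mdl μ (sy_AlgL1 a1 a2 a3 a4 a5) (sy_AlgL1 c1 c2 c3 c4 c5) 0 1 c d =
    tw_AlgL1 μ a1 a2 a3 a4 a5 c1 c2 c3 c4 c5 0 1 c d := by
  fin_cases c <;> fin_cases d <;>
    simp [mdl, eta, tw_AlgL1, tb_AlgL1, sy_AlgL1, Fin.sum_univ_three] <;> ring

theorem t02_AlgL1 (c d : Fin 4) : mdl μ (sy_AlgL1 a1 a2 a3 a4 a5) (sy_AlgL1 c1 c2 c3 c4 c5) 0 2 c d =
    tw_AlgL1 μ a1 a2 a3 a4 a5 c1 c2 c3 c4 c5 0 2 c d := by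
  fin_cases c <;> fin_cases d <;>
    simp [mdl, eta, tw_AlgL1, tb_AlgL1, sy_AlgL1, Fin.sum_univ_three] <;> ring

theorem t03_AlgL1 (c d : Fin 4) : mdl μ (sy_AlgL1 a1 a2 a3 a4 a5) (sy_AlgL1 c1 c2 c3 c4 c5) 0 3 c d =
    tw_AlgL1 μ a1 a2 a3 a4 a5 c1 c2 c3 c4 c5 0 3 c d := by
  fin_cases c <;> fin_cases d <;>
    simp [mdl, eta, tw_AlgL1, tb_AlgL1, sy_AlgL1, Fin.sum_univ_three] <;> ring

theorem t10_AlgL1 (c d : Fin 4) : mdl μ (sy_AlgL1 a1 a2 a3 a4 a5) (sy_AlgL1 c1 c2 c3 c4 c5) 1 0 c d =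
    tw_AlgL1 μ a1 a2 a3 a4 a5 c1 c2 c3 c4 c5 1 0 c d := by
  fin_cases c <;> fin_cases d <;>
    simp [mdl, eta, tw_AlgL1, tb_AlgL1, sy_AlgL1, Fin.sum_univ_three] <;> ring

theorem t11_AlgL1 (c d : Fin 4) : mdl μ (sy_AlgL1 a1 a2 a3 a4 a5) (sy_AlgL1 c1 c2 c3 c4 c5) 1 1 c d =
    tw_AlgL1 μ a1 a2 a3 a4 a5 c1 c2 c3 c4 c5 1 1 c d := by
  fin_cases c <;> fin_cases d <;>
    simp [mdl, eta, tw_AlgL1, tb_AlgL1, sy_AlgL1, Fin.sum_univ_three]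

theorem t12_AlgL1 (c d : Fin 4) : mdl μ (sy_AlgL1 a1 a2 a3 a4 a5) (sy_AlgL1 c1 c2 c3 c4 c5) 1 2 c d =
    tw_AlgL1 μ a1 a2 a3 a4 a5 c1 c2 c3 c4 c5 1 2 c d := by
  fin_cases c <;> fin_cases d <;>
    simp [mdl, eta, tw_AlgL1, tb_AlgL1, sy_AlgL1, Fin.sum_univ_three] <;> ring

theorem t13_AlgL1 (c d : Fin 4) : mdl μ (sy_AlgL1 a1 a2 a3 a4 a5) (sy_AlgL1 c1 c2 c3 c4 c5) 1 3 c d =
    tw_AlgL1 μ a1 a2 a3 a4 a5 c1 c2 c3 c4 c5 1 3 c d := by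
  fin_cases c <;> fin_cases d <;>
    simp [mdl, eta, tw_AlgL1, tb_AlgL1, sy_AlgL1, Fin.sum_univ_three] <;> ring

theorem t20_AlgL1 (c d : Fin 4) : mdl μ (sy_AlgL1 a1 a2 a3 a4 a5) (sy_AlgL1 c1 c2 c3 c4 c5) 2 0 c d =
    tw_AlgL1 μ a1 a2 a3 a4 a5 c1 c2 c3 c4 c5 2 0 c d := by
  fin_cases c <;> fin_cases d <;>
    simp [mdl, eta, tw_AlgL1, tb_AlgL1, sy_AlgL1, Fin.sum_univ_three] <;> ring

theorem t21_AlgL1 (c d : Fin 4) : mdl μ (sy_AlgL1 a1 a2 a3 a4 a5) (sy_AlgL1 c1 c2 c3 c4 c5) 2 1 c d =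
    tw_AlgL1 μ a1 a2 a3 a4 a5 c1 c2 c3 c4 c5 2 1 c d := by
  fin_cases c <;> fin_cases d <;>
    simp [mdl, eta, tw_AlgL1, tb_AlgL1, sy_AlgL1, Fin.sum_univ_three] <;> ring

theorem t22_AlgL1 (c d : Fin 4) : mdl μ (sy_AlgL1 a1 a2 a3 a4 a5) (sy_AlgL1 c1 c2 c3 c4 c5) 2 2 c d =
    tw_AlgL1 μ a1 a2 a3 a4 a5 c1 c2 c3 c4 c5 2 2 c d := by
  fin_cases c <;> fin_cases d <;>
    simp [mdl, eta, tw_AlgL1, tb_AlgL1, sy_AlgL1, Fin.sum_univ_three]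

theorem t23_AlgL1 (c d : Fin 4) : mdl μ (sy_AlgL1 a1 a2 a3 a4 a5) (sy_AlgL1 c1 c2 c3 c4 c5) 2 3 c d =
    tw_AlgL1 μ a1 a2 a3 a4 a5 c1 c2 c3 c4 c5 2 3 c d := by
  fin_cases c <;> fin_cases d <;>
    simp [mdl, eta, tw_AlgL1, tb_AlgL1, sy_AlgL1, Fin.sum_univ_three] <;> ring

theorem t30_AlgL1 (c d : Fin 4) : mdl μ (sy_AlgL1 a1 a2 a3 a4 a5) (sy_AlgL1 c1 c2 c3 c4 c5) 3 0 c d =
    tw_AlgL1 μ a1 a2 a3 a4 a5 c1 c2 c3 c4 c5 3 0 c d := by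
  fin_cases c <;> fin_cases d <;>
    simp [mdl, eta, tw_AlgL1, tb_AlgL1, sy_AlgL1, Fin.sum_univ_three] <;> ring

theorem t31_AlgL1 (c d : Fin 4) : mdl μ (sy_AlgL1 a1 a2 a3 a4 a5) (sy_AlgL1 c1 c2 c3 c4 c5) 3 1 c d =
    tw_AlgL1 μ a1 a2 a3 a4 a5 c1 c2 c3 c4 c5 3 1 c d := by
  fin_cases c <;> fin_cases d <;>
    simp [mdl, eta, tw_AlgL1, tb_AlgL1, sy_AlgL1, Fin.sum_univ_three] <;> ring

theorem t32_AlgL1 (c d : Fin 4) : mdl μ (sy_AlgL1 a1 a2 a3 a4 a5) (sy_AlgL1 c1 c2 c3 c4 c5) 3 2 c d =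
    tw_AlgL1 μ a1 a2 a3 a4 a5 c1 c2 c3 c4 c5 3 2 c d := by
  fin_cases c <;> fin_cases d <;>
    simp [mdl, eta, tw_AlgL1, tb_AlgL1, sy_AlgL1, Fin.sum_univ_three] <;> ring

theorem t33_AlgL1 (c d : Fin 4) : mdl μ (sy_AlgL1 a1 a2 a3 a4 a5) (sy_AlgL1 c1 c2 c3 c4 c5) 3 3 c d =
    tw_AlgL1 μ a1 a2 a3 a4 a5 c1 c2 c3 c4 c5 3 3 c d := by
  fin_cases c <;> fin_cases d <;>
    simp [mdl, eta, tw_AlgL1, tb_AlgL1, sy_AlgL1, Fin.sum_univ_three]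

theorem tab_AlgL1 : mdl μ (sy_AlgL1 a1 a2 a3 a4 a5) (sy_AlgL1 c1 c2 c3 c4 c5) =
    tw_AlgL1 μ a1 a2 a3 a4 a5 c1 c2 c3 c4 c5 := by
  funext a b c d
  fin_cases a <;> fin_cases b
  exacts [t00_AlgL1 c d, t01_AlgL1 c d, t02_AlgL1 c d, t03_AlgL1 c d,
    t10_AlgL1 c d, t11_AlgL1 c d, t12_AlgL1 c d, t13_AlgL1 c d,
    t20_AlgL1 c d, t21_AlgL1 c d, t22_AlgL1 c d, t23_AlgL1 c d,
    t30_AlgL1 c d, t31_AlgL1 c d, t32_AlgL1 c d, t33_AlgL1 c d]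

theorem wp00_AlgL1 : weyl 1 0 (fun a b c d =>
    ∑ p, (com (tw_AlgL1 μ a1 a2 a3 a4 a5 c1 c2 c3 c4 c5) p a b p c d +
      com (tw_AlgL1 μ a1 a2 a3 a4 a5 c1 c2 c3 c4 c5) p b p a c d)) 0 0 =
    wz μ (sy_AlgL1 a1 a2 a3 a4 a5) 0 0 := by
  simp only [weyl, com, wz, mul3, nsq, Fin.sum_univ_four, Fin.sum_univ_three, tw_AlgL1, tb_AlgL1,
    sy_AlgL1, Matrix.cons_val, if_true, mul_zero, zero_mul, add_zero, zero_add]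
  ring

theorem wp01_AlgL1 : weyl 1 0 (fun a b c d =>
    ∑ p, (com (tw_AlgL1 μ a1 a2 a3 a4 a5 c1 c2 c3 c4 c5) p a b p c d +
      com (tw_AlgL1 μ a1 a2 a3 a4 a5 c1 c2 c3 c4 c5) p b p a c d)) 0 1 =
    wz μ (sy_AlgL1 a1 a2 a3 a4 a5) 0 1 := by
  simp only [weyl, com, wz, mul3, nsq, Fin.sum_univ_four, Fin.sum_univ_three, tw_AlgL1, tb_AlgL1,
    sy_AlgL1, Matrix.cons_val, Fin.reduceEq, if_false, mul_zero, zero_mul, add_zero, zero_add]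
  ring

theorem wp02_AlgL1 : weyl 1 0 (fun a b c d =>
    ∑ p, (com (tw_AlgL1 μ a1 a2 a3 a4 a5 c1 c2 c3 c4 c5) p a b p c d +
      com (tw_AlgL1 μ a1 a2 a3 a4 a5 c1 c2 c3 c4 c5) p b p a c d)) 0 2 =
    wz μ (sy_AlgL1 a1 a2 a3 a4 a5) 0 2 := by
  simp only [weyl, com, wz, mul3, nsq, Fin.sum_univ_four, Fin.sum_univ_three, tw_AlgL1, tb_AlgL1,
    sy_AlgL1, Matrix.cons_val, Fin.reduceEq, if_false, mul_zero, zero_mul, add_zero, zero_add]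
  ring

theorem wp10_AlgL1 : weyl 1 0 (fun a b c d =>
    ∑ p, (com (tw_AlgL1 μ a1 a2 a3 a4 a5 c1 c2 c3 c4 c5) p a b p c d +
      com (tw_AlgL1 μ a1 a2 a3 a4 a5 c1 c2 c3 c4 c5) p b p a c d)) 1 0 =
    wz μ (sy_AlgL1 a1 a2 a3 a4 a5) 1 0 := by
  simp only [weyl, com, wz, mul3, nsq, Fin.sum_univ_four, Fin.sum_univ_three, tw_AlgL1, tb_AlgL1,
    sy_AlgL1, Matrix.cons_val, Fin.reduceEq, if_false, mul_zero, zero_mul, add_zero, zero_add]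
  ring

theorem wp11_AlgL1 : weyl 1 0 (fun a b c d =>
    ∑ p, (com (tw_AlgL1 μ a1 a2 a3 a4 a5 c1 c2 c3 c4 c5) p a b p c d +
      com (tw_AlgL1 μ a1 a2 a3 a4 a5 c1 c2 c3 c4 c5) p b p a c d)) 1 1 =
    wz μ (sy_AlgL1 a1 a2 a3 a4 a5) 1 1 := by
  simp only [weyl, com, wz, mul3, nsq, Fin.sum_univ_four, Fin.sum_univ_three, tw_AlgL1, tb_AlgL1,
    sy_AlgL1, Matrix.cons_val, if_true, mul_zero, zero_mul, add_zero, zero_add]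
  ring

theorem wp12_AlgL1 : weyl 1 0 (fun a b c d =>
    ∑ p, (com (tw_AlgL1 μ a1 a2 a3 a4 a5 c1 c2 c3 c4 c5) p a b p c d +
      com (tw_AlgL1 μ a1 a2 a3 a4 a5 c1 c2 c3 c4 c5) p b p a c d)) 1 2 =
    wz μ (sy_AlgL1 a1 a2 a3 a4 a5) 1 2 := by
  simp only [weyl, com, wz, mul3, nsq, Fin.sum_univ_four, Fin.sum_univ_three, tw_AlgL1, tb_AlgL1,
    sy_AlgL1, Matrix.cons_val, Fin.reduceEq, if_false, mul_zero, zero_mul, add_zero, zero_add]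
  ring

theorem wp20_AlgL1 : weyl 1 0 (fun a b c d =>
    ∑ p, (com (tw_AlgL1 μ a1 a2 a3 a4 a5 c1 c2 c3 c4 c5) p a b p c d +
      com (tw_AlgL1 μ a1 a2 a3 a4 a5 c1 c2 c3 c4 c5) p b p a c d)) 2 0 =
    wz μ (sy_AlgL1 a1 a2 a3 a4 a5) 2 0 := by
  simp only [weyl, com, wz, mul3, nsq, Fin.sum_univ_four, Fin.sum_univ_three, tw_AlgL1, tb_AlgL1,
    sy_AlgL1, Matrix.cons_val, Fin.reduceEq, if_false, mul_zero, zero_mul, add_zero, zero_add]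
  ring

theorem wp21_AlgL1 : weyl 1 0 (fun a b c d =>
    ∑ p, (com (tw_AlgL1 μ a1 a2 a3 a4 a5 c1 c2 c3 c4 c5) p a b p c d +
      com (tw_AlgL1 μ a1 a2 a3 a4 a5 c1 c2 c3 c4 c5) p b p a c d)) 2 1 =
    wz μ (sy_AlgL1 a1 a2 a3 a4 a5) 2 1 := by
  simp only [weyl, com, wz, mul3, nsq, Fin.sum_univ_four, Fin.sum_univ_three, tw_AlgL1, tb_AlgL1,
    sy_AlgL1, Matrix.cons_val, Fin.reduceEq, if_false, mul_zero, zero_mul, add_zero, zero_add]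
  ring

theorem wp22_AlgL1 : weyl 1 0 (fun a b c d =>
    ∑ p, (com (tw_AlgL1 μ a1 a2 a3 a4 a5 c1 c2 c3 c4 c5) p a b p c d +
      com (tw_AlgL1 μ a1 a2 a3 a4 a5 c1 c2 c3 c4 c5) p b p a c d)) 2 2 =
    wz μ (sy_AlgL1 a1 a2 a3 a4 a5) 2 2 := by
  simp only [weyl, com, wz, mul3, nsq, Fin.sum_univ_four, Fin.sum_univ_three, tw_AlgL1, tb_AlgL1,
    sy_AlgL1, Matrix.cons_val, if_true, mul_zero, zero_mul, add_zero, zero_add]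
  ring

theorem wm00_AlgL1 : weyl (-1) 0 (fun a b c d =>
    ∑ p, (com (tw_AlgL1 μ a1 a2 a3 a4 a5 c1 c2 c3 c4 c5) p a b p c d +
      com (tw_AlgL1 μ a1 a2 a3 a4 a5 c1 c2 c3 c4 c5) p b p a c d)) 0 0 =
    wz μ (sy_AlgL1 c1 c2 c3 c4 c5) 0 0 := by
  simp only [weyl, com, wz, mul3, nsq, Fin.sum_univ_four, Fin.sum_univ_three, tw_AlgL1, tb_AlgL1,
    sy_AlgL1, Matrix.cons_val, if_true, mul_zero, zero_mul, add_zero, zero_add]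
  ring

theorem wm01_AlgL1 : weyl (-1) 0 (fun a b c d =>
    ∑ p, (com (tw_AlgL1 μ a1 a2 a3 a4 a5 c1 c2 c3 c4 c5) p a b p c d +
      com (tw_AlgL1 μ a1 a2 a3 a4 a5 c1 c2 c3 c4 c5) p b p a c d)) 0 1 =
    wz μ (sy_AlgL1 c1 c2 c3 c4 c5) 0 1 := by
  simp only [weyl, com, wz, mul3, nsq, Fin.sum_univ_four, Fin.sum_univ_three, tw_AlgL1, tb_AlgL1,
    sy_AlgL1, Matrix.cons_val, Fin.reduceEq, if_false, mul_zero, zero_mul, add_zero, zero_add]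
  ring

theorem wm02_AlgL1 : weyl (-1) 0 (fun a b c d =>
    ∑ p, (com (tw_AlgL1 μ a1 a2 a3 a4 a5 c1 c2 c3 c4 c5) p a b p c d +
      com (tw_AlgL1 μ a1 a2 a3 a4 a5 c1 c2 c3 c4 c5) p b p a c d)) 0 2 =
    wz μ (sy_AlgL1 c1 c2 c3 c4 c5) 0 2 := by
  simp only [weyl, com, wz, mul3, nsq, Fin.sum_univ_four, Fin.sum_univ_three, tw_AlgL1, tb_AlgL1,
    sy_AlgL1, Matrix.cons_val, Fin.reduceEq, if_false, mul_zero, zero_mul, add_zero, zero_add]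
  ring

theorem wm10_AlgL1 : weyl (-1) 0 (fun a b c d =>
    ∑ p, (com (tw_AlgL1 μ a1 a2 a3 a4 a5 c1 c2 c3 c4 c5) p a b p c d +
      com (tw_AlgL1 μ a1 a2 a3 a4 a5 c1 c2 c3 c4 c5) p b p a c d)) 1 0 =
    wz μ (sy_AlgL1 c1 c2 c3 c4 c5) 1 0 := by
  simp only [weyl, com, wz, mul3, nsq, Fin.sum_univ_four, Fin.sum_univ_three, tw_AlgL1, tb_AlgL1,
    sy_AlgL1, Matrix.cons_val, Fin.reduceEq, if_false, mul_zero, zero_mul, add_zero, zero_add]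
  ring

theorem wm11_AlgL1 : weyl (-1) 0 (fun a b c d =>
    ∑ p, (com (tw_AlgL1 μ a1 a2 a3 a4 a5 c1 c2 c3 c4 c5) p a b p c d +
      com (tw_AlgL1 μ a1 a2 a3 a4 a5 c1 c2 c3 c4 c5) p b p a c d)) 1 1 =
    wz μ (sy_AlgL1 c1 c2 c3 c4 c5) 1 1 := by
  simp only [weyl, com, wz, mul3, nsq, Fin.sum_univ_four, Fin.sum_univ_three, tw_AlgL1, tb_AlgL1,
    sy_AlgL1, Matrix.cons_val, if_true, mul_zero, zero_mul, add_zero, zero_add]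
  ring

theorem wm12_AlgL1 : weyl (-1) 0 (fun a b c d =>
    ∑ p, (com (tw_AlgL1 μ a1 a2 a3 a4 a5 c1 c2 c3 c4 c5) p a b p c d +
      com (tw_AlgL1 μ a1 a2 a3 a4 a5 c1 c2 c3 c4 c5) p b p a c d)) 1 2 =
    wz μ (sy_AlgL1 c1 c2 c3 c4 c5) 1 2 := by
  simp only [weyl, com, wz, mul3, nsq, Fin.sum_univ_four, Fin.sum_univ_three, tw_AlgL1, tb_AlgL1,
    sy_AlgL1, Matrix.cons_val, Fin.reduceEq, if_false, mul_zero, zero_mul, add_zero, zero_add]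
  ring

theorem wm20_AlgL1 : weyl (-1) 0 (fun a b c d =>
    ∑ p, (com (tw_AlgL1 μ a1 a2 a3 a4 a5 c1 c2 c3 c4 c5) p a b p c d +
      com (tw_AlgL1 μ a1 a2 a3 a4 a5 c1 c2 c3 c4 c5) p b p a c d)) 2 0 =
    wz μ (sy_AlgL1 c1 c2 c3 c4 c5) 2 0 := by
  simp only [weyl, com, wz, mul3, nsq, Fin.sum_univ_four, Fin.sum_univ_three, tw_AlgL1, tb_AlgL1,
    sy_AlgL1, Matrix.cons_val, Fin.reduceEq, if_false, mul_zero, zero_mul, add_zero, zero_add]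
  ring

theorem wm21_AlgL1 : weyl (-1) 0 (fun a b c d =>
    ∑ p, (com (tw_AlgL1 μ a1 a2 a3 a4 a5 c1 c2 c3 c4 c5) p a b p c d +
      com (tw_AlgL1 μ a1 a2 a3 a4 a5 c1 c2 c3 c4 c5) p b p a c d)) 2 1 =
    wz μ (sy_AlgL1 c1 c2 c3 c4 c5) 2 1 := by
  simp only [weyl, com, wz, mul3, nsq, Fin.sum_univ_four, Fin.sum_univ_three, tw_AlgL1, tb_AlgL1,
    sy_AlgL1, Matrix.cons_val, Fin.reduceEq, if_false, mul_zero, zero_mul, add_zero, zero_add]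
  ring

theorem wm22_AlgL1 : weyl (-1) 0 (fun a b c d =>
    ∑ p, (com (tw_AlgL1 μ a1 a2 a3 a4 a5 c1 c2 c3 c4 c5) p a b p c d +
      com (tw_AlgL1 μ a1 a2 a3 a4 a5 c1 c2 c3 c4 c5) p b p a c d)) 2 2 =
    wz μ (sy_AlgL1 c1 c2 c3 c4 c5) 2 2 := by
  simp only [weyl, com, wz, mul3, nsq, Fin.sum_univ_four, Fin.sum_univ_three, tw_AlgL1, tb_AlgL1,
    sy_AlgL1, Matrix.cons_val, if_true, mul_zero, zero_mul, add_zero, zero_add]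
  ring

theorem sy_eq_AlgL1 (h : ST A) : A = sy_AlgL1 (A 0 0) (A 0 1) (A 0 2) (A 1 1) (A 1 2) := by
  have h1 := h.tr
  rw [Fin.sum_univ_three] at h1
  have h2 : A 2 2 = -A 0 0 - A 1 1 := by linarith
  funext i j
  fin_cases i <;> fin_cases j
  exacts [rfl, rfl, rfl, h.symm _ _, rfl, rfl, h.symm _ _, h.symm _ _, h2]

theorem wall_AlgL1 (ε : Bool) (i j : Fin 3) : weyl (sg ε) 0 (fun a b c d =>
    ∑ p, (com (tw_AlgL1 μ a1 a2 a3 a4 a5 c1 c2 c3 c4 c5) p a b p c d +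
      com (tw_AlgL1 μ a1 a2 a3 a4 a5 c1 c2 c3 c4 c5) p b p a c d)) i j =
    wz μ (if ε then sy_AlgL1 a1 a2 a3 a4 a5 else sy_AlgL1 c1 c2 c3 c4 c5) i j := by
  cases ε
  · fin_cases i <;> fin_cases j
    exacts [wm00_AlgL1, wm01_AlgL1, wm02_AlgL1, wm10_AlgL1, wm11_AlgL1, wm12_AlgL1, wm20_AlgL1,
      wm21_AlgL1, wm22_AlgL1]
  · fin_cases i <;> fin_cases j
    exacts [wp00_AlgL1, wp01_AlgL1, wp02_AlgL1, wp10_AlgL1, wp11_AlgL1, wp12_AlgL1, wp20_AlgL1,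
      wp21_AlgL1, wp22_AlgL1]

theorem com_weyl (h : Curv μ r) (ε : Bool) (i j : Fin 3) :
    weyl (sg ε) 0 (fun a b c d => ∑ p, (com r p a b p c d + com r p b p a c d)) i j =
      wz μ (weyl (sg ε) μ r) i j := by
  obtain ⟨a1, a2, a3, a4, a5, h1⟩ : ∃ a1 a2 a3 a4 a5, weyl 1 μ r = sy_AlgL1 a1 a2 a3 a4 a5 :=
    ⟨_, _, _, _, _, sy_eq_AlgL1 (h.st true)⟩
  obtain ⟨c1, c2, c3, c4, c5, h2⟩ : ∃ c1 c2 c3 c4 c5, weyl (-1) μ r = sy_AlgL1 c1 c2 c3 c4 c5 :=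
    ⟨_, _, _, _, _, sy_eq_AlgL1 (h.st false)⟩
  have h3 := h.param
  rw [h1, h2, tab_AlgL1] at h3
  have h4 : weyl (sg ε) μ r =
      if ε then sy_AlgL1 a1 a2 a3 a4 a5 else sy_AlgL1 c1 c2 c3 c4 c5 := by
    cases ε
    exacts [h2, h1]
  rw [h4]
  clear h4 h1 h2 h
  subst h3
  exact wall_AlgL1 ε i j

end

end Vale.Agent.P211
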