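import Vale.Agent.P211.AlgL0
import Vale.Agent.P211.AlgL1

/-! P211 AlgL (TASK, owner helper99). Helper names end with `_AlgL`. The Weitzenboeck formula (checked numerically).
`Jet.div`: `r2 q p b p c d = r2 q p c d b p` (`pair`), then `b2 q p c d b p`, and the sums over `p` of `r2 q c d p b p`, `r2 q d p c b p` vanish by `anti`, `pair`, `ein`.
`Jet.lapr`: `b2 p p a b c d`, `ric p a b p c d`, `ric p b p a c d`, `Jet.div` (and `anti`).
`com_weyl`: rewrite `r` by `Curv.param`, write the two symmetric traceless matrices (`Curv.st`) with five real entries each; get first a table of the 256 values of `mdl` (an explicit nested vector, or the 36 values with `a < b`, `c < d`),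
then for each sign and each of the 9 entries (one lemma each if needed) `simp [weyl, com, wz, mul3, nsq, Fin.sum_univ_four, Fin.sum_univ_three, table]`, `ring`. `weyl s 0` is additive in the array. -/

namespace Vale.Agent.P211

open Filter Topology Set

noncomputable section

variable {μ s : ℝ} {r : Arr} {r1 : Fin 4 → Arr} {r2 : Fin 4 → Fin 4 → Arr} {A B : M3}
  {D : Fin 4 → M3}

theorem Jet.lap (h : Jet μ r r1 r2) (ε : Bool) (i j : Fin 3) :
    ∑ m, weyl (sg ε) 0 (r2 m m) i j = wz μ (weyl (sg ε) μ r) i j := by
  rw [← com_weyl h.c0 ε i j]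
  simp only [weyl, ← h.lapr, ite_self, sub_zero, Fin.sum_univ_four]
  ring

end

end Vale.Agent.P211
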