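import Vale.Agent.P211.Defs

/-! P211 AlgL0 (TASK, owner helper99). Helper names end with `_AlgL0`. The Weitzenboeck formula (checked numerically).
`Jet.div`: `r2 q p b p c d = r2 q p c d b p` (`pair`), then `b2 q p c d b p`, and the sums over `p` of `r2 q c d p b p`, `r2 q d p c b p` vanish by `anti`, `pair`, `ein`.
`Jet.lapr`: `b2 p p a b c d`, `ric p a b p c d`, `ric p b p a c d`, `Jet.div` (and `anti`).
`com_weyl`: rewrite `r` by `Curv.param`, write the two symmetric traceless matrices (`Curv.st`) with five real entries each; get first a table of the 256 values of `mdl` (an explicit nested vector, or the 36 values with `a < b`, `c < d`),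
then for each sign and each of the 9 entries (one lemma each if needed) `simp [weyl, com, wz, mul3, nsq, Fin.sum_univ_four, Fin.sum_univ_three, table]`, `ring`. `weyl s 0` is additive in the array. -/

namespace Vale.Agent.P211

open Filter Topology Set

noncomputable section

variable {μ s : ℝ} {r : Arr} {r1 : Fin 4 → Arr} {r2 : Fin 4 → Fin 4 → Arr} {A B : M3}
  {D : Fin 4 → M3}

theorem tr_AlgL0 {t : Arr} (h : Curv 0 t) (b c : Fin 4) : ∑ p, t p b p c = 0 := by
  rw [h.ein]
  split_ifs <;> simp

theorem Jet.div (h : Jet μ r r1 r2) (q b c d : Fin 4) : ∑ p, r2 q p b p c d = 0 := by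
  have e : ∀ p, r2 q p b p c d = -r2 q c p b p d + r2 q d p b p c := by
    intro p
    have h1 := (h.c2 q p).pair b p c d
    have h2 := h.b2 q p c d b p
    have h3 := (h.c2 q c).pair d p b p
    have h4 := (h.c2 q c).anti b p d p
    have h5 := (h.c2 q c).pair p b d p
    have h6 := (h.c2 q c).anti d p p b
    have h7 := (h.c2 q c).pair p d p b
    have h8 := (h.c2 q d).pair p c b p
    have h9 := (h.c2 q d).anti b p p c
    linarith
  rw [Finset.sum_congr rfl fun p _ => e p, Finset.sum_add_distrib, Finset.sum_neg_distrib,
    tr_AlgL0 (h.c2 q c), tr_AlgL0 (h.c2 q d)]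
  simp

theorem Jet.lapr (h : Jet μ r r1 r2) (a b c d : Fin 4) :
    ∑ p, r2 p p a b c d = ∑ p, (com r p a b p c d + com r p b p a c d) := by
  have e : ∀ p, r2 p p a b c d = (com r p a b p c d + com r p b p a c d) +
      (-r2 a p b p c d + r2 b p a p c d) := by
    intro p
    have h1 := h.b2 p p a b c d
    have h2 := h.ric p a b p c d
    have h3 := h.ric p b p a c d
    have h4 := (h.c2 b p).anti p a c d
    linarith
  rw [Finset.sum_congr rfl fun p _ => e p, Finset.sum_add_distrib,
    Finset.sum_add_distrib (f := fun p => -r2 a p b p c d), Finset.sum_neg_distrib,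
    h.div a b c d, h.div b a c d]
  simp

end

end Vale.Agent.P211
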