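import Vale.Agent.P211.Defs

/-! P211 AlgM (TASK, owner helper99). Helper names end with `_AlgM`. Identities for symmetric traceless 3 by 3 matrices: replace `A 1 0, A 2 0, A 2 1, A 2 2` by `symm`, `tr`, unfold with `Fin.sum_univ_three`, `ring`.
Key: with `a = nsq A`, `τ = cub A`: `nsq (a • A A - τ • A - a ^ 2 / 3 • 1) = a * (a ^ 3 - 6 τ ^ 2) / 6`; this gives `cub_sq_le` (case `a = 0`: `A = 0`) and `typeD`. `wz_zero` from the two `ip3` formulas. -/

namespace Vale.Agent.P211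

open Filter Topology Set

noncomputable section

variable {μ s : ℝ} {r : Arr} {r1 : Fin 4 → Arr} {r2 : Fin 4 → Fin 4 → Arr} {A B : M3}
  {D : Fin 4 → M3}

theorem ent_AlgM (h : ST A) :
    A 1 0 = A 0 1 ∧ A 2 0 = A 0 2 ∧ A 2 1 = A 1 2 ∧ A 2 2 = -A 0 0 - A 1 1 := by
  refine ⟨h.symm 1 0, h.symm 2 0, h.symm 2 1, ?_⟩
  have h1 := h.tr
  rw [Fin.sum_univ_three] at h1
  linarith

theorem trsq_AlgM (h : ST A) : ∑ i, mul3 A A i i = nsq A := by
  obtain ⟨e1, e2, e3, -⟩ := ent_AlgM h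
  simp only [nsq, mul3, Fin.sum_univ_three, e1, e2, e3]
  ring

theorem nsq_mul3 (h : ST A) : nsq (mul3 A A) = nsq A ^ 2 / 2 := by
  obtain ⟨e1, e2, e3, e4⟩ := ent_AlgM h
  simp only [nsq, mul3, Fin.sum_univ_three, e1, e2, e3, e4]
  ring

theorem comb_AlgM (a t c : ℝ) (M A : M3) :
    nsq (fun i j => a * M i j - t * A i j - if i = j then c else 0) =
      a ^ 2 * nsq M + t ^ 2 * nsq A + 3 * c ^ 2 - 2 * a * t * ip3 A M - 2 * a * c * ∑ i, M i i +
        2 * t * c * ∑ i, A i i := by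
  simp only [nsq, ip3, Fin.sum_univ_three]
  simp
  ring

theorem key_AlgM (h : ST A) :
    nsq (fun i j => nsq A * mul3 A A i j - cub A * A i j - if i = j then nsq A ^ 2 / 3 else 0) =
      nsq A * (nsq A ^ 3 - 6 * cub A ^ 2) / 6 := by
  rw [comb_AlgM, nsq_mul3 h, trsq_AlgM h, h.tr]
  have e : ip3 A (mul3 A A) = cub A := rfl
  rw [e]
  ring

theorem cub_sq_le (h : ST A) : 6 * cub A ^ 2 ≤ nsq A ^ 3 := by
  rcases (nsq_nonneg A).eq_or_lt with h0 | h0
  · have hA : A = 0 := eq_zero_of_nsq h0.symm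
    have hc : cub A = 0 := by
      rw [hA]
      simp [cub, ip3]
    rw [hc, ← h0]
    norm_num
  · have h1 := nsq_nonneg
      (fun i j => nsq A * mul3 A A i j - cub A * A i j - if i = j then nsq A ^ 2 / 3 else 0)
    rw [key_AlgM h] at h1
    have h2 : 0 ≤ nsq A * (nsq A ^ 3 - 6 * cub A ^ 2) := by linarith
    have h3 := (mul_nonneg_iff_of_pos_left h0).1 h2
    linarith

theorem cub_le (h : ST A) : √6 * cub A ≤ nsq A * √(nsq A) := by
  have h0 := nsq_nonneg A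
  have h1 : (√6 * cub A) ^ 2 ≤ (nsq A * √(nsq A)) ^ 2 := by
    rw [mul_pow, mul_pow, Real.sq_sqrt (by norm_num), Real.sq_sqrt h0]
    have := cub_sq_le h
    linarith [show nsq A ^ 2 * nsq A = nsq A ^ 3 by ring]
  exact (abs_le_of_sq_le_sq' h1 (mul_nonneg h0 (Real.sqrt_nonneg _))).2

theorem typeD (h : ST A) (h1 : 6 * cub A ^ 2 = nsq A ^ 3) (h0 : nsq A ≠ 0) (i j : Fin 3) :
    mul3 A A i j = cub A / nsq A * A i j + if i = j then nsq A / 3 else 0 := by
  have h2 := key_AlgM h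
  rw [h1, sub_self, mul_zero, zero_div] at h2
  have h3 := congrFun (congrFun (eq_zero_of_nsq h2) i) j
  simp only [Pi.zero_apply] at h3
  apply mul_left_cancel₀ h0
  have e : nsq A * (cub A / nsq A * A i j) = cub A * A i j := by field_simp
  rw [mul_add, e]
  by_cases hij : i = j
  · rw [if_pos hij] at h3 ⊢
    linarith
  · rw [if_neg hij] at h3 ⊢
    linarith

theorem ipw_AlgM (μ : ℝ) (M A : M3) :
    ip3 M (wz μ A) = 6 * μ * ip3 M A - 6 * ip3 M (mul3 A A) + 2 * nsq A * ∑ i, M i i := by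
  simp only [ip3, wz, Fin.sum_univ_three]
  simp
  ring

theorem ip3_wz (h : ST A) (μ : ℝ) : ip3 A (wz μ A) = 6 * μ * nsq A - 6 * cub A := by
  rw [ipw_AlgM, h.tr, ← nsq_eq_ip3]
  have e : ip3 A (mul3 A A) = cub A := rfl
  rw [e]
  ring

theorem ip3_sq_wz (h : ST A) (μ : ℝ) : ip3 (mul3 A A) (wz μ A) = 6 * μ * cub A - nsq A ^ 2 := by
  rw [ipw_AlgM, trsq_AlgM h, ← nsq_eq_ip3, nsq_mul3 h]
  have e : ip3 (mul3 A A) A = cub A := by
    simp only [cub, ip3, mul_comm]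
  rw [e]
  ring

theorem wz_zero (h : ST A) (h0 : ∀ i j, wz μ A i j = 0) : nsq A = 0 ∨ nsq A = 6 * μ ^ 2 := by
  have h1 := ip3_wz h μ
  have h2 := ip3_sq_wz h μ
  have z : ∀ M : M3, ip3 M (wz μ A) = 0 := fun M => by simp [ip3, h0]
  rw [z] at h1 h2
  have h3 : cub A = μ * nsq A := by linarith
  rw [h3] at h2
  have h4 : nsq A * (nsq A - 6 * μ ^ 2) = 0 := by linarith [h2]
  rcases mul_eq_zero.1 h4 with h5 | h5
  · exact Or.inl h5
  · exact Or.inr (by linarith)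

end

end Vale.Agent.P211
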