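import Vale.Agent.P211.Defs

/-! P211 AlgP (TASK, owner helper99). Helper names end with `_AlgP`. All statements were checked numerically.
`param`: an Einstein curvature array is determined by its two Weyl matrices. First derive `r a a c d = 0`, `r a b c d = -r a b d c`; both sides are antisymmetric in `(a, b)`, in `(c, d)` and pair symmetric, so
21 entries matter. One way: `funext a b c d; fin_cases` on all four with `simp [mdl, weyl, eta, Fin.sum_univ_three]` and `linarith` on a prepared list (the ten `ein` equations after `Fin.sum_univ_four`, normalised by `anti`, `pair`,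
one `bia 0 1 2 3`); split in lemmas per first index to stay under the heartbeat limit. `st`: `pair`, `ein`, `bia`. `zero`: from `param`.
`jet_dv`: for fixed `n` let `(p, a, b)` be the three indices other than `n`; `b1 p a b c d` for the six pairs `(c, d)`, rewritten by `param` for `r1 p`, `r1 a`, `r1 b`, are six linear equations whose sums and differences
(`(c, d) = (0, i+1)` and its complement) are the three relations for each sign. -/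

namespace Vale.Agent.P211

open Filter Topology Set

noncomputable section

variable {μ s : ℝ} {r : Arr} {r1 : Fin 4 → Arr} {r2 : Fin 4 → Fin 4 → Arr} {A B : M3}
  {D : Fin 4 → M3}

/-- The curvature array with Weyl matrices `A`, `C`. -/
def mdl (μ : ℝ) (A C : M3) : Arr := fun a b c d =>
  (∑ i, ∑ j, eta 1 i a b * eta 1 j c d * (A i j + if i = j then μ else 0)) / 2 +
    (∑ i, ∑ j, eta (-1) i a b * eta (-1) j c d * (C i j + if i = j then μ else 0)) / 2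

theorem an_AlgP (h : Curv μ r) (a b c d : Fin 4) : r a b c d = -r a b d c := by
  rw [h.pair, h.anti, h.pair d c]

theorem z1_AlgP (h : Curv μ r) (a c d : Fin 4) : r a a c d = 0 := by linarith [h.anti a a c d]

theorem z2_AlgP (h : Curv μ r) (a b c : Fin 4) : r a b c c = 0 := by linarith [an_AlgP h a b c c]

theorem ext_AlgP {f g : Arr} (f1 : ∀ a b c d, f a b c d = -f b a c d)
    (f2 : ∀ a b c d, f a b c d = -f a b d c) (g1 : ∀ a b c d, g a b c d = -g b a c d)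
    (g2 : ∀ a b c d, g a b c d = -g a b d c)
    (H : ∀ a b c d, a < b → c < d → f a b c d = g a b c d) : f = g := by
  have H1 : ∀ a b c d, c < d → f a b c d = g a b c d := fun a b c d hc => by
    rcases lt_trichotomy a b with h | rfl | h
    · exact H a b c d h hc
    · linarith [f1 a a c d, g1 a a c d]
    · rw [f1, g1, H b a c d h hc]
  funext a b c d
  rcases lt_trichotomy c d with h | rfl | h
  · exact H1 a b c d h
  · linarith [f2 a b c c, g2 a b c c]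
  · rw [f2, g2, H1 a b d c h]

theorem eta_AlgP (a b : Fin 4) (s : ℝ) (i : Fin 3) : eta s i a b = -eta s i b a := by
  fin_cases i <;> fin_cases a <;> fin_cases b <;> simp [eta]

theorem lt_AlgP : ∀ a b : Fin 4, a < b → (a = 0 ∧ b = 1) ∨ (a = 0 ∧ b = 2) ∨ (a = 0 ∧ b = 3) ∨
    (a = 1 ∧ b = 2) ∨ (a = 1 ∧ b = 3) ∨ (a = 2 ∧ b = 3) := by decide

/-- The linear relations between the entries with increasing index pairs. -/
structure Rel_AlgP (μ : ℝ) (r : Arr) : Prop where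
  p0 : r 0 2 0 1 = r 0 1 0 2
  p1 : r 0 3 0 1 = r 0 1 0 3
  p2 : r 1 2 0 1 = r 0 1 1 2
  p3 : r 1 3 0 1 = r 0 1 1 3
  p4 : r 2 3 0 1 = r 0 1 2 3
  p5 : r 0 3 0 2 = r 0 2 0 3
  p6 : r 1 2 0 2 = r 0 2 1 2
  p7 : r 1 3 0 2 = r 0 2 1 3
  p8 : r 2 3 0 2 = r 0 2 2 3
  p9 : r 1 2 0 3 = r 0 3 1 2
  p10 : r 1 3 0 3 = r 0 3 1 3
  p11 : r 2 3 0 3 = r 0 3 2 3
  p12 : r 1 3 1 2 = r 1 2 1 3
  p13 : r 2 3 1 2 = r 1 2 2 3
  p14 : r 2 3 1 3 = r 1 3 2 3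
  e0 : r 0 1 0 1 + r 0 2 0 2 + r 0 3 0 3 = 3 * μ
  e1 : r 0 2 1 2 + r 0 3 1 3 = 0
  e2 : -r 0 1 1 2 + r 0 3 2 3 = 0
  e3 : -r 0 1 1 3 - r 0 2 2 3 = 0
  e4 : r 0 1 0 1 + r 1 2 1 2 + r 1 3 1 3 = 3 * μ
  e5 : r 0 1 0 2 + r 1 3 2 3 = 0
  e6 : r 0 1 0 3 - r 1 2 2 3 = 0
  e7 : r 0 2 0 2 + r 1 2 1 2 + r 2 3 2 3 = 3 * μ
  e8 : r 0 2 0 3 + r 1 2 1 3 = 0
  e9 : r 0 3 0 3 + r 1 3 1 3 + r 2 3 2 3 = 3 * μ
  b0 : r 0 1 2 3 + r 1 2 0 3 - r 0 2 1 3 = 0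
  l31 : ∀ c d, r 3 1 c d = -r 1 3 c d
  r31 : ∀ a b, r a b 3 1 = -r a b 1 3

theorem rel_AlgP (h : Curv μ r) : Rel_AlgP μ r := by
  have E := h.ein
  simp only [Fin.sum_univ_four] at E
  refine ⟨h.pair _ _ _ _, h.pair _ _ _ _, h.pair _ _ _ _, h.pair _ _ _ _, h.pair _ _ _ _,
    h.pair _ _ _ _, h.pair _ _ _ _, h.pair _ _ _ _, h.pair _ _ _ _, h.pair _ _ _ _,
    h.pair _ _ _ _, h.pair _ _ _ _, h.pair _ _ _ _, h.pair _ _ _ _, h.pair _ _ _ _,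
    ?_, ?_, ?_, ?_, ?_, ?_, ?_, ?_, ?_, ?_, ?_, fun c d => h.anti _ _ _ _, fun a b => an_AlgP h _ _ _ _⟩
  · have := E 0 0
    simp only [z1_AlgP h, z2_AlgP h, if_true] at this
    linarith [h.anti 1 0 1 0, an_AlgP h 0 1 1 0, h.anti 2 0 2 0, an_AlgP h 0 2 2 0, h.anti 3 0 3 0, an_AlgP h 0 3 3 0]
  · have := E 0 1
    simp only [z1_AlgP h, z2_AlgP h, Fin.reduceEq, if_false] at this
    linarith [h.anti 2 0 2 1, an_AlgP h 0 2 2 1, h.anti 3 0 3 1, an_AlgP h 0 3 3 1]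
  · have := E 0 2
    simp only [z1_AlgP h, z2_AlgP h, Fin.reduceEq, if_false] at this
    linarith [h.anti 1 0 1 2, h.anti 3 0 3 2, an_AlgP h 0 3 3 2]
  · have := E 0 3
    simp only [z1_AlgP h, z2_AlgP h, Fin.reduceEq, if_false] at this
    linarith [h.anti 1 0 1 3, h.anti 2 0 2 3]
  · have := E 1 1
    simp only [z1_AlgP h, z2_AlgP h, if_true] at this
    linarith [h.anti 2 1 2 1, an_AlgP h 1 2 2 1, h.anti 3 1 3 1, an_AlgP h 1 3 3 1]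
  · have := E 1 2
    simp only [z1_AlgP h, z2_AlgP h, Fin.reduceEq, if_false] at this
    linarith [h.anti 3 1 3 2, an_AlgP h 1 3 3 2]
  · have := E 1 3
    simp only [z1_AlgP h, z2_AlgP h, Fin.reduceEq, if_false] at this
    linarith [h.anti 2 1 2 3]
  · have := E 2 2
    simp only [z1_AlgP h, z2_AlgP h, if_true] at this
    linarith [h.anti 3 2 3 2, an_AlgP h 2 3 3 2]
  · have := E 2 3
    simp only [z1_AlgP h, z2_AlgP h, Fin.reduceEq, if_false] at this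
    linarith []
  · have := E 3 3
    simp only [z1_AlgP h, z2_AlgP h, if_true] at this
    linarith []
  · linarith [h.bia 0 1 2 3, h.anti 2 0 1 3]

theorem c01_AlgP (h : Rel_AlgP μ r) (c d : Fin 4) (hc : c < d) :
    r 0 1 c d = mdl μ (weyl 1 μ r) (weyl (-1) μ r) 0 1 c d := by
  obtain ⟨p0, p1, p2, p3, p4, p5, p6, p7, p8, p9, p10, p11, p12, p13, p14,
    e0, e1, e2, e3, e4, e5, e6, e7, e8, e9, b0, l31, r31⟩ := h
  rcases lt_AlgP c d hc with ⟨rfl, rfl⟩ | ⟨rfl, rfl⟩ | ⟨rfl, rfl⟩ | ⟨rfl, rfl⟩ | ⟨rfl, rfl⟩ | ⟨rfl, rfl⟩ <;>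
    simp [mdl, weyl, eta, Fin.sum_univ_three, l31, r31] <;> linarith

theorem c02_AlgP (h : Rel_AlgP μ r) (c d : Fin 4) (hc : c < d) :
    r 0 2 c d = mdl μ (weyl 1 μ r) (weyl (-1) μ r) 0 2 c d := by
  obtain ⟨p0, p1, p2, p3, p4, p5, p6, p7, p8, p9, p10, p11, p12, p13, p14,
    e0, e1, e2, e3, e4, e5, e6, e7, e8, e9, b0, l31, r31⟩ := h
  rcases lt_AlgP c d hc with ⟨rfl, rfl⟩ | ⟨rfl, rfl⟩ | ⟨rfl, rfl⟩ | ⟨rfl, rfl⟩ | ⟨rfl, rfl⟩ | ⟨rfl, rfl⟩ <;>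
    simp [mdl, weyl, eta, Fin.sum_univ_three, l31, r31] <;> linarith

theorem c03_AlgP (h : Rel_AlgP μ r) (c d : Fin 4) (hc : c < d) :
    r 0 3 c d = mdl μ (weyl 1 μ r) (weyl (-1) μ r) 0 3 c d := by
  obtain ⟨p0, p1, p2, p3, p4, p5, p6, p7, p8, p9, p10, p11, p12, p13, p14,
    e0, e1, e2, e3, e4, e5, e6, e7, e8, e9, b0, l31, r31⟩ := h
  rcases lt_AlgP c d hc with ⟨rfl, rfl⟩ | ⟨rfl, rfl⟩ | ⟨rfl, rfl⟩ | ⟨rfl, rfl⟩ | ⟨rfl, rfl⟩ | ⟨rfl, rfl⟩ <;>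
    simp [mdl, weyl, eta, Fin.sum_univ_three, l31, r31] <;> linarith

theorem c12_AlgP (h : Rel_AlgP μ r) (c d : Fin 4) (hc : c < d) :
    r 1 2 c d = mdl μ (weyl 1 μ r) (weyl (-1) μ r) 1 2 c d := by
  obtain ⟨p0, p1, p2, p3, p4, p5, p6, p7, p8, p9, p10, p11, p12, p13, p14,
    e0, e1, e2, e3, e4, e5, e6, e7, e8, e9, b0, l31, r31⟩ := h
  rcases lt_AlgP c d hc with ⟨rfl, rfl⟩ | ⟨rfl, rfl⟩ | ⟨rfl, rfl⟩ | ⟨rfl, rfl⟩ | ⟨rfl, rfl⟩ | ⟨rfl, rfl⟩ <;>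
    simp [mdl, weyl, eta, Fin.sum_univ_three, l31, r31] <;> linarith

theorem c13_AlgP (h : Rel_AlgP μ r) (c d : Fin 4) (hc : c < d) :
    r 1 3 c d = mdl μ (weyl 1 μ r) (weyl (-1) μ r) 1 3 c d := by
  obtain ⟨p0, p1, p2, p3, p4, p5, p6, p7, p8, p9, p10, p11, p12, p13, p14,
    e0, e1, e2, e3, e4, e5, e6, e7, e8, e9, b0, l31, r31⟩ := h
  rcases lt_AlgP c d hc with ⟨rfl, rfl⟩ | ⟨rfl, rfl⟩ | ⟨rfl, rfl⟩ | ⟨rfl, rfl⟩ | ⟨rfl, rfl⟩ | ⟨rfl, rfl⟩ <;>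
    simp [mdl, weyl, eta, Fin.sum_univ_three, l31, r31] <;> linarith

theorem c23_AlgP (h : Rel_AlgP μ r) (c d : Fin 4) (hc : c < d) :
    r 2 3 c d = mdl μ (weyl 1 μ r) (weyl (-1) μ r) 2 3 c d := by
  obtain ⟨p0, p1, p2, p3, p4, p5, p6, p7, p8, p9, p10, p11, p12, p13, p14,
    e0, e1, e2, e3, e4, e5, e6, e7, e8, e9, b0, l31, r31⟩ := h
  rcases lt_AlgP c d hc with ⟨rfl, rfl⟩ | ⟨rfl, rfl⟩ | ⟨rfl, rfl⟩ | ⟨rfl, rfl⟩ | ⟨rfl, rfl⟩ | ⟨rfl, rfl⟩ <;>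
    simp [mdl, weyl, eta, Fin.sum_univ_three, l31, r31] <;> linarith

theorem Curv.param (h : Curv μ r) : r = mdl μ (weyl 1 μ r) (weyl (-1) μ r) := by
  refine ext_AlgP h.anti (an_AlgP h) (fun a b c d => ?_) (fun a b c d => ?_) fun a b c d hab hc => ?_
  · simp only [mdl, eta_AlgP a b, neg_mul, Finset.sum_neg_distrib]
    ring
  · simp only [mdl, eta_AlgP c d, neg_mul, mul_neg, Finset.sum_neg_distrib]
    ring
  · have h' := rel_AlgP h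
    rcases lt_AlgP a b hab with ⟨rfl, rfl⟩ | ⟨rfl, rfl⟩ | ⟨rfl, rfl⟩ | ⟨rfl, rfl⟩ | ⟨rfl, rfl⟩ | ⟨rfl, rfl⟩
    exacts [c01_AlgP h' c d hc, c02_AlgP h' c d hc, c03_AlgP h' c d hc, c12_AlgP h' c d hc,
      c13_AlgP h' c d hc, c23_AlgP h' c d hc]

theorem Curv.st (h : Curv μ r) (ε : Bool) : ST (weyl (sg ε) μ r) := by
  refine ⟨fun i j => ?_, ?_⟩
  · unfold weyl
    rw [h.pair 0 (![1, 2, 3] i) 0, h.pair 0 (![1, 2, 3] i), h.pair (![2, 3, 1] i) _ 0,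
      h.pair (![2, 3, 1] i), if_congr eq_comm rfl rfl]
    ring
  · have h := rel_AlgP h
    obtain ⟨p0, p1, p2, p3, p4, p5, p6, p7, p8, p9, p10, p11, p12, p13, p14,
      e0, e1, e2, e3, e4, e5, e6, e7, e8, e9, b0, l31, r31⟩ := h
    cases ε <;> simp [weyl, sg, Fin.sum_univ_three, l31, r31] <;> linarith

theorem Curv.zero (h : Curv 0 r) (h0 : ∀ ε, weyl (sg ε) 0 r = 0) : r = 0 := by
  have h1 : weyl 1 0 r = 0 := h0 true
  have h2 : weyl (-1) 0 r = 0 := h0 false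
  rw [h.param, h1, h2]
  funext a b c d
  simp [mdl]

end

end Vale.Agent.P211
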