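import Vale.Agent.P211.Ten0

/-! P211 BiaA (TASK, owner helper99). Helper names end with `_BiaA`. See P231/G/CompA on origin/main (`comp_ha_riem`, `comp_ha_skew`, `riem_pair`; copy what you need, do not import it).
`riem_eq`: `loc_fderiv_chr`, `chrL_apply`. `rmT_tens`: near `y` the function is built from `G`, `chrL G`, `fderiv (chrL G)` by `clm_apply` (`contDiffOn_chrL`, `ContDiffAt.fderiv_right`); linearity: `fin_cases i`, `simp [rmT, riem_eq]`.
Symmetries: antisymmetry by `riem_eq`, skew symmetry by polarising `riem_skew`, first Bianchi identity from `chr_symm`, `loc_fderiv_chr_symm`; the pair symmetry is the classical linear combination of four Bianchi identities.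
`cov_rmT`: `loc_fderiv_app2` for `z ↦ G z (riem G z u v z₀) w`, `LocMetric.fderiv_eq`, `Fin.sum_univ_four`, `simp [update]`. -/

set_option maxSynthPendingDepth 3

namespace Vale.Agent.P211

open scoped ContDiff Topology
open Vale.Agent.P255 Filter Set Function

noncomputable section

variable {E : Type*} [NormedAddCommGroup E] [NormedSpace ℝ E] [FiniteDimensional ℝ E]
  {ι : Type} [Fintype ι] [DecidableEq ι] {G : E → E →L[ℝ] E →L[ℝ] ℝ} {U : Set E}
  {T : E → (ι → E) → ℝ} {y : E}

theorem riem_eq (h : LocMetric G U) (hy : y ∈ U) (u v w : E) : riem G y u v w =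
    fderiv ℝ (chrL G) y u v w - fderiv ℝ (chrL G) y v u w + chrL G y u (chrL G y v w) -
      chrL G y v (chrL G y u w) := by
  rw [riem, h.loc_fderiv_chr hy, h.loc_fderiv_chr hy]
  simp only [chrL_apply]

theorem riem_cd_BiaA {X : Type*} [NormedAddCommGroup X] [NormedSpace ℝ X] (h : LocMetric G U)
    {f a b c : X → E} {x : X} (hy : f x ∈ U) (hf : ContDiffAt ℝ ∞ f x) (ha : ContDiffAt ℝ ∞ a x)
    (hb : ContDiffAt ℝ ∞ b x) (hc : ContDiffAt ℝ ∞ c x) :
    ContDiffAt ℝ ∞ (fun q => riem G (f q) (a q) (b q) (c q)) x := by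
  have h1 : ContDiffAt ℝ ∞ (chrL G) (f x) :=
    h.contDiffOn_chrL.contDiffAt (h.isOpen.mem_nhds hy)
  have h2 : ContDiffAt ℝ ∞ (fderiv ℝ (chrL G)) (f x) := h1.fderiv_right (m := ∞) le_rfl
  have h3 : ContDiffAt ℝ ∞ (fun q => chrL G (f q)) x := h1.comp x hf
  have h4 : ContDiffAt ℝ ∞ (fun q => fderiv ℝ (chrL G) (f q)) x := h2.comp x hf
  refine ContDiffAt.congr_of_eventuallyEq
    ((((((h4.clm_apply ha).clm_apply hb).clm_apply hc).sub
      (((h4.clm_apply hb).clm_apply ha).clm_apply hc)).add
      ((h3.clm_apply ha).clm_apply ((h3.clm_apply hb).clm_apply hc))).sub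
      ((h3.clm_apply hb).clm_apply ((h3.clm_apply ha).clm_apply hc))) ?_
  filter_upwards [hf.continuousAt.preimage_mem_nhds (h.isOpen.mem_nhds hy)] with q hq
  exact riem_eq h hq _ _ _

theorem rmT_tens (h : LocMetric G U) : Tens U (rmT G) := by
  refine ⟨fun y hy m => ?_, fun y hy m i => ?_⟩
  · have e : ∀ i : Fin 4, ContDiffAt ℝ ∞ (fun q : E × (Fin 4 → E) => q.2 i) (y, m) := fun i =>
      (contDiffAt_apply ℝ E i m).comp (y, m) contDiffAt_snd
    have hG : ContDiffAt ℝ ∞ (fun q : E × (Fin 4 → E) => G q.1) (y, m) :=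
      (h.loc_contDiffAt hy).comp (y, m) contDiffAt_fst
    exact (hG.clm_apply (riem_cd_BiaA h (f := Prod.fst) (x := (y, m)) hy contDiffAt_fst (e 0) (e 1)
      (e 3))).clm_apply (e 2)
  · constructor
    · intro a b
      fin_cases i <;> simp [rmT, riem_eq h hy] <;> ring
    · intro c a
      fin_cases i <;> simp [rmT, riem_eq h hy] <;> ring

theorem cov_rmT (h : LocMetric G U) (hy : y ∈ U) (p u v w z : E) :
    cov G (rmT G) y p ![u, v, w, z] = G y (dRiem G y p u v z) w := by
  have hd : DifferentiableAt ℝ (fun q => riem G q u v z) y :=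
    (riem_cd_BiaA h (f := id) (x := y) hy contDiffAt_id contDiffAt_const contDiffAt_const
      contDiffAt_const).differentiableAt (by simp)
  have e : fderiv ℝ (fun q => rmT G q ![u, v, w, z]) y p =
      fderiv ℝ (fun q => G q (riem G q u v z) w) y p := rfl
  rw [cov, e, loc_fderiv_app2 (h.loc_diff hy) hd (differentiableAt_const w), h.fderiv_eq hy,
    Fin.sum_univ_four, dRiem]
  simp [rmT]
  ring

end

end Vale.Agent.P211
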