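import Vale.Agent.P211.BiaA

/-! P211 BiaB (TASK, owner helper99). Helper names end with `_BiaB`. The second Bianchi identity.
With `A = chrL G` (smooth on the open set `U`), near `y` `riem G z u v w` is given by `riem_eq`, so `fderiv (riem G · u v w) y p = ∂p ∂u A v w - ∂p ∂v A u w + ∂p A u (A v w) + A u (∂p A v w) - ∂p A v (A u w) - A v (∂p A u w)`
(`loc_fderiv_app2`, `loc_fderiv_app2c`, `loc_fderiv_app1c`, `EventuallyEq.fderiv_eq`). Use the symmetry of `fderiv (fderiv A) y` (`ContDiffAt.isSymmSndFDerivAt`), `chr_symm` for the terms `riem (Γ p u) v w`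
(they cancel in pairs by antisymmetry of `riem` in the first two slots), expand the others by `riem_eq`, `map_add`, `map_sub`, `abel`. -/

set_option maxSynthPendingDepth 3

namespace Vale.Agent.P211

open scoped ContDiff Topology
open Vale.Agent.P255 Filter Set Function

noncomputable section

variable {E : Type*} [NormedAddCommGroup E] [NormedSpace ℝ E] [FiniteDimensional ℝ E]
  {ι : Type} [Fintype ι] [DecidableEq ι] {G : E → E →L[ℝ] E →L[ℝ] ℝ} {U : Set E}
  {T : E → (ι → E) → ℝ} {y : E}

theorem fd_BiaB (h : LocMetric G U) (hy : y ∈ U) (p u v w : E) :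
    fderiv ℝ (fun z => riem G z u v w) y p =
      fderiv ℝ (fderiv ℝ (chrL G)) y p u v w - fderiv ℝ (fderiv ℝ (chrL G)) y p v u w +
      (fderiv ℝ (chrL G) y p u (chrL G y v w) + chrL G y u (fderiv ℝ (chrL G) y p v w)) -
      (fderiv ℝ (chrL G) y p v (chrL G y u w) + chrL G y v (fderiv ℝ (chrL G) y p u w)) := by
  have hA := (h.loc_diff_chrL hy).hasFDerivAt
  have hD : DifferentiableAt ℝ (fderiv ℝ (chrL G)) y :=
    ((h.contDiffOn_chrL.contDiffAt (h.isOpen.mem_nhds hy)).fderiv_right (m := ∞)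
      (by simp)).differentiableAt (by simp)
  have c : ∀ a : E, HasFDerivAt (fun _ : E => a) (0 : E →L[ℝ] E) y := fun a =>
    hasFDerivAt_const a y
  have h1 := fun a b => ((hD.hasFDerivAt.clm_apply (c a)).clm_apply (c b)).clm_apply (c w)
  have h2 := fun a b => (hA.clm_apply (c a)).clm_apply ((hA.clm_apply (c b)).clm_apply (c w))
  have e : (fun z => riem G z u v w) =ᶠ[𝓝 y] fun z => fderiv ℝ (chrL G) z u v w -
      fderiv ℝ (chrL G) z v u w + chrL G z u (chrL G z v w) - chrL G z v (chrL G z u w) := by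
    filter_upwards [h.isOpen.mem_nhds hy] with z hz
    exact riem_eq h hz u v w
  rw [e.fderiv_eq, ((((h1 u v).fun_sub (h1 v u)).fun_add (h2 u v)).fun_sub (h2 v u)).fderiv]
  simp only [add_apply, sub_apply, ContinuousLinearMap.comp_apply, ContinuousLinearMap.flip_apply,
    ContinuousLinearMap.comp_zero, zero_add]
  abel

theorem dRiem_cyc (h : LocMetric G U) (hy : y ∈ U) (p u v w : E) :
    dRiem G y p u v w + dRiem G y u v p w + dRiem G y v p u w = 0 := by
  have hs : ∀ a b, fderiv ℝ (fderiv ℝ (chrL G)) y a b = fderiv ℝ (fderiv ℝ (chrL G)) y b a :=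
    fun a b => ((h.contDiffOn_chrL.contDiffAt (h.isOpen.mem_nhds hy)).isSymmSndFDerivAt
      (by simpa using (ENat.LEInfty.out : (2 : WithTop ℕ∞) ≤ ∞))).eq a b
  unfold dRiem
  rw [fd_BiaB h hy, fd_BiaB h hy, fd_BiaB h hy, hs u p, hs v p, hs v u, h.chr_symm hy u p,
    h.chr_symm hy v p, h.chr_symm hy v u]
  simp only [riem_eq h hy, ← chrL_apply, map_add, map_sub]
  abel

end

end Vale.Agent.P211
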