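import Vale.Agent.P211.BiaA

/-! P211 BiaS (TASK, owner helper99). Helper names end with `_BiaS`. See P231/G/CompA on origin/main (`comp_ha_riem`, `comp_ha_skew`, `riem_pair`; copy what you need, do not import it).
`riem_eq`: `loc_fderiv_chr`, `chrL_apply`. `rmT_tens`: near `y` the function is built from `G`, `chrL G`, `fderiv (chrL G)` by `clm_apply` (`contDiffOn_chrL`, `ContDiffAt.fderiv_right`); linearity: `fin_cases i`, `simp [rmT, riem_eq]`.
Symmetries: antisymmetry by `riem_eq`, skew symmetry by polarising `riem_skew`, first Bianchi identity from `chr_symm`, `loc_fderiv_chr_symm`; the pair symmetry is the classical linear combination of four Bianchi identities.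
`cov_rmT`: `loc_fderiv_app2` for `z ↦ G z (riem G z u v z₀) w`, `LocMetric.fderiv_eq`, `Fin.sum_univ_four`, `simp [update]`. -/

namespace Vale.Agent.P211

open scoped ContDiff Topology
open Vale.Agent.P255 Filter Set Function

noncomputable section

variable {E : Type*} [NormedAddCommGroup E] [NormedSpace ℝ E] [FiniteDimensional ℝ E]
  {ι : Type} [Fintype ι] [DecidableEq ι] {G : E → E →L[ℝ] E →L[ℝ] ℝ} {U : Set E}
  {T : E → (ι → E) → ℝ} {y : E}

theorem ev_BiaS (u v w z : E) : rmT G y ![u, v, w, z] = G y (riem G y u v z) w := rfl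

theorem skew_BiaS (h : LocMetric G U) (hy : y ∈ U) (u v w z : E) :
    rmT G y ![u, v, w, z] = -rmT G y ![u, v, z, w] := by
  have e : riem G y u v (w + z) = riem G y u v w + riem G y u v z := by
    simp only [riem_eq h hy, map_add]
    abel
  have k := h.riem_skew hy u v (w + z)
  simp only [e, map_add, _root_.add_apply, h.riem_skew hy] at k
  rw [ev_BiaS, ev_BiaS]
  linarith

theorem bia_BiaS (h : LocMetric G U) (hy : y ∈ U) (u v w z : E) :
    rmT G y ![u, v, w, z] + rmT G y ![v, w, u, z] + rmT G y ![w, u, v, z] = 0 := by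
  have e : riem G y u v w + riem G y v w u + riem G y w u v = 0 := by
    simp only [riem_eq h hy, chrL_apply]
    rw [h.loc_fderiv_chr_symm hy u v w, h.loc_fderiv_chr_symm hy v u w,
      h.loc_fderiv_chr_symm hy w u v, h.chr_symm hy v w, h.chr_symm hy u w, h.chr_symm hy u v]
    abel
  have k := congrArg (fun x => G y x z) e
  simp only [map_add, _root_.add_apply, map_zero, _root_.zero_apply] at k
  rw [skew_BiaS h hy u v w z, skew_BiaS h hy v w u z, skew_BiaS h hy w u v z, ev_BiaS, ev_BiaS,
    ev_BiaS]
  linarith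

theorem rmT_anti (h : LocMetric G U) (hy : y ∈ U) (u v w z : E) :
    rmT G y ![u, v, w, z] = -rmT G y ![v, u, w, z] := by
  have e : riem G y u v z = -riem G y v u z := by
    simp only [riem]
    abel
  rw [ev_BiaS, ev_BiaS, e, map_neg, _root_.neg_apply]

theorem rmT_pair (h : LocMetric G U) (hy : y ∈ U) (u v w z : E) :
    rmT G y ![u, v, w, z] = rmT G y ![w, z, u, v] := by
  have b1 := bia_BiaS h hy u v w z
  have b2 := bia_BiaS h hy v w z u
  have b3 := bia_BiaS h hy w z u v
  have b4 := bia_BiaS h hy z u v w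
  have s1 := skew_BiaS h hy v w u z
  have s2 := skew_BiaS h hy w u v z
  have s3 := skew_BiaS h hy w z v u
  have s4 := skew_BiaS h hy z v w u
  have s5 := skew_BiaS h hy z u w v
  have s6 := skew_BiaS h hy u v z w
  have a1 := rmT_anti h hy u w z v
  have a2 := rmT_anti h hy v z u w
  have s7 := skew_BiaS h hy w u z v
  have s8 := skew_BiaS h hy z v u w
  linarith

theorem rmT_bia (h : LocMetric G U) (hy : y ∈ U) (u v w z : E) :
    rmT G y ![u, v, w, z] + rmT G y ![v, w, u, z] + rmT G y ![w, u, v, z] = 0 := by
  exact bia_BiaS h hy u v w z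

end

end Vale.Agent.P211
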