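import Vale.Agent.P211.Frm

/-! P211 Cpt (TASK, owner helper99). Helper names end with `_Cpt`.
`compact_r0`: `isCompact_iff_ultrafilter_le_nhds` (lift the ultrafilter to `Fm g`, e.g. `Ultrafilter.comap` along a section of `r0`, or prove: every ultrafilter `l` on `Fm g` has `o₀` with `Tendsto r0 l (𝓝 (r0 o₀))` and use `Ultrafilter.map`).
The base points converge (`CompactSpace`), the vectors have norm one, `TC.of_bounded` (P234/Basic) gives limits, `TC.ip` keeps orthonormality; in the chart at the limit point use `R0_tr`, `TC` and the joint continuity `(rmT_tens _).smooth`.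
`sec_pos`: expand `rm g x (∑ u a • e a) (∑ v b • e b) (∑ ..) (∑ ..)` with `riem_eq`, `map_sum`, or with `(rmT_tens _).lin`. `locSymm_of`: at `x` take the frame; `lin_zero` for `covT G (rmT G) y` (`Tens.covT`, `ON.span`; a map
`idx : Option (Fin 4) → Fin 4` gives `r1 o (idx none) (idx (some 0)) ..`), so `R1 g x p m = 0` for all `p, m`; then `cov_rmT`, `LocMetric.ext_vec`. -/

namespace Vale.Agent.P211

open scoped ContDiff Manifold Topology
open Vale.Agent.P255 Vale.Agent.P234 Vale.Agent.P231 Filter Set Function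

noncomputable section

variable {M : Type*} [TopologicalSpace M] [ChartedSpace E4 M] [IsManifold 𝓘(ℝ, E4) ∞ M]
  [T2Space M] [CompactSpace M] {g : Metric E4 M} {x : M} {v : E4} {l : ℝ}
  {e : OpenPartialHomeomorph M E4}

omit [IsManifold 𝓘(ℝ, E4) ∞ M] [T2Space M] [CompactSpace M] in
theorem loc_Cpt (g : Metric E4 M) (x : M) :
    LocMetric (g.g (chartAt E4 x)) (chartAt E4 x).target := g.loc (chart_mem_atlas _ _)

theorem sum_Cpt {φ : E4 → ℝ} (h : IsLinearMap ℝ φ) (u : Fin 4 → ℝ) (f : Fin 4 → E4) :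
    φ (∑ a, u a • f a) = ∑ a, u a * φ (f a) := by
  have := map_sum (IsLinearMap.mk' φ h) (fun a => u a • f a) Finset.univ
  simpa only [IsLinearMap.mk'_apply, h.map_smul, smul_eq_mul] using this

omit [IsManifold 𝓘(ℝ, E4) ∞ M] [T2Space M] [CompactSpace M] in
theorem lin_Cpt (g : Metric E4 M) (x : M) (a b c : E4) :
    (IsLinearMap ℝ fun h => R0 g x ![h, a, b, c]) ∧ (IsLinearMap ℝ fun h => R0 g x ![a, h, b, c]) ∧
      (IsLinearMap ℝ fun h => R0 g x ![a, b, h, c]) ∧
        IsLinearMap ℝ fun h => R0 g x ![a, b, c, h] := by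
  have hT := (rmT_tens (loc_Cpt g x)).lin _ (mem_chart_target E4 x)
  have h0 := hT ![0, a, b, c] 0
  have h1 := hT ![a, 0, b, c] 1
  have h2 := hT ![a, b, 0, c] 2
  have h3 := hT ![a, b, c, 0] 3
  exact ⟨h0, h1, h2, h3⟩

theorem sec_pos (hK : SecNonneg g) (o : Fm g) (u v : Fin 4 → ℝ) :
    0 ≤ ∑ a, ∑ b, ∑ c, ∑ d, u a * v b * u c * v d * r0 o a b c d := by
  have h : 0 ≤ R0 g o.1.1 ![∑ a, u a • o.1.2 a, ∑ a, v a • o.1.2 a, ∑ a, u a • o.1.2 a,
      ∑ a, v a • o.1.2 a] := hK o.1.1 (∑ a, u a • o.1.2 a) (∑ a, v a • o.1.2 a)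
  rw [sum_Cpt (lin_Cpt g o.1.1 _ _ _).1] at h
  refine h.trans_eq (Finset.sum_congr rfl fun a _ => ?_)
  rw [sum_Cpt (lin_Cpt g o.1.1 _ _ _).2.1, Finset.mul_sum]
  refine Finset.sum_congr rfl fun b _ => ?_
  rw [sum_Cpt (lin_Cpt g o.1.1 _ _ _).2.2.1, Finset.mul_sum, Finset.mul_sum]
  refine Finset.sum_congr rfl fun c _ => ?_
  rw [sum_Cpt (lin_Cpt g o.1.1 _ _ _).2.2.2, Finset.mul_sum, Finset.mul_sum, Finset.mul_sum]
  refine Finset.sum_congr rfl fun d _ => ?_
  simp only [r0]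
  ring

theorem R1_zero (o : Fm g) (h : ∀ p, r1 o p = 0) (p : E4) (m : Fin 4 → E4) :
    R1 g o.1.1 p m = 0 := by
  have hT := ((rmT_tens (loc_Cpt g o.1.1)).covT (loc_Cpt g o.1.1)).lin _ (mem_chart_target E4 o.1.1)
  refine lin_zero hT o.1.2 (fun w => ⟨_, o.2.span w⟩) (fun idx => ?_) fun i => Option.elim i p m
  have h1 := congrFun (congrFun (congrFun (congrFun (h (idx none)) (idx (some 0))) (idx (some 1)))
    (idx (some 2))) (idx (some 3))
  have e : (fun i => o.1.2 (idx (some i))) = ![o.1.2 (idx (some 0)), o.1.2 (idx (some 1)),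
      o.1.2 (idx (some 2)), o.1.2 (idx (some 3))] := by
    funext i
    fin_cases i <;> rfl
  show R1 g o.1.1 (o.1.2 (idx none)) (fun i => o.1.2 (idx (some i))) = 0
  rw [e]
  exact h1

theorem locSymm_of (h : ∀ x p m, R1 g x p m = 0) : LocSymm g := by
  intro x p u v w
  refine (loc_Cpt g x).ext_vec (mem_chart_target E4 x) fun z => ?_
  rw [← cov_rmT (loc_Cpt g x) (mem_chart_target E4 x), map_zero, ContinuousLinearMap.zero_apply]
  exact h x p _

end

end Vale.Agent.P211
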