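import Vale.Agent.P211.Frm

/-! P211 CptA (TASK, owner helper99). Helper names end with `_CptA`.
`compact_r0`: `isCompact_iff_ultrafilter_le_nhds` (lift the ultrafilter to `Fm g`, e.g. `Ultrafilter.comap` along a section of `r0`, or prove: every ultrafilter `l` on `Fm g` has `o₀` with `Tendsto r0 l (𝓝 (r0 o₀))` and use `Ultrafilter.map`).
The base points converge (`CompactSpace`), the vectors have norm one, `TC.of_bounded` (P234/Basic) gives limits, `TC.ip` keeps orthonormality; in the chart at the limit point use `R0_tr`, `TC` and the joint continuity `(rmT_tens _).smooth`.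
`sec_pos`: expand `rm g x (∑ u a • e a) (∑ v b • e b) (∑ ..) (∑ ..)` with `riem_eq`, `map_sum`, or with `(rmT_tens _).lin`. `locSymm_of`: at `x` take the frame; `lin_zero` for `covT G (rmT G) y` (`Tens.covT`, `ON.span`; a map
`idx : Option (Fin 4) → Fin 4` gives `r1 o (idx none) (idx (some 0)) ..`), so `R1 g x p m = 0` for all `p, m`; then `cov_rmT`, `LocMetric.ext_vec`. -/

namespace Vale.Agent.P211

open scoped ContDiff Manifold Topology
open Vale.Agent.P255 Vale.Agent.P234 Vale.Agent.P231 Filter Set Function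

noncomputable section

variable {M : Type*} [TopologicalSpace M] [ChartedSpace E4 M] [IsManifold 𝓘(ℝ, E4) ∞ M]
  [T2Space M] [CompactSpace M] {g : Metric E4 M} {x : M} {v : E4} {l : ℝ}
  {e : OpenPartialHomeomorph M E4}

theorem vec_CptA (f : Fin 4 → E4) (a b c d : Fin 4) :
    ![f a, f b, f c, f d] = fun i => f (![a, b, c, d] i) := by
  funext i
  fin_cases i <;> rfl

theorem key_CptA {ι : Type*} {l : Filter ι} {x : ι → M} {x₀ : M} {u : ι → Fin 4 → E4}
    {u₀ : Fin 4 → E4} (h : ∀ a, TC l x (fun i => u i a) x₀ (u₀ a)) :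
    Tendsto (fun i => R0 g (x i) (u i)) l (𝓝 (R0 g x₀ u₀)) := by
  have he := chart_mem_atlas E4 x₀
  have hx := (h 0).1
  have h0 : ContinuousAt (fun q : E4 × (Fin 4 → E4) => rmT (g.g (chartAt E4 x₀)) q.1 q.2)
      (chartAt E4 x₀ x₀, u₀) :=
    ((rmT_tens (g.loc he)).smooth _ (mem_chart_target E4 x₀) u₀).continuousAt
  have h1 : Tendsto (fun i => (chartAt E4 x₀ (x i), fun a => tr (chartAt E4 x₀) (x i) (u i a))) l
      (𝓝 (chartAt E4 x₀ x₀, u₀)) :=
    (((chartAt E4 x₀).continuousAt (mem_chart_source E4 x₀)).tendsto.comp hx).prodMk_nhds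
      (tendsto_pi_nhds.2 fun a => (h a).2)
  refine (h0.tendsto.comp h1).congr' ?_
  filter_upwards [hx.eventually ((chartAt E4 x₀).open_source.mem_nhds (mem_chart_source E4 x₀))]
    with i hi
  rw [R0_tr he hi]
  rfl

theorem lim_CptA (l : Ultrafilter (Fm g)) :
    ∃ o₀ : Fm g, Tendsto r0 (l : Filter (Fm g)) (𝓝 (r0 o₀)) := by
  obtain ⟨x₀, -, hx⟩ := isCompact_univ.ultrafilter_le_nhds (l.map fun o => o.1.1) (by simp)
  have hx' : Tendsto (fun o : Fm g => o.1.1) l (𝓝 x₀) := hx
  have hb : ∀ (a : Fin 4) (o : Fm g), nrm g o.1.1 (o.1.2 a) ≤ 1 := fun a o => by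
    have h1 := o.2 a a
    rw [if_pos rfl] at h1
    rw [nrm, h1, Real.sqrt_one]
  choose u hu using fun a : Fin 4 => TC.of_bounded g hx' (Eventually.of_forall (hb a))
  have hON : ON g x₀ u := fun a b => tendsto_nhds_unique ((hu a).ip g (hu b))
    (tendsto_const_nhds.congr fun o => (o.2 a b).symm)
  refine ⟨⟨(x₀, u), hON⟩, tendsto_pi_nhds.2 fun a => tendsto_pi_nhds.2 fun b =>
    tendsto_pi_nhds.2 fun c => tendsto_pi_nhds.2 fun d => ?_⟩
  simp only [r0, vec_CptA]
  exact key_CptA fun i => hu _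

theorem compact_r0 (g : Metric E4 M) : IsCompact (range (r0 : Fm g → Arr)) := by
  refine isCompact_iff_ultrafilter_le_nhds.2 fun f hf => ?_
  have := f.neBot.comap_of_range_mem (le_principal_iff.1 hf)
  obtain ⟨o, ho⟩ := lim_CptA (Ultrafilter.of (comap (r0 : Fm g → Arr) f))
  refine ⟨r0 o, mem_range_self o, ?_⟩
  rw [← f.unique (map_le_iff_le_comap.2 (Ultrafilter.of_le (comap (r0 : Fm g → Arr) f)))]
  exact ho

end

end Vale.Agent.P211
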