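import Vale.Agent.P211.Frm

/-! P211 Crv (TASK, owner helper99). Helper names end with `_Crv`. Orthonormal frames and curves of frames. Library: P234/Basic, P255/Geo2, P231/G/ParA, ParB, Par (`par_hc_on`, `Fr.expand` show similar arguments).
`ON.span`: four orthonormal vectors are linearly independent, hence a basis (`basisOfLinearIndependentOfCardEqFinrank`, `finrank_euclideanSpace_fin`); `ipr g x u v = g.ip x u v` is `rfl` (`ipr_eq`).
`exists_ON`: `LinearMap.BilinForm.exists_orthogonal_basis` and normalise (or `par_hc_on` of P231/G/Par with a unit vector; then import that file).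
`crv`: `w = ∑ m, v m • e m`, `X a` from `exists_par g x w (e a)`, orthonormal by `IsPar.ip_const`, `geo_zero`; `vel = ∑ m, v m • X m t` by `ON.span`, `isPar_vel`, `ip_const`, `vel_geo_zero`; `R0_deriv`, `R1_deriv` with the fields
`fun s => ![X a s, X b s, X c s, X d s]` (`fin_cases i`), linearity `Tens.cov_lin`, `Tens.cov2_lin` (`rmT_tens`, `g.loc (chart_mem_atlas _ _)`, `mem_chart_target`; `IsLinearMap.mk'`, `map_sum`). -/

namespace Vale.Agent.P211

open scoped ContDiff Manifold Topology
open Vale.Agent.P255 Vale.Agent.P234 Vale.Agent.P231 Filter Set Function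

noncomputable section

variable {M : Type*} [TopologicalSpace M] [ChartedSpace E4 M] [IsManifold 𝓘(ℝ, E4) ∞ M]
  [T2Space M] [CompactSpace M] {g : Metric E4 M} {x : M} {v : E4} {l : ℝ}
  {e : OpenPartialHomeomorph M E4}

theorem lin_sum_Crv {F : E4 → ℝ} (hF : IsLinearMap ℝ F) (v : Fin 4 → ℝ) (f : Fin 4 → E4) :
    F (∑ m, v m • f m) = ∑ m, v m * F (f m) := by
  have h := map_sum (IsLinearMap.mk' F hF) (fun m => v m • f m) Finset.univ
  simp only [map_smul, IsLinearMap.mk'_apply, smul_eq_mul] at h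
  exact h

theorem par4_Crv {γ : ℝ → M} {X : Fin 4 → ℝ → E4} (hX : ∀ a, IsPar g γ (X a)) (a b c d : Fin 4) :
    ∀ i, IsPar g γ fun s => (![X a s, X b s, X c s, X d s] : Fin 4 → E4) i := by
  intro i
  fin_cases i
  · exact hX a
  · exact hX b
  · exact hX c
  · exact hX d

theorem crv (o : Fm g) (v : Fin 4 → ℝ) : ∃ c : ℝ → Fm g, c 0 = o ∧
    (∀ t, (c t).1.1 = g.geo o.1.1 (∑ m, v m • o.1.2 m) t) ∧
    (∀ t a b c' d, HasDerivAt (fun s => r0 (c s) a b c' d) (∑ m, v m * r1 (c t) m a b c' d) t) ∧
    ∀ t p a b c' d,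
      HasDerivAt (fun s => r1 (c s) p a b c' d) (∑ q, v q * r2 (c t) q p a b c' d) t := by
  obtain ⟨⟨x, f⟩, hf⟩ := o
  have hf' : ∀ i j, g.ip x (f i) (f j) = if i = j then 1 else 0 := hf
  set w : E4 := ∑ m, v m • f m with hw
  choose X hX hX0 using fun a => exists_par g x w (f a)
  have hON : ∀ t, ON g (g.geo x w t) fun a => X a t := by
    intro t i j
    rw [ipr_eq, (hX i).ip_const (hX j) t 0, hX0, hX0, g.geo_zero]
    exact hf' i j
  have hvel : ∀ t, vel E4 (g.geo x w) t = ∑ m, v m • X m t := by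
    intro t
    rw [(hON t).span (vel E4 (g.geo x w) t)]
    refine Finset.sum_congr rfl fun a _ => ?_
    rw [ipr_eq, (isPar_vel g x w).ip_const (hX a) t 0, hX0, vel_geo_zero, g.geo_zero, hw]
    simp only [map_sum, map_smul, ContinuousLinearMap.sum_apply, ContinuousLinearMap.smul_apply,
      smul_eq_mul, hf', mul_ite, mul_one, mul_zero, Finset.sum_ite_eq', Finset.mem_univ, if_true]
  refine ⟨fun t => ⟨(g.geo x w t, fun a => X a t), hON t⟩, ?_, fun t => rfl, ?_, ?_⟩
  · refine Subtype.ext (Prod.ext (g.geo_zero x w) ?_)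
    funext a
    exact hX0 a
  · intro t a b c d
    have h1 := R0_deriv (par4_Crv hX a b c d) t
    rw [hvel] at h1
    have hL := g.loc (chart_mem_atlas E4 (g.geo x w t))
    have h2 := lin_sum_Crv ((rmT_tens hL).cov_lin (G := g.g (chartAt E4 (g.geo x w t)))
      (mem_chart_target E4 (g.geo x w t)) ![X a t, X b t, X c t, X d t]) v fun m => X m t
    exact h1.congr_deriv h2
  · intro t p a b c d
    have h1 := R1_deriv (hX p) (par4_Crv hX a b c d) t
    rw [hvel] at h1
    have hL := g.loc (chart_mem_atlas E4 (g.geo x w t))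
    have h2 := lin_sum_Crv ((rmT_tens hL).cov2_lin hL
      (mem_chart_target E4 (g.geo x w t)) (X p t) ![X a t, X b t, X c t, X d t]) v fun m => X m t
    exact h1.congr_deriv h2

end

end Vale.Agent.P211
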