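import Vale.Agent.P211.Stmt

/-!
P211 Defs (owner helper99, no task): arrays of curvature type, jets, three by three matrices, the abstract system.
-/

namespace Vale.Agent.P211

noncomputable section

/-- Arrays with four indices. -/
abbrev Arr : Type := Fin 4 → Fin 4 → Fin 4 → Fin 4 → ℝ

/-- Three by three arrays. -/
abbrev M3 : Type := Fin 3 → Fin 3 → ℝ

/-- Algebraic Einstein curvature tensors with scalar curvature `12 μ`. -/
structure Curv (μ : ℝ) (r : Arr) : Prop where
  anti : ∀ a b c d, r a b c d = -r b a c d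
  pair : ∀ a b c d, r a b c d = r c d a b
  bia : ∀ a b c d, r a b c d + r b c a d + r c a b d = 0
  ein : ∀ b c, ∑ a, r a b a c = if b = c then 3 * μ else 0

/-- The curvature acting on itself. -/
def com (r : Arr) (q p a b c d : Fin 4) : ℝ :=
  ∑ f, (r q p f a * r f b c d + r q p f b * r a f c d + r q p f c * r a b f d + r q p f d * r a b c f)

/-- The two-jet of the curvature tensor of an Einstein metric in an orthonormal frame. -/
structure Jet (μ : ℝ) (r : Arr) (r1 : Fin 4 → Arr) (r2 : Fin 4 → Fin 4 → Arr) : Prop where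
  c0 : Curv μ r
  c1 : ∀ p, Curv 0 (r1 p)
  c2 : ∀ q p, Curv 0 (r2 q p)
  b1 : ∀ p a b c d, r1 p a b c d + r1 a b p c d + r1 b p a c d = 0
  b2 : ∀ q p a b c d, r2 q p a b c d + r2 q a b p c d + r2 q b p a c d = 0
  ric : ∀ q p a b c d, r2 q p a b c d - r2 p q a b c d = -com r q p a b c d

/-- The three self-dual (`s = 1`) or anti-self-dual (`s = -1`) forms. -/
def eta (s : ℝ) : Fin 3 → Fin 4 → Fin 4 → ℝ :=
  ![![![0, 1, 0, 0], ![-1, 0, 0, 0], ![0, 0, 0, s], ![0, 0, -s, 0]],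
    ![![0, 0, 1, 0], ![0, 0, 0, -s], ![-1, 0, 0, 0], ![0, s, 0, 0]],
    ![![0, 0, 0, 1], ![0, 0, s, 0], ![0, -s, 0, 0], ![-1, 0, 0, 0]]]

/-- The sign of an orientation. -/
def sg (ε : Bool) : ℝ := if ε then 1 else -1

/-- Symmetric and traceless. -/
structure ST (A : M3) : Prop where
  symm : ∀ i j, A i j = A j i
  tr : ∑ i, A i i = 0

/-- Inner product. -/
def ip3 (A B : M3) : ℝ := ∑ i, ∑ j, A i j * B i j

/-- Squared norm. -/
def nsq (A : M3) : ℝ := ∑ i, ∑ j, A i j ^ 2

/-- Matrix product. -/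
def mul3 (A B : M3) : M3 := fun i j => ∑ k, A i k * B k j

/-- Trace of the cube. -/
def cub (A : M3) : ℝ := ip3 A (mul3 A A)

/-- The divergence condition. -/
def Dv (s : ℝ) (D : Fin 4 → M3) : Prop := ∀ i n, ∑ j, ∑ m, eta s j n m * D m i j = 0

/-- The right side of the Weitzenboeck formula. -/
def wz (μ : ℝ) (A : M3) : M3 :=
  fun i j => 6 * μ * A i j - 6 * mul3 A A i j + if i = j then 2 * nsq A else 0

variable {O : Type*}

/-- Curves in the space of frames with direction `v`. -/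
structure Crv (A : Bool → O → M3) (D : Bool → O → Fin 4 → M3)
    (D2 : Bool → O → Fin 4 → Fin 4 → M3) (v : Fin 4 → ℝ) (c : ℝ → O) : Prop where
  d1 : ∀ t ε i j, HasDerivAt (fun s => A ε (c s) i j) (∑ m, v m * D ε (c t) m i j) t
  d2 : ∀ t ε m i j, HasDerivAt (fun s => D ε (c s) m i j) (∑ q, v q * D2 ε (c t) q m i j) t

/-- The abstract system: the two Weyl matrices on the space of frames with their derivatives. -/
structure Sys (μ : ℝ) (A : Bool → O → M3) (D : Bool → O → Fin 4 → M3)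
    (D2 : Bool → O → Fin 4 → Fin 4 → M3) : Prop where
  st : ∀ ε o, ST (A ε o)
  std : ∀ ε o m, ST (D ε o m)
  dv : ∀ ε o, Dv (sg ε) (D ε o)
  lap : ∀ ε o i j, ∑ m, D2 ε o m m i j = wz μ (A ε o) i j
  pos : ∀ o, √(nsq (A true o)) + √(nsq (A false o)) ≤ 2 * √6 * μ
  crv : ∀ o v, ∃ c : ℝ → O, c 0 = o ∧ Crv A D D2 v c
  cpt : ∀ Φ : M3 × M3 → ℝ, Continuous Φ →
    ∃ o, ∀ o', Φ (A true o', A false o') ≤ Φ (A true o, A false o)

theorem sg_cases (ε : Bool) : sg ε = 1 ∨ sg ε = -1 := by cases ε <;> simp [sg]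

theorem nsq_nonneg (A : M3) : 0 ≤ nsq A :=
  Finset.sum_nonneg fun _ _ => Finset.sum_nonneg fun _ _ => sq_nonneg _

theorem nsq_eq_ip3 (A : M3) : nsq A = ip3 A A := by simp only [nsq, ip3, sq]

theorem eq_zero_of_nsq {A : M3} (h : nsq A = 0) : A = 0 := by
  funext i j
  have h1 := (Finset.sum_eq_zero_iff_of_nonneg fun i _ =>
    Finset.sum_nonneg fun j _ => sq_nonneg (A i j)).1 h i (Finset.mem_univ i)
  exact pow_eq_zero_iff two_ne_zero |>.1
    ((Finset.sum_eq_zero_iff_of_nonneg fun j _ => sq_nonneg (A i j)).1 h1 j (Finset.mem_univ j))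

theorem ip3_sq_le (A B : M3) : ip3 A B ^ 2 ≤ nsq A * nsq B := by
  have h := Finset.sum_mul_sq_le_sq_mul_sq (Finset.univ : Finset (Fin 3 × Fin 3))
    (fun q => A q.1 q.2) (fun q => B q.1 q.2)
  simpa only [Fintype.sum_prod_type, ip3, nsq] using h

theorem continuous_nsq : Continuous nsq := by
  unfold nsq
  fun_prop

theorem continuous_cub : Continuous cub := by
  unfold cub ip3 mul3
  fun_prop

end

end Vale.Agent.P211
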