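import Vale.Agent.P211.DerA

/-! P211 Der (TASK, owner helper99). Helper names end with `_Der`. Derivatives along the curves: `HasDerivAt.fun_sum`, `HasDerivAt.mul`, then rearrange (`Fin.sum_univ_three`, symmetry, `ring`).
For `v = Pi.single m 1` the sums collapse (`Pi.single_apply`, `Finset.sum_ite_eq`). `second_le`: `IsLocalMax.hasDerivAt_eq_zero`; if `f2 > 0` then `f1 > 0` on a right neighbourhood (slope), so `f` is strictly increasing there
(`strictMonoOn_of_deriv_pos` or the mean value theorem). -/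

namespace Vale.Agent.P211

open Filter Topology Set

noncomputable section

variable {O : Type*} {μ q c₀ : ℝ} {A : Bool → O → M3} {D : Bool → O → Fin 4 → M3}
  {D2 : Bool → O → Fin 4 → Fin 4 → M3} {v : Fin 4 → ℝ} {c : ℝ → O} {m : Fin 4}

theorem d1_Der (h : Crv A D D2 (Pi.single m 1) c) (ε : Bool) (t : ℝ) (i j : Fin 3) :
    HasDerivAt (fun s => A ε (c s) i j) (D ε (c t) m i j) t := by
  have := h.d1 t ε i j
  simpa [Pi.single_apply] using this

theorem d2_Der (h : Crv A D D2 (Pi.single m 1) c) (ε : Bool) (t : ℝ) (i j : Fin 3) :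
    HasDerivAt (fun s => D ε (c s) m i j) (D2 ε (c t) m m i j) t := by
  have := h.d2 t ε m i j
  simpa [Pi.single_apply] using this

theorem ip_Der {F G : ℝ → M3} {F' G' : M3} {t : ℝ} (hF : ∀ i j, HasDerivAt (fun s => F s i j) (F' i j) t)
    (hG : ∀ i j, HasDerivAt (fun s => G s i j) (G' i j) t) :
    HasDerivAt (fun s => ip3 (F s) (G s)) (ip3 F' (G t) + ip3 (F t) G') t := by
  have := HasDerivAt.fun_sum (u := Finset.univ) fun i _ =>
    HasDerivAt.fun_sum (u := Finset.univ) fun j _ => (hF i j).fun_mul (hG i j)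
  simpa only [ip3, Finset.sum_add_distrib] using this

theorem alg1_Der {X Y : M3} (hX : ST X) (hY : ST Y) :
    ip3 Y (mul3 X X) + ip3 X (fun i j => mul3 X Y i j + mul3 Y X i j) = 3 * ip3 (mul3 X X) Y := by
  simp only [ip3, mul3, Fin.sum_univ_three, hX.symm 1 0, hX.symm 2 0, hX.symm 2 1, hY.symm 1 0,
    hY.symm 2 0, hY.symm 2 1]
  ring

theorem alg2_Der {X Y : M3} (hX : ST X) (hY : ST Y) :
    ip3 (fun i j => mul3 X Y i j + mul3 Y X i j) Y = 2 * ip3 X (mul3 Y Y) := by
  simp only [ip3, mul3, Fin.sum_univ_three, hX.symm 1 0, hX.symm 2 0, hX.symm 2 1, hY.symm 1 0,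
    hY.symm 2 0, hY.symm 2 1]
  ring

theorem Crv.mul1 (h : Crv A D D2 (Pi.single m 1) c) (ε : Bool) (t : ℝ) (i j : Fin 3) :
    HasDerivAt (fun s => mul3 (A ε (c s)) (A ε (c s)) i j)
      (mul3 (A ε (c t)) (D ε (c t) m) i j + mul3 (D ε (c t) m) (A ε (c t)) i j) t := by
  have := HasDerivAt.fun_sum (u := Finset.univ) fun k _ =>
    (d1_Der h ε t i k).fun_mul (d1_Der h ε t k j)
  simpa only [mul3, Finset.sum_add_distrib, add_comm] using this

theorem Sys.cub1 (hS : Sys μ A D D2) (h : Crv A D D2 (Pi.single m 1) c) (ε : Bool) (t : ℝ) :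
    HasDerivAt (fun s => cub (A ε (c s)))
      (3 * ip3 (mul3 (A ε (c t)) (A ε (c t))) (D ε (c t) m)) t := by
  have := ip_Der (F := fun s => A ε (c s)) (G := fun s => mul3 (A ε (c s)) (A ε (c s)))
    (d1_Der h ε t) (h.mul1 ε t)
  rw [alg1_Der (hS.st ε _) (hS.std ε _ m)] at this
  exact this

theorem Sys.cub2 (hS : Sys μ A D D2) (h : Crv A D D2 (Pi.single m 1) c) (ε : Bool) (t : ℝ) :
    HasDerivAt (fun s => 3 * ip3 (mul3 (A ε (c s)) (A ε (c s))) (D ε (c s) m))
      (6 * ip3 (A ε (c t)) (mul3 (D ε (c t) m) (D ε (c t) m)) +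
        3 * ip3 (mul3 (A ε (c t)) (A ε (c t))) (D2 ε (c t) m m)) t := by
  have := (ip_Der (F := fun s => mul3 (A ε (c s)) (A ε (c s))) (G := fun s => D ε (c s) m)
    (h.mul1 ε t) (d2_Der h ε t)).const_mul 3
  rw [alg2_Der (hS.st ε _) (hS.std ε _ m)] at this
  exact this.congr_deriv (by ring)

theorem Sys.sum_ip (hS : Sys μ A D D2) (ε : Bool) (o : O) (B : M3) :
    ∑ m, ip3 B (D2 ε o m m) = ip3 B (wz μ (A ε o)) := by
  simp only [ip3, ← hS.lap ε o, Finset.mul_sum]
  rw [Finset.sum_comm]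
  exact Finset.sum_congr rfl fun i _ => Finset.sum_comm

end

end Vale.Agent.P211
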