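import Vale.Agent.P211.AlgM

/-! P211 DerA (TASK, owner helper99). Helper names end with `_DerA`. Derivatives along the curves: `HasDerivAt.fun_sum`, `HasDerivAt.mul`, then rearrange (`Fin.sum_univ_three`, symmetry, `ring`).
For `v = Pi.single m 1` the sums collapse (`Pi.single_apply`, `Finset.sum_ite_eq`). `second_le`: `IsLocalMax.hasDerivAt_eq_zero`; if `f2 > 0` then `f1 > 0` on a right neighbourhood (slope), so `f` is strictly increasing there
(`strictMonoOn_of_deriv_pos` or the mean value theorem). -/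

namespace Vale.Agent.P211

open Filter Topology Set

noncomputable section

variable {O : Type*} {μ q c₀ : ℝ} {A : Bool → O → M3} {D : Bool → O → Fin 4 → M3}
  {D2 : Bool → O → Fin 4 → Fin 4 → M3} {v : Fin 4 → ℝ} {c : ℝ → O} {m : Fin 4}

theorem second_le {f f1 : ℝ → ℝ} {f2 : ℝ} (hm : IsLocalMax f 0)
    (h1 : ∀ᶠ t in 𝓝 (0 : ℝ), HasDerivAt f (f1 t) t) (h2 : HasDerivAt f1 f2 0) :
    f1 0 = 0 ∧ f2 ≤ 0 := by
  have h0 : HasDerivAt f (f1 0) 0 := h1.self_of_nhds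
  have e0 : f1 0 = 0 := hm.hasDerivAt_eq_zero h0
  refine ⟨e0, not_lt.1 fun hp => ?_⟩
  have e1 : deriv f =ᶠ[𝓝 0] f1 := h1.mono fun t ht => ht.deriv
  have e2 : deriv (deriv f) 0 = f2 := by rw [e1.deriv_eq, h2.deriv]
  have hmin : IsLocalMin f 0 :=
    isLocalMin_of_deriv_deriv_pos (by rw [e2]; exact hp) (by rw [h0.deriv, e0]) h0.continuousAt
  have e3 : f =ᶠ[𝓝 0] fun _ => f 0 := by
    filter_upwards [hm, hmin] with t a b using le_antisymm a b
  have e4 : deriv f =ᶠ[𝓝 0] fun _ => (0 : ℝ) := by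
    filter_upwards [e3.deriv] with t ht
    rw [ht, deriv_const]
  rw [e4.deriv_eq, deriv_const] at e2
  exact hp.ne e2

theorem ip3_DerA {P Q : ℝ → M3} {P1 Q1 : M3} {t : ℝ}
    (hP : ∀ i j, HasDerivAt (fun s => P s i j) (P1 i j) t)
    (hQ : ∀ i j, HasDerivAt (fun s => Q s i j) (Q1 i j) t) :
    HasDerivAt (fun s => ip3 (P s) (Q s)) (ip3 P1 (Q t) + ip3 (P t) Q1) t := by
  have h : HasDerivAt (fun s => ∑ i, ∑ j, P s i j * Q s i j)
      (∑ i, ∑ j, (P1 i j * Q t i j + P t i j * Q1 i j)) t :=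
    HasDerivAt.fun_sum fun i _ => HasDerivAt.fun_sum fun j _ => (hP i j).mul (hQ i j)
  refine h.congr_deriv ?_
  simp only [ip3, Finset.sum_add_distrib]

theorem nsq_DerA {P : ℝ → M3} {P1 : M3} {t : ℝ}
    (hP : ∀ i j, HasDerivAt (fun s => P s i j) (P1 i j) t) :
    HasDerivAt (fun s => nsq (P s)) (2 * ip3 (P t) P1) t := by
  have h := ip3_DerA hP hP
  simp only [← nsq_eq_ip3] at h
  refine h.congr_deriv ?_
  simp only [ip3, Fin.sum_univ_three]
  ring

theorem Crv.nsqv (h : Crv A D D2 v c) (ε : Bool) (t : ℝ) : HasDerivAt (fun s => nsq (A ε (c s)))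
    (2 * ∑ m, v m * ip3 (A ε (c t)) (D ε (c t) m)) t := by
  refine (nsq_DerA (P := fun s => A ε (c s)) (P1 := fun i j => ∑ m, v m * D ε (c t) m i j)
    fun i j => h.d1 t ε i j).congr_deriv ?_
  simp only [ip3, Fin.sum_univ_three, Fin.sum_univ_four]
  ring

theorem Crv.e1 (h : Crv A D D2 (Pi.single m 1) c) (ε : Bool) (t : ℝ) (i j : Fin 3) :
    HasDerivAt (fun s => A ε (c s) i j) (D ε (c t) m i j) t := by
  refine (h.d1 t ε i j).congr_deriv ?_
  simp [Pi.single_apply]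

theorem Crv.e2 (h : Crv A D D2 (Pi.single m 1) c) (ε : Bool) (t : ℝ) (i j : Fin 3) :
    HasDerivAt (fun s => D ε (c s) m i j) (D2 ε (c t) m m i j) t := by
  refine (h.d2 t ε m i j).congr_deriv ?_
  simp [Pi.single_apply]

theorem Crv.nsq1 (h : Crv A D D2 (Pi.single m 1) c) (ε : Bool) (t : ℝ) :
    HasDerivAt (fun s => nsq (A ε (c s))) (2 * ip3 (A ε (c t)) (D ε (c t) m)) t :=
  nsq_DerA (P := fun s => A ε (c s)) fun i j => h.e1 ε t i j

theorem Crv.nsq2 (h : Crv A D D2 (Pi.single m 1) c) (ε : Bool) (t : ℝ) :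
    HasDerivAt (fun s => 2 * ip3 (A ε (c s)) (D ε (c s) m))
      (2 * nsq (D ε (c t) m) + 2 * ip3 (A ε (c t)) (D2 ε (c t) m m)) t := by
  refine ((ip3_DerA (P := fun s => A ε (c s)) (Q := fun s => D ε (c s) m)
    (fun i j => h.e1 ε t i j) fun i j => h.e2 ε t i j).const_mul 2).congr_deriv ?_
  rw [nsq_eq_ip3]
  ring

end

end Vale.Agent.P211
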