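import Vale.Agent.P211.Spec

/-! P211 Diag (owner helper99). Helper names end with `_Diag`.
`diag3`: `A = P w Pᵀ`; put `D' m k l = ∑ i j, P i k * D m i j * P j l` (symmetric). Step 1, all `D' m k k = 0`. First case: `∑ k, d k = 0`, `∑ w k d k = 0`, `∑ w k ^ 2 d k = 0` for `d k = D' m k k` and the `w k` are distinct because
`nsq ^ 3 - 6 cub ^ 2 = 2 ∏ (w k - w l) ^ 2` (`∑ w = 0`, `nsq = ∑ w ^ 2`, `cub = ∑ w ^ 3`). Second case: `2 w k d k = κ d k` and `w k ^ 2 = κ w k + nsq / 3`, so `2 w k ≠ κ` (else `-κ ^ 2 / 4 = nsq / 3 > 0`).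
Step 2: with `J l n m = ∑ j, P j l * eta s j n m` one has `∑ l, ∑ m, J l n m * D' m k l = 0` (from `Dv`, `P Pᵀ = 1`) and `∑ n, (∑ m, J l n m * x m) ^ 2 = ∑ x m ^ 2` (unit column); rows `k = 0, 1` give
`∑ m, D' m 0 1 ^ 2 = ∑ m, D' m 0 2 ^ 2 = ∑ m, D' m 1 2 ^ 2 = δ`. Step 3: the sum is `∑ k, w k * ∑ l m, D' m k l ^ 2 = 2 δ ∑ w = 0`. Working with `Matrix` products and traces may be shorter. -/

namespace Vale.Agent.P211

open Filter Topology Set

noncomputable section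

variable {μ s : ℝ} {r : Arr} {r1 : Fin 4 → Arr} {r2 : Fin 4 → Fin 4 → Arr} {A B : M3}
  {D : Fin 4 → M3}

open scoped Matrix

/-- Conjugation by `P`. -/
def cj_Diag (P X : M3) : M3 := fun k l => ((Matrix.of P)ᵀ * Matrix.of X * Matrix.of P) k l

theorem of_cj_Diag (P X : M3) :
    Matrix.of (cj_Diag P X) = (Matrix.of P)ᵀ * Matrix.of X * Matrix.of P := rfl

theorem of_mul_Diag (X Y : M3) : Matrix.of (mul3 X Y) = Matrix.of X * Matrix.of Y := rfl

theorem ip_tr_Diag (X Y : M3) : ip3 X Y = Matrix.trace ((Matrix.of X)ᵀ * Matrix.of Y) := by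
  simp only [ip3, Matrix.trace, Matrix.diag, Matrix.mul_apply, Matrix.transpose_apply,
    Matrix.of_apply]
  exact Finset.sum_comm

theorem cj_mul_Diag {P : M3} (h : Matrix.of P * (Matrix.of P)ᵀ = 1) (X Y : M3) :
    mul3 (cj_Diag P X) (cj_Diag P Y) = cj_Diag P (mul3 X Y) := by
  apply Matrix.of.injective
  rw [of_mul_Diag, of_cj_Diag, of_cj_Diag, of_cj_Diag, of_mul_Diag]
  simp only [Matrix.mul_assoc]
  rw [← Matrix.mul_assoc (Matrix.of P) (Matrix.of P)ᵀ, h, Matrix.one_mul]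

theorem cj_ip_Diag {P : M3} (h : Matrix.of P * (Matrix.of P)ᵀ = 1) (X Y : M3) :
    ip3 (cj_Diag P X) (cj_Diag P Y) = ip3 X Y := by
  rw [ip_tr_Diag, ip_tr_Diag, of_cj_Diag, of_cj_Diag]
  simp only [Matrix.transpose_mul, Matrix.transpose_transpose, Matrix.mul_assoc]
  rw [← Matrix.mul_assoc (Matrix.of P) (Matrix.of P)ᵀ, h, Matrix.one_mul, Matrix.trace_mul_comm]
  simp only [Matrix.mul_assoc, h, Matrix.mul_one]

theorem cj_st_Diag {P X : M3} (h : Matrix.of P * (Matrix.of P)ᵀ = 1) (hX : ST X) :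
    ST (cj_Diag P X) := by
  have h1 : (Matrix.of X)ᵀ = Matrix.of X := by
    ext i j
    exact hX.symm j i
  constructor
  · intro i j
    have h2 : (Matrix.of (cj_Diag P X))ᵀ = Matrix.of (cj_Diag P X) := by
      simp only [of_cj_Diag, Matrix.transpose_mul, Matrix.transpose_transpose, h1, Matrix.mul_assoc]
    exact congrFun (congrFun h2 j) i
  · change Matrix.trace (Matrix.of (cj_Diag P X)) = 0
    rw [of_cj_Diag, Matrix.mul_assoc, Matrix.trace_mul_comm, Matrix.mul_assoc, h, Matrix.mul_one]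
    exact hX.tr

theorem cj_row_Diag {P : M3} (h : Matrix.of P * (Matrix.of P)ᵀ = 1) (X : M3) (k j : Fin 3) :
    ∑ l, cj_Diag P X k l * P j l = ∑ i, P i k * X i j := by
  have h1 : Matrix.of (cj_Diag P X) * (Matrix.of P)ᵀ = (Matrix.of P)ᵀ * Matrix.of X := by
    rw [of_cj_Diag, Matrix.mul_assoc, h, Matrix.mul_one]
  exact congrFun (congrFun h1 k) j

theorem iso_Diag (hs : s = 1 ∨ s = -1) {α : Fin 3 → ℝ} (h : ∑ i, α i * α i = 1) (x : Fin 4 → ℝ) :
    ∑ n, (∑ m, (∑ j, α j * eta s j n m) * x m) ^ 2 = ∑ m, x m ^ 2 := by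
  simp only [Fin.sum_univ_three] at h
  rcases hs with rfl | rfl <;>
  · simp [Fin.sum_univ_four, Fin.sum_univ_three, eta]
    linear_combination (x 0 ^ 2 + x 1 ^ 2 + x 2 ^ 2 + x 3 ^ 2) * h

theorem dv_Diag {P : M3} (hP : Matrix.of P * (Matrix.of P)ᵀ = 1) (h : Dv s D) (k : Fin 3)
    (n : Fin 4) : ∑ l, ∑ m, (∑ j, P j l * eta s j n m) * cj_Diag P (D m) k l = 0 := by
  have h1 : ∀ m, ∑ l, (∑ j, P j l * eta s j n m) * cj_Diag P (D m) k l =
      ∑ i, ∑ j, P i k * (eta s j n m * D m i j) := fun m => by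
    have h2 := cj_row_Diag hP (D m) k
    simp only [Fin.sum_univ_three] at h2 ⊢
    linear_combination eta s 0 n m * h2 0 + eta s 1 n m * h2 1 + eta s 2 n m * h2 2
  rw [Finset.sum_comm, Finset.sum_congr rfl fun m _ => h1 m, Finset.sum_comm]
  refine Finset.sum_eq_zero fun i _ => ?_
  rw [Finset.sum_comm]
  simp only [← Finset.mul_sum]
  rw [h i n, mul_zero]

theorem add_zero3 (hA : ST A) (hD : ∀ m, ST (D m)) (hs : s = 1 ∨ s = -1) (h : Dv s D)
    (H : (6 * cub A ^ 2 ≠ nsq A ^ 3 ∧ ∀ m, ip3 A (D m) = 0 ∧ ip3 (mul3 A A) (D m) = 0) ∨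
      (nsq A ≠ 0 ∧ ∃ κ : ℝ, (∀ i j, mul3 A A i j = κ * A i j + if i = j then nsq A / 3 else 0) ∧
        ∀ m i j, mul3 A (D m) i j + mul3 (D m) A i j = κ * D m i j)) :
    ∑ m, ip3 A (mul3 (D m) (D m)) = 0 := by
  obtain ⟨P, w, p1, p2, hw⟩ := diag3 hA.symm
  have h1 : (Matrix.of P)ᵀ * Matrix.of P = 1 := by
    ext k l
    exact (p1 k l).trans (Matrix.one_apply (i := k) (j := l)).symm
  have h2 : Matrix.of P * (Matrix.of P)ᵀ = 1 := by
    ext k l
    exact (p2 k l).trans (Matrix.one_apply (i := k) (j := l)).symm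
  have h3 : cj_Diag P A = fun k l => if k = l then w k else 0 := by
    have e1 : Matrix.of A = Matrix.of P * Matrix.diagonal w * (Matrix.of P)ᵀ := by
      ext i j
      rw [Matrix.mul_apply]
      simp only [Matrix.mul_diagonal, Matrix.of_apply, Matrix.transpose_apply]
      exact hw i j
    apply Matrix.of.injective
    rw [of_cj_Diag, e1]
    simp only [Matrix.mul_assoc, h1, Matrix.mul_one]
    rw [← Matrix.mul_assoc, h1, Matrix.one_mul]
    rfl
  have hw0 : w 0 + w 1 + w 2 = 0 := by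
    have := (cj_st_Diag h2 hA).tr
    simpa [h3, Fin.sum_univ_three] using this
  have hn : nsq A = w 0 ^ 2 + w 1 ^ 2 + w 2 ^ 2 := by
    rw [nsq_eq_ip3, ← cj_ip_Diag h2, h3]
    simp [ip3, Fin.sum_univ_three, sq]
  have hc : cub A = w 0 ^ 3 + w 1 ^ 3 + w 2 ^ 3 := by
    rw [cub, ← cj_ip_Diag h2, ← cj_mul_Diag h2, h3]
    simp [ip3, mul3, Fin.sum_univ_three]
    ring
  have hD' := fun m => cj_st_Diag h2 (hD m)
  have hz : ∀ m k, cj_Diag P (D m) k k = 0 := by
    intro m k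
    rcases H with ⟨H1, H2⟩ | ⟨H1, κ, H2, H3⟩
    · obtain ⟨e1, e2⟩ := H2 m
      have e0 := (hD' m).tr
      rw [← cj_ip_Diag h2, h3] at e1
      rw [← cj_ip_Diag h2, ← cj_mul_Diag h2, h3] at e2
      simp [ip3, mul3, Fin.sum_univ_three] at e0 e1 e2
      have hV : (w 0 - w 1) * (w 0 - w 2) * (w 1 - w 2) ≠ 0 := fun hV => H1 (by
        have e3 : w 2 = -w 0 - w 1 := by linarith
        rw [hn, hc]
        rw [e3] at hV ⊢
        linear_combination (-2 * ((w 0 - w 1) * (w 0 - (-w 0 - w 1)) * (w 1 - (-w 0 - w 1)))) * hV)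
      refine mul_left_cancel₀ hV ?_
      fin_cases k
      · change _ * cj_Diag P (D m) 0 0 = _
        linear_combination (w 1 - w 2) * (e2 - (w 1 + w 2) * e1 + w 1 * w 2 * e0)
      · change _ * cj_Diag P (D m) 1 1 = _
        linear_combination -(w 0 - w 2) * (e2 - (w 0 + w 2) * e1 + w 0 * w 2 * e0)
      · change _ * cj_Diag P (D m) 2 2 = _
        linear_combination (w 0 - w 1) * (e2 - (w 0 + w 1) * e1 + w 0 * w 1 * e0)
    · have e1 : Matrix.of (mul3 A A) = κ • Matrix.of A + (nsq A / 3) • 1 := by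
        ext i j
        simp [H2 i j, Matrix.one_apply]
      have e2 : Matrix.of (mul3 A (D m)) + Matrix.of (mul3 (D m) A) = κ • Matrix.of (D m) := by
        ext i j
        exact H3 m i j
      have e3 : Matrix.of (cj_Diag P (mul3 A A)) =
          κ • Matrix.of (cj_Diag P A) + (nsq A / 3) • 1 := by
        simp only [of_cj_Diag, e1, Matrix.mul_add, Matrix.add_mul, Matrix.mul_smul,
          Matrix.smul_mul, Matrix.mul_one, h1]
      have e4 : Matrix.of (cj_Diag P (mul3 A (D m))) + Matrix.of (cj_Diag P (mul3 (D m) A)) =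
          κ • Matrix.of (cj_Diag P (D m)) := by
        simp only [of_cj_Diag]
        rw [← Matrix.add_mul, ← Matrix.mul_add, e2, Matrix.mul_smul, Matrix.smul_mul]
      have e5 := congrFun (congrFun e3 k) k
      have e6 := congrFun (congrFun e4 k) k
      rw [← cj_mul_Diag h2, h3] at e5
      rw [← cj_mul_Diag h2, ← cj_mul_Diag h2, h3] at e6
      simp [mul3] at e5 e6
      have hV : 2 * w k - κ ≠ 0 := fun hV => H1 (le_antisymm (by
        have e7 : κ = 2 * w k := by linarith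
        rw [e7] at e5
        nlinarith [sq_nonneg (w k)]) (nsq_nonneg A))
      refine mul_left_cancel₀ hV ?_
      linear_combination e6
  have hu : ∀ l, ∑ i, P i l * P i l = 1 := fun l => by simpa using p1 l l
  have r0 : ∑ m, cj_Diag P (D m) 0 1 ^ 2 = ∑ m, cj_Diag P (D m) 0 2 ^ 2 := by
    rw [← iso_Diag hs (hu 1), ← iso_Diag hs (hu 2) fun m => cj_Diag P (D m) 0 2]
    refine Finset.sum_congr rfl fun n _ => ?_
    have e := dv_Diag h2 h 0 n
    rw [Fin.sum_univ_three] at e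
    simp only [hz, mul_zero, Finset.sum_const_zero, zero_add] at e
    rw [eq_neg_of_add_eq_zero_left e, neg_sq]
  have r1 : ∑ m, cj_Diag P (D m) 1 0 ^ 2 = ∑ m, cj_Diag P (D m) 1 2 ^ 2 := by
    rw [← iso_Diag hs (hu 0), ← iso_Diag hs (hu 2) fun m => cj_Diag P (D m) 1 2]
    refine Finset.sum_congr rfl fun n _ => ?_
    have e := dv_Diag h2 h 1 n
    rw [Fin.sum_univ_three] at e
    simp only [hz, mul_zero, Finset.sum_const_zero, add_zero] at e
    rw [eq_neg_of_add_eq_zero_left e, neg_sq]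
  have r2 : ∀ m, ip3 A (mul3 (D m) (D m)) = (w 0 + w 1) * cj_Diag P (D m) 0 1 ^ 2 +
      (w 0 + w 2) * cj_Diag P (D m) 0 2 ^ 2 + (w 1 + w 2) * cj_Diag P (D m) 1 2 ^ 2 := fun m => by
    rw [← cj_ip_Diag h2, ← cj_mul_Diag h2, h3]
    simp [ip3, mul3, Fin.sum_univ_three, hz, (hD' m).symm 1 0, (hD' m).symm 2 0, (hD' m).symm 2 1]
    ring
  simp only [(hD' _).symm 1 0] at r1
  simp only [r2, Finset.sum_add_distrib, ← Finset.mul_sum]
  rw [← r0, ← r1]
  linear_combination 2 * (∑ m, cj_Diag P (D m) 0 1 ^ 2) * hw0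

end

end Vale.Agent.P211
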