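import Vale.Agent.P211.GronA

/-! P211 Gron (TASK, owner helper99). Helper names end with `_Gron`. Equality of the two norms propagates along curves.
`f t = nsq (A true (c t))`, `g t = nsq (A false (c t))`, `a₀ = f 0 = g 0 > 0`, `c₀ = 2 a₀ ^ q`; wherever `f = g` both equal `a₀` (`Real.rpow_left_injOn` or strict monotonicity).
`bound`: there is `K` such that at every frame with both norms in `[a₀ / 2, 2 a₀]` one has `∑ nsq (D ε o m) ≤ K (a - b) ^ 2`: `pt`, a lower bound of `x ^ (q - 1)` on the interval (`min` of the end values, or compactness),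
`|√a - √b| ≤ |a - b| / √(2 a₀)`, `|a ^ q - b ^ q| ≤ L |a - b|` (mean value inequality `Convex.norm_image_sub_le_of_norm_hasDerivWithin_le`). Then `φ = f - g` has `|φ'| ≤ K' |φ|` while both values stay in the interval (`nsqv`, `ip3_sq_le`).
Continuation: `IsClosed.Icc_subset_of_forall_mem_nhdsWithin` for `{t | φ t = 0}` on `Icc 0 1`; on a short interval to the right of a zero use `eq_zero_of_abs_deriv_le_mul_abs_self_of_eq_zero_right`. -/

namespace Vale.Agent.P211

open Filter Topology Set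

noncomputable section

variable {O : Type*} {μ q c₀ : ℝ} {A : Bool → O → M3} {D : Bool → O → Fin 4 → M3}
  {D2 : Bool → O → Fin 4 → Fin 4 → M3} {v : Fin 4 → ℝ} {c : ℝ → O} {m : Fin 4}

theorem lin_Gron {B : M3} {T : Fin 4 → M3} {a K φ : ℝ} (hK : 0 ≤ K) (ha : nsq B ≤ a)
    (h : ∑ m, nsq (T m) ≤ K * φ ^ 2) :
    |∑ m, v m * ip3 B (T m)| ≤ ((∑ m, v m ^ 2) * a * K + 1) * |φ| := by
  have a0 : 0 ≤ a := (nsq_nonneg B).trans ha
  have v0 : 0 ≤ ∑ m, v m ^ 2 := Finset.sum_nonneg fun _ _ => sq_nonneg _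
  have h1 := Finset.sum_mul_sq_le_sq_mul_sq Finset.univ v fun m => ip3 B (T m)
  have h2 : ∑ m, ip3 B (T m) ^ 2 ≤ a * (K * φ ^ 2) := by
    refine (Finset.sum_le_sum fun m _ => (ip3_sq_le B (T m)).trans
      (mul_le_mul_of_nonneg_right ha (nsq_nonneg _))).trans ?_
    rw [← Finset.mul_sum]
    exact mul_le_mul_of_nonneg_left h a0
  have h3 := h1.trans (mul_le_mul_of_nonneg_left h2 v0)
  have l0 : 0 ≤ (∑ m, v m ^ 2) * a * K := by positivity
  refine abs_le_of_sq_le_sq (h3.trans ?_) (by positivity)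
  rw [mul_pow, sq_abs, ← mul_assoc, ← mul_assoc]
  exact mul_le_mul_of_nonneg_right (by nlinarith) (sq_nonneg _)

theorem Sys.gron (h : Sys μ A D D2) (hq : 1 / 6 < q)
    (hc : ∀ o, nsq (A true o) ^ q + nsq (A false o) ^ q = c₀) (hcr : Crv A D D2 v c)
    (h0 : nsq (A true (c 0)) = nsq (A false (c 0))) (hp : 0 < nsq (A true (c 0))) :
    nsq (A true (c 1)) = nsq (A false (c 1)) ∧ 0 < nsq (A true (c 1)) := by
  obtain ⟨K, hK, hb⟩ := h.bound hq hc hp
  have key : ∀ t, nsq (A true (c t)) = nsq (A false (c t)) →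
      nsq (A true (c t)) = nsq (A true (c 0)) := fun t ht => by
    have a1 := hc (c t)
    have a2 := hc (c 0)
    rw [← ht] at a1
    rw [← h0] at a2
    exact (Real.rpow_left_inj (nsq_nonneg _) hp.le (by linarith : q ≠ 0)).1 (by linarith)
  have ct : ∀ ε, Continuous fun s => nsq (A ε (c s)) := fun ε =>
    continuous_iff_continuousAt.2 fun t => (hcr.nsqv ε t).continuousAt
  have main : Icc (0 : ℝ) 1 ⊆ {t | nsq (A true (c t)) = nsq (A false (c t))} := by
    refine IsClosed.Icc_subset_of_forall_mem_nhdsWithin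
      ((isClosed_eq (ct true) (ct false)).inter isClosed_Icc) h0 fun x hx => ?_
    have e0 : nsq (A true (c x)) = nsq (A false (c x)) := hx.1
    have e1 := key x e0
    have n1 : ∀ ε, nsq (A ε (c x)) = nsq (A true (c 0)) → ∀ᶠ y in 𝓝 x,
        nsq (A ε (c y)) ∈ Icc (nsq (A true (c 0)) / 2) (2 * nsq (A true (c 0))) := fun ε e =>
      (ct ε).continuousAt.eventually (Icc_mem_nhds (by linarith) (by linarith))
    obtain ⟨δ, hδ, hy⟩ := Metric.eventually_nhds_iff.1
      ((n1 true e1).and (n1 false (e0.symm.trans e1)))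
    refine mem_of_superset (Icc_mem_nhdsGT (lt_add_of_pos_right x hδ)) fun z hz => sub_eq_zero.1 ?_
    refine eq_zero_of_abs_deriv_le_mul_abs_self_of_eq_zero_right
      (K := 4 * ((∑ m, v m ^ 2) * (2 * nsq (A true (c 0))) * K + 1))
      ((ct true).sub (ct false)).continuousOn
      (fun y _ => ((hcr.nsqv true y).sub (hcr.nsqv false y)).hasDerivWithinAt)
      (sub_eq_zero.2 e0) (fun y hy' => ?_) z hz
    obtain ⟨b1, b2⟩ := hy (y := y) (by
      rw [Real.dist_eq, abs_lt]
      exact ⟨by linarith [hy'.1], by linarith [hy'.2]⟩)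
    have c1 := lin_Gron (v := v) hK b1.2 (hb _ b1 b2 true)
    have c2 := lin_Gron (v := v) hK b2.2 (hb _ b1 b2 false)
    rw [Real.norm_eq_abs, Real.norm_eq_abs, ← mul_sub, abs_mul, abs_two]
    have c3 := abs_sub (∑ m, v m * ip3 (A true (c y)) (D true (c y) m))
      (∑ m, v m * ip3 (A false (c y)) (D false (c y) m))
    simp only [Pi.sub_apply]
    linarith
  have e1 : nsq (A true (c 1)) = nsq (A false (c 1)) := main ⟨zero_le_one, le_rfl⟩
  exact ⟨e1, key 1 e1 ▸ hp⟩

end

end Vale.Agent.P211
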