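import Vale.Agent.P211.Der

/-! P211 Small (TASK, owner helper99). Helper names end with `_Small`. The smaller half vanishes.
`cpt` for `Φ = min (nsq ·.1) (nsq ·.2)` gives `o₀`. Let `ε` be the sign with `nsq (A ε o₀) < nsq (A (!ε) o₀)`. For each `m` take the curve `crv o₀ (Pi.single m 1)`; by continuity (`nsq1`) the inequality persists near `0`, so
`nsq (A ε (c t))` has a local maximum at `0`; `second_le` with `nsq1`, `nsq2`; sum over `m`, `sum_ip`, `ip3_wz`: `μ a ≤ cub`, with `cub_le`: `a = 0` or `√6 μ ≤ √a`; the latter contradicts `pos`. So the maximum of the minimum is `0`. -/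

namespace Vale.Agent.P211

open Filter Topology Set

noncomputable section

variable {O : Type*} {μ q c₀ : ℝ} {A : Bool → O → M3} {D : Bool → O → Fin 4 → M3}
  {D2 : Bool → O → Fin 4 → Fin 4 → M3} {v : Fin 4 → ℝ} {c : ℝ → O} {m : Fin 4}

theorem key_Small (h : Sys μ A D D2) {ε ε' : Bool} {o₀ : O}
    (hm : ∀ o, min (nsq (A ε o)) (nsq (A ε' o)) ≤ nsq (A ε o₀))
    (hlt : nsq (A ε o₀) < nsq (A ε' o₀))
    (hp : √(nsq (A ε o₀)) + √(nsq (A ε' o₀)) ≤ 2 * √6 * μ) : nsq (A ε o₀) = 0 := by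
  have h1 : ∀ m : Fin 4, ip3 (A ε o₀) (D2 ε o₀ m m) ≤ 0 := fun m => by
    obtain ⟨c, rfl, hc⟩ := h.crv o₀ (Pi.single m 1)
    have h2 := ((hc.nsq1 ε 0).continuousAt).eventually_lt ((hc.nsq1 ε' 0).continuousAt) hlt
    have h3 : IsLocalMax (fun s => nsq (A ε (c s))) 0 := h2.mono fun s hs => by
      have := hm (c s)
      rwa [min_eq_left hs.le] at this
    have h4 := (second_le h3 (Eventually.of_forall fun s => hc.nsq1 ε s) (hc.nsq2 ε 0)).2
    linarith [nsq_nonneg (D ε (c 0) m)]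
  have h2 : ∑ m, ip3 (A ε o₀) (D2 ε o₀ m m) ≤ 0 := Finset.sum_nonpos fun m _ => h1 m
  rw [h.sum_ip, ip3_wz (h.st ε o₀)] at h2
  have h3 := cub_le (h.st ε o₀)
  have h4 := Real.sqrt_lt_sqrt (nsq_nonneg _) hlt
  have h5 : (0 : ℝ) ≤ √6 := Real.sqrt_nonneg _
  refine le_antisymm (not_lt.1 fun h0 => ?_) (nsq_nonneg _)
  have h6 : √6 * (μ * nsq (A ε o₀)) ≤ √6 * cub (A ε o₀) :=
    mul_le_mul_of_nonneg_left (by linarith) h5
  have h7 : nsq (A ε o₀) * √(nsq (A ε o₀)) < nsq (A ε o₀) * (√6 * μ) :=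
    mul_lt_mul_of_pos_left (by linarith) h0
  linarith

theorem Sys.small (h : Sys μ A D D2) (hμ : 0 < μ) (hne : ∀ o, nsq (A true o) ≠ nsq (A false o))
    (o : O) : nsq (A true o) = 0 ∨ nsq (A false o) = 0 := by
  obtain ⟨o₀, h0⟩ := h.cpt (fun p => min (nsq p.1) (nsq p.2))
    ((continuous_nsq.comp continuous_fst).min (continuous_nsq.comp continuous_snd))
  have h1 : min (nsq (A true o₀)) (nsq (A false o₀)) ≤ 0 := by
    rcases lt_or_gt_of_ne (hne o₀) with h2 | h2
    · exact (min_le_left _ _).trans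
        (key_Small h (fun o' => (h0 o').trans (min_le_left _ _)) h2 (h.pos o₀)).le
    · exact (min_le_right _ _).trans (key_Small h
        (fun o' => (min_comm _ _).le.trans ((h0 o').trans (min_le_right _ _))) h2
        (by linarith [h.pos o₀])).le
  rcases min_le_iff.1 ((h0 o).trans h1) with h2 | h2
  · exact Or.inl (le_antisymm h2 (nsq_nonneg _))
  · exact Or.inr (le_antisymm h2 (nsq_nonneg _))

end

end Vale.Agent.P211
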