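import Vale.Agent.P211.Half
import Vale.Agent.P211.Small
import Vale.Agent.P211.Gron

/-! P211 Main (owner helper99): the case analysis for the abstract system. -/

namespace Vale.Agent.P211

open Filter Topology Set

noncomputable section

variable {O : Type*} {μ q c₀ : ℝ} {A : Bool → O → M3} {D : Bool → O → Fin 4 → M3}
  {D2 : Bool → O → Fin 4 → Fin 4 → M3}

theorem Sys.eq_zero (h : Sys μ A D D2) (hq : 1 / 6 < q)
    (hc : ∀ o, nsq (A true o) ^ q + nsq (A false o) ^ q = c₀) {o : O}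
    (he : nsq (A true o) = nsq (A false o)) (hp : 0 < nsq (A true o)) (ε : Bool) (m : Fin 4) :
    D ε o m = 0 := by
  obtain ⟨K, -, hK⟩ := h.bound hq hc hp
  have hI : nsq (A true o) ∈ Icc (nsq (A true o) / 2) (2 * nsq (A true o)) :=
    ⟨by linarith, by linarith⟩
  have h1 := hK o hI (he ▸ hI) ε
  rw [he, sub_self, zero_pow two_ne_zero, mul_zero] at h1
  have h8 : ∑ m, nsq (D ε o m) = 0 :=
    le_antisymm h1 (Finset.sum_nonneg fun m _ => nsq_nonneg _)
  exact eq_zero_of_nsq ((Finset.sum_eq_zero_iff_of_nonneg fun m _ => nsq_nonneg _).1 h8 m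
    (Finset.mem_univ m))

theorem Sys.main (h : Sys μ A D D2) (hμ : 0 < μ) (hq : 1 / 6 < q)
    (hc : ∀ o, nsq (A true o) ^ q + nsq (A false o) ^ q = c₀) {B : Type*} (base : O → B)
    (reach : ∀ o y, ∃ v c, c 0 = o ∧ Crv A D D2 v c ∧ base (c 1) = y)
    (ne : ∀ y, ∃ o, base o = y) (y : B) : ∃ o, base o = y ∧ ∀ ε m, D ε o m = 0 := by
  have hq0 : 0 < q := lt_trans (by norm_num) hq
  by_cases h1 : ∃ o, nsq (A true o) = nsq (A false o) ∧ 0 < nsq (A true o)
  · obtain ⟨o, he, hp⟩ := h1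
    obtain ⟨v, c, hc0, hcr, hy⟩ := reach o y
    obtain ⟨k1, k2⟩ := h.gron hq hc hcr (by rw [hc0, he]) (by rwa [hc0])
    exact ⟨c 1, hy, h.eq_zero hq hc k1 k2⟩
  have h0 : ∀ o, nsq (A true o) = 0 ∨ nsq (A false o) = 0 := by
    by_cases h2 : ∀ o, nsq (A true o) ≠ nsq (A false o)
    · exact h.small hμ h2
    · push Not at h2
      obtain ⟨o, he⟩ := h2
      have hz : nsq (A true o) = 0 :=
        le_antisymm (not_lt.1 fun k => h1 ⟨o, he, k⟩) (nsq_nonneg _)
      have hc0 := hc o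
      rw [← he, hz, Real.zero_rpow hq0.ne', add_zero] at hc0
      intro o'
      have b1 := Real.rpow_nonneg (nsq_nonneg (A true o')) q
      have b2 := Real.rpow_nonneg (nsq_nonneg (A false o')) q
      have b3 := hc o'
      exact Or.inl ((Real.rpow_eq_zero (nsq_nonneg _) hq0.ne').1 (by linarith))
  have hs : ∀ o, nsq (A true o) + nsq (A false o) = c₀ ^ q⁻¹ := fun o => by
    have hc0 := hc o
    rcases h0 o with k | k
    · rw [k, Real.zero_rpow hq0.ne', zero_add] at hc0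
      rw [k, zero_add, ← hc0, Real.rpow_rpow_inv (nsq_nonneg _) hq0.ne']
    · rw [k, Real.zero_rpow hq0.ne', add_zero] at hc0
      rw [k, add_zero, ← hc0, Real.rpow_rpow_inv (nsq_nonneg _) hq0.ne']
  obtain ⟨o, ho⟩ := ne y
  exact ⟨o, ho, fun ε m => h.half hμ h0 hs ε o m⟩

theorem Sys.wz_eq (h : Sys μ A D D2) (h0 : ∀ ε o m, D ε o m = 0) (ε : Bool) (o : O)
    (i j : Fin 3) : wz μ (A ε o) i j = 0 := by
  rw [← h.lap]
  refine Finset.sum_eq_zero fun m _ => ?_
  obtain ⟨c, hc0, hc⟩ := h.crv o (Pi.single m 1)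
  have h1 := hc.e2 ε 0 i j
  have h2 : (fun s => D ε (c s) m i j) = fun _ => 0 := funext fun s => by
    rw [h0]
    rfl
  rw [h2, hc0] at h1
  exact h1.unique (hasDerivAt_const 0 0)

theorem Sys.fin (h : Sys μ A D D2) (h0 : ∀ ε o m, D ε o m = 0) (ε : Bool) (o : O) :
    nsq (A ε o) = 0 ∨ nsq (A ε o) = 6 * μ ^ 2 :=
  wz_zero (h.st ε o) (h.wz_eq h0 ε o)

end

end Vale.Agent.P211
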