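import Vale.Agent.P211.Jet
import Vale.Agent.P211.Cpt
import Vale.Agent.P211.CptA
import Vale.Agent.P211.Main
import Vale.Agent.P211.AlgL
import Vale.Agent.P211.AlgD
import Vale.Agent.P211.AlgK

/-! P211 Final (owner helper99): the system of Weyl matrices of an Einstein four-manifold. -/

namespace Vale.Agent.P211

open scoped ContDiff Manifold Topology
open Vale.Agent.P255 Vale.Agent.P234 Vale.Agent.P231 Filter Set Function

noncomputable section

variable {M : Type*} [TopologicalSpace M] [ChartedSpace E4 M] [IsManifold 𝓘(ℝ, E4) ∞ M]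
  [T2Space M] [CompactSpace M] {g : Metric E4 M} {l : ℝ}

/-- The Weyl matrices. -/
def wA (l : ℝ) (ε : Bool) (o : Fm g) : M3 := weyl (sg ε) (l / 3) (r0 o)

/-- Their derivatives. -/
def wD (ε : Bool) (o : Fm g) (m : Fin 4) : M3 := weyl (sg ε) 0 (r1 o m)

/-- Their second derivatives. -/
def wD2 (ε : Bool) (o : Fm g) (q m : Fin 4) : M3 := weyl (sg ε) 0 (r2 o q m)

theorem weyl_deriv {f : ℝ → Arr} {F : Fin 4 → Arr} {v : Fin 4 → ℝ} {t : ℝ} (s μ : ℝ)
    (h : ∀ a b c d, HasDerivAt (fun s => f s a b c d) (∑ m, v m * F m a b c d) t) (i j : Fin 3) :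
    HasDerivAt (fun u => weyl s μ (f u) i j) (∑ m, v m * weyl s 0 (F m) i j) t := by
  have k := (((((h 0 (![1, 2, 3] i) 0 (![1, 2, 3] j)).add
    ((h 0 (![1, 2, 3] i) (![2, 3, 1] j) (![3, 1, 2] j)).const_mul s)).add
    ((h (![2, 3, 1] i) (![3, 1, 2] i) 0 (![1, 2, 3] j)).const_mul s)).add
    (h (![2, 3, 1] i) (![3, 1, 2] i) (![2, 3, 1] j) (![3, 1, 2] j))).div_const 2).sub_const
    (if i = j then μ else 0)
  refine k.congr_deriv ?_
  simp only [weyl, ite_self, sub_zero, Fin.sum_univ_four]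
  ring

theorem crv_w (l : ℝ) (o : Fm g) (v : Fin 4 → ℝ) : ∃ c : ℝ → Fm g, c 0 = o ∧
    (∀ t, (c t).1.1 = g.geo o.1.1 (∑ m, v m • o.1.2 m) t) ∧ Crv (wA l) wD wD2 v c := by
  obtain ⟨c, h0, hb, h1, h2⟩ := crv o v
  exact ⟨c, h0, hb, fun t ε i j => weyl_deriv _ _ (h1 t) i j,
    fun t ε m i j => weyl_deriv _ _ (h2 t m) i j⟩

theorem continuous_weyl (s μ : ℝ) : Continuous fun r : Arr => weyl s μ r := by
  refine continuous_pi fun i => continuous_pi fun j => ?_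
  unfold weyl
  fun_prop

theorem sys_of [Nonempty M] (hE : Einstein g l) (hK : SecNonneg g) :
    Sys (l / 3) (wA (g := g) l) wD wD2 where
  st ε o := (jet_of hE o).c0.st ε
  std ε o m := ((jet_of hE o).c1 m).st ε
  dv ε o := (jet_of hE o).dv ε
  lap ε o i j := (jet_of hE o).lap ε i j
  pos o := (jet_of hE o).c0.pos (sec_pos hK o)
  crv o v := by
    obtain ⟨c, h0, -, hc⟩ := crv_w l o v
    exact ⟨c, h0, hc⟩
  cpt Φ hΦ := by
    obtain ⟨x⟩ := ‹Nonempty M›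
    obtain ⟨f, hf⟩ := exists_ON g x
    have hc : Continuous fun r : Arr => Φ (weyl (sg true) (l / 3) r, weyl (sg false) (l / 3) r) :=
      hΦ.comp ((continuous_weyl _ _).prodMk (continuous_weyl _ _))
    obtain ⟨_, ⟨o, rfl⟩, ho⟩ := (compact_r0 g).exists_isMaxOn ⟨_, ⟨⟨(x, f), hf⟩, rfl⟩⟩
      hc.continuousOn
    exact ⟨o, fun o' => ho ⟨o', rfl⟩⟩

theorem reach [ConnectedSpace M] (l : ℝ) (o : Fm g) (y : M) :
    ∃ v c, c 0 = o ∧ Crv (wA l) wD wD2 v c ∧ (c 1).1.1 = y := by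
  obtain ⟨u, hu, -⟩ := hopf_rinow g o.1.1 y
  obtain ⟨c, h0, hb, hc⟩ := crv_w l o fun m => ipr g o.1.1 u (o.1.2 m)
  refine ⟨_, c, h0, hc, ?_⟩
  rw [hb, ← o.2.span u, ← g.exp_smul, one_smul, hu]

theorem wn_eq (l : ℝ) (ε : Bool) (o : Fm g) :
    wn g l (sg ε) o.1.1 o.1.2 = √(nsq (wA l ε o)) := rfl

/-- If the derivative of both Weyl matrices vanishes in one frame at each point, the curvature is parallel. -/
theorem symm_of (hE : Einstein g l) (h : ∀ y, ∃ o : Fm g, o.1.1 = y ∧ ∀ ε m, wD ε o m = 0)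
    (x : M) (p : E4) (m : Fin 4 → E4) : R1 g x p m = 0 := by
  obtain ⟨o, rfl, ho⟩ := h x
  exact R1_zero o (fun p => ((jet_of hE o).c1 p).zero fun ε => ho ε p) p m

theorem wD_zero (h : ∀ x p m, R1 g x p m = 0) (ε : Bool) (o : Fm g) (m : Fin 4) :
    wD ε o m = 0 := by
  funext i j
  simp [wD, weyl, r1, h]

theorem final [ConnectedSpace M] (hl : 0 < l) (hE : Einstein g l) (hK : SecNonneg g) {p c : ℝ}
    (hp : 1 / 3 < p) (h : ∀ x e, ON g x e → wn g l 1 x e ^ p + wn g l (-1) x e ^ p = c) :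
    LocSymm g ∧ ∀ x e, ON g x e → ∀ s, s = 1 ∨ s = -1 →
      wn g l s x e = 0 ∨ wn g l s x e = √(2 / 3) * l := by
  have hS := sys_of hE hK
  have hc : ∀ o : Fm g, nsq (wA l true o) ^ (p / 2) + nsq (wA l false o) ^ (p / 2) = c := by
    intro o
    have h1 := h o.1.1 o.1.2 o.2
    have e1 : wn g l 1 o.1.1 o.1.2 = √(nsq (wA l true o)) := wn_eq l true o
    have e2 : wn g l (-1) o.1.1 o.1.2 = √(nsq (wA l false o)) := wn_eq l false o
    rw [e1, e2, Real.sqrt_eq_rpow, Real.sqrt_eq_rpow, ← Real.rpow_mul (nsq_nonneg _),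
      ← Real.rpow_mul (nsq_nonneg _), show 1 / 2 * p = p / 2 by ring] at h1
    exact h1
  have hR := symm_of hE (hS.main (by positivity) (by linarith) hc (fun o => o.1.1) (reach l)
    fun y => (exists_ON g y).elim fun f hf => ⟨⟨(y, f), hf⟩, rfl⟩)
  refine ⟨locSymm_of hR, fun x e he s hs => ?_⟩
  obtain ⟨ε, rfl⟩ : ∃ ε, s = sg ε := hs.elim (fun k => ⟨true, k⟩) fun k => ⟨false, k⟩
  have e1 : wn g l (sg ε) x e = √(nsq (wA l ε ⟨(x, e), he⟩)) := wn_eq l ε ⟨(x, e), he⟩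
  rw [e1]
  refine (hS.fin (wD_zero hR) ε ⟨(x, e), he⟩).imp (fun k => by rw [k, Real.sqrt_zero]) fun k => ?_
  rw [k, show 6 * (l / 3) ^ 2 = 2 / 3 * l ^ 2 by ring, Real.sqrt_mul (by norm_num),
    Real.sqrt_sq hl.le]

end

end Vale.Agent.P211
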