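import Vale.Agent.P211.Stmt

/-!
The least and the greatest sectional curvature at each point.
-/

namespace Vale.Agent.P211

open Vale.Agent.P255 Vale.Agent.P234

variable {M : Type*} [TopologicalSpace M] [ChartedSpace E4 M] (g : Metric E4 M)

/-- Orthonormal pairs at `x`. -/
def ON2 (x : M) (u v : E4) : Prop := ipr g x u u = 1 ∧ ipr g x v v = 1 ∧ ipr g x u v = 0

/-- At every point the least sectional curvature is `κ`. -/
def MinSec (κ : ℝ) : Prop := ∀ x, IsLeast {k | ∃ u v, ON2 g x u v ∧ rm g x u v u v = k} κ

/-- At every point the greatest sectional curvature is `κ`. -/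
def MaxSec (κ : ℝ) : Prop := ∀ x, IsGreatest {k | ∃ u v, ON2 g x u v ∧ rm g x u v u v = k} κ

end Vale.Agent.P211
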