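import Vale.Agent.P211.Geo

/-! P211 Frm (TASK, owner helper99). Helper names end with `_Frm`. Orthonormal frames and curves of frames. Library: P234/Basic, P255/Geo2, P231/G/ParA, ParB, Par (`par_hc_on`, `Fr.expand` show similar arguments).
`ON.span`: four orthonormal vectors are linearly independent, hence a basis (`basisOfLinearIndependentOfCardEqFinrank`, `finrank_euclideanSpace_fin`); `ipr g x u v = g.ip x u v` is `rfl` (`ipr_eq`).
`exists_ON`: `LinearMap.BilinForm.exists_orthogonal_basis` and normalise (or `par_hc_on` of P231/G/Par with a unit vector; then import that file).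
`crv`: `w = ∑ m, v m • e m`, `X a` from `exists_par g x w (e a)`, orthonormal by `IsPar.ip_const`, `geo_zero`; `vel = ∑ m, v m • X m t` by `ON.span`, `isPar_vel`, `ip_const`, `vel_geo_zero`; `R0_deriv`, `R1_deriv` with the fields
`fun s => ![X a s, X b s, X c s, X d s]` (`fin_cases i`), linearity `Tens.cov_lin`, `Tens.cov2_lin` (`rmT_tens`, `g.loc (chart_mem_atlas _ _)`, `mem_chart_target`; `IsLinearMap.mk'`, `map_sum`). -/

namespace Vale.Agent.P211

open scoped ContDiff Manifold Topology
open Vale.Agent.P255 Vale.Agent.P234 Vale.Agent.P231 Filter Set Function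

noncomputable section

variable {M : Type*} [TopologicalSpace M] [ChartedSpace E4 M] [IsManifold 𝓘(ℝ, E4) ∞ M]
  [T2Space M] [CompactSpace M] {g : Metric E4 M} {x : M} {v : E4} {l : ℝ}
  {e : OpenPartialHomeomorph M E4}

variable (g) in
/-- The space of orthonormal frames. -/
def Fm : Type _ := {q : M × (Fin 4 → E4) // ON g q.1 q.2}

/-- Components of the curvature tensor. -/
def r0 (o : Fm g) : Arr := fun a b c d => R0 g o.1.1 ![o.1.2 a, o.1.2 b, o.1.2 c, o.1.2 d]

/-- Components of its derivative. -/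
def r1 (o : Fm g) (p : Fin 4) : Arr :=
  fun a b c d => R1 g o.1.1 (o.1.2 p) ![o.1.2 a, o.1.2 b, o.1.2 c, o.1.2 d]

/-- Components of its second derivative. -/
def r2 (o : Fm g) (q p : Fin 4) : Arr :=
  fun a b c d => R2 g o.1.1 (o.1.2 q) (o.1.2 p) ![o.1.2 a, o.1.2 b, o.1.2 c, o.1.2 d]

theorem span_Frm (B : E4 →L[ℝ] E4 →L[ℝ] ℝ) {f : Fin 4 → E4}
    (h : ∀ i j, B (f i) (f j) = if i = j then 1 else 0) (w : E4) : w = ∑ a, B w (f a) • f a := by
  have key : ∀ (c : Fin 4 → ℝ) j, B (∑ i, c i • f i) (f j) = c j := fun c j => by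
    simp [map_sum, ContinuousLinearMap.sum_apply, h]
  have hli : LinearIndependent ℝ f := Fintype.linearIndependent_iff.2 fun c hc j => by
    rw [← key c j, hc]
    simp
  let b := basisOfLinearIndependentOfCardEqFinrank hli (by simp)
  have hb : ∀ i, b i = f i := fun i => by simp [b]
  have h1 : w = ∑ i, b.repr w i • f i := by
    simpa only [hb] using (b.sum_repr w).symm
  refine h1.trans (Finset.sum_congr rfl fun a _ => ?_)
  rw [← key (fun i => b.repr w i) a, ← h1]

theorem exists_Frm (B : E4 →L[ℝ] E4 →L[ℝ] ℝ) (hs : ∀ u v, B u v = B v u)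
    (hp : ∀ u, u ≠ 0 → 0 < B u u) :
    ∃ f : Fin 4 → E4, ∀ i j, B (f i) (f j) = if i = j then 1 else 0 := by
  let B' : LinearMap.BilinForm ℝ E4 := LinearMap.mk₂ ℝ (fun u v => B u v) (by simp) (by simp)
    (by simp) (by simp)
  obtain ⟨b, hb⟩ := LinearMap.BilinForm.exists_orthogonal_basis (B := B') ⟨fun u v => hs u v⟩
  let σ : Fin 4 ≃ Fin (Module.finrank ℝ E4) := finCongr (by simp)
  refine ⟨fun i => (√(B (b (σ i)) (b (σ i))))⁻¹ • b (σ i), fun i j => ?_⟩
  simp only [map_smul, ContinuousLinearMap.smul_apply, smul_eq_mul]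
  split_ifs with hij
  · subst hij
    have h1 := hp _ (b.ne_zero (σ i))
    have h2 := Real.mul_self_sqrt h1.le
    have h3 := (Real.sqrt_pos.2 h1).ne'
    field_simp
    nlinarith
  · have h1 : B (b (σ i)) (b (σ j)) = 0 := hb fun h => hij (σ.injective h)
    rw [h1, mul_zero, mul_zero]

theorem ON.span {f : Fin 4 → E4} (h : ON g x f) (w : E4) : w = ∑ a, ipr g x w (f a) • f a := by
  exact span_Frm (g.ip x) h w

theorem exists_ON (g : Metric E4 M) (x : M) : ∃ f, ON g x f := by
  exact exists_Frm (g.ip x) (ip_symm g x) (ip_pos g x)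

end

end Vale.Agent.P211
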