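import Vale.Agent.P211.TenB
import Vale.Agent.P211.BiaA
import Vale.Agent.P211.Nat
import Vale.Agent.P231.G.ParB

/-! P211 Geo (owner helper99). The curvature tensor and its derivatives along geodesics with parallel fields. -/

namespace Vale.Agent.P211

open scoped ContDiff Manifold Topology
open Vale.Agent.P255 Vale.Agent.P234 Vale.Agent.P231 Filter Set Function

noncomputable section

variable {M : Type*} [TopologicalSpace M] [ChartedSpace E4 M] [IsManifold 𝓘(ℝ, E4) ∞ M]
  [T2Space M] [CompactSpace M] {g : Metric E4 M} {x : M} {v : E4} {l : ℝ}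
  {e : OpenPartialHomeomorph M E4}

variable (g) in
/-- The curvature tensor at `x`. -/
def R0 (x : M) (m : Fin 4 → E4) : ℝ := rmT (g.g (chartAt E4 x)) (chartAt E4 x x) m

variable (g) in
/-- Its covariant derivative. -/
def R1 (x : M) (p : E4) (m : Fin 4 → E4) : ℝ :=
  cov (g.g (chartAt E4 x)) (rmT (g.g (chartAt E4 x))) (chartAt E4 x x) p m

variable (g) in
/-- Its second covariant derivative. -/
def R2 (x : M) (q p : E4) (m : Fin 4 → E4) : ℝ :=
  cov2 (g.g (chartAt E4 x)) (rmT (g.g (chartAt E4 x))) (chartAt E4 x x) q p m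

omit [T2Space M] [CompactSpace M] in
theorem R0_tr (he : e ∈ atlas E4 M) (hx : x ∈ e.source) (m : Fin 4 → E4) :
    R0 g x m = rmT (g.g e) (e x) fun i => tr e x (m i) := by
  have hc := chart_mem_atlas E4 x
  have hx' := mem_chart_source E4 x
  have e1 : (e ∘ (chartAt E4 x).symm) (chartAt E4 x x) = e x :=
    congrArg e ((chartAt E4 x).left_inv hx')
  have k := nat_riem (g.loc hc) (g.loc he) (mem_chart_target E4 x)
    (e1 ▸ e.map_source hx) ((tr_contDiffAt hc he hx' hx).of_le ENat.LEInfty.out)
    (g.compat_eventually hc he hx' hx) (m 0) (m 1) (m 3)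
  rw [e1] at k
  have h2 := ip_eq g he hx (riem (g.g (chartAt E4 x)) (chartAt E4 x x) (m 0) (m 1) (m 3)) (m 2)
  unfold R0 rmT
  refine Eq.trans h2 ?_
  unfold tr
  rw [k]

theorem R0_chart {X : ℝ → Fin 4 → E4} (hX : ∀ i, IsPar g (g.geo x v) fun s => X s i) {t : ℝ}
    (he : e ∈ atlas E4 M) (ht : g.geo x v t ∈ e.source) :
    HasDerivAt (fun s => R0 g (g.geo x v s) (X s))
      (cov (g.g e) (rmT (g.g e)) (e (g.geo x v t)) (tr e (g.geo x v t) (vel E4 (g.geo x v) t))
        fun i => tr e (g.geo x v t) (X t i)) t := by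
  have h1 := hasDerivAt_geo g he x v ht
  have h2 := (rmT_tens (g.loc he)).curve (G := g.g e) (x := e ∘ g.geo x v)
    (X := fun s i => tr e (g.geo x v s) (X s i)) (e.map_source ht) h1 fun i => by
      have := hX i e he t ht
      rwa [h1.deriv] at this
  refine h2.congr_of_eventuallyEq ?_
  filter_upwards [(g.continuous_geo x v).continuousAt.preimage_mem_nhds
    (e.open_source.mem_nhds ht)] with s hs
  exact R0_tr he hs (X s)

theorem R0_deriv {X : ℝ → Fin 4 → E4} (hX : ∀ i, IsPar g (g.geo x v) fun s => X s i) (t : ℝ) :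
    HasDerivAt (fun s => R0 g (g.geo x v s) (X s))
      (R1 g (g.geo x v t) (vel E4 (g.geo x v) t) (X t)) t := by
  have h := R0_chart hX (chart_mem_atlas E4 (g.geo x v t)) (mem_chart_source E4 _)
  simpa only [tr_self, R1] using h

theorem R1_tr (he : e ∈ atlas E4 M) (hx : x ∈ e.source) (p : E4) (m : Fin 4 → E4) :
    R1 g x p m = cov (g.g e) (rmT (g.g e)) (e x) (tr e x p) fun i => tr e x (m i) := by
  choose X hX h0 using fun i => exists_par g x p (m i)
  have hX' : ∀ i, IsPar g (g.geo x p) fun s => (fun s i => X i s) s i := hX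
  have h1 := R0_deriv hX' 0
  have h2 := R0_chart hX' he (t := 0) (by rwa [g.geo_zero])
  have h3 := h1.unique h2
  simp only [vel_geo_zero, g.geo_zero, h0] at h3
  exact h3

theorem R1_deriv {P : ℝ → E4} {X : ℝ → Fin 4 → E4} (hP : IsPar g (g.geo x v) P)
    (hX : ∀ i, IsPar g (g.geo x v) fun s => X s i) (t : ℝ) :
    HasDerivAt (fun s => R1 g (g.geo x v s) (P s) (X s))
      (R2 g (g.geo x v t) (vel E4 (g.geo x v) t) (P t) (X t)) t := by
  have he := chart_mem_atlas E4 (g.geo x v t)
  have ht := mem_chart_source E4 (g.geo x v t)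
  have h1 := hasDerivAt_geo g he x v ht
  have h2 := (rmT_tens (g.loc he)).curve2 (g.loc he)
    (x := chartAt E4 (g.geo x v t) ∘ g.geo x v)
    (P := fun s => tr (chartAt E4 (g.geo x v t)) (g.geo x v s) (P s))
    (X := fun s i => tr (chartAt E4 (g.geo x v t)) (g.geo x v s) (X s i))
    ((chartAt E4 (g.geo x v t)).map_source ht) h1
    (by
      have := hP _ he t ht
      rwa [h1.deriv] at this)
    fun i => by
      have := hX i _ he t ht
      rwa [h1.deriv] at this
  simp only [tr_self, Function.comp_apply] at h2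
  refine h2.congr_of_eventuallyEq ?_
  filter_upwards [(g.continuous_geo x v).continuousAt.preimage_mem_nhds
    ((chartAt E4 (g.geo x v t)).open_source.mem_nhds ht)] with s hs
  exact R1_tr he hs (P s) (X s)

end

end Vale.Agent.P211
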