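import Vale.Agent.P211.Pt

/-! P211 GronA (TASK, owner helper99). Helper names end with `_GronA`. Equality of the two norms propagates along curves.
`f t = nsq (A true (c t))`, `g t = nsq (A false (c t))`, `a₀ = f 0 = g 0 > 0`, `c₀ = 2 a₀ ^ q`; wherever `f = g` both equal `a₀` (`Real.rpow_left_injOn` or strict monotonicity).
`bound`: there is `K` such that at every frame with both norms in `[a₀ / 2, 2 a₀]` one has `∑ nsq (D ε o m) ≤ K (a - b) ^ 2`: `pt`, a lower bound of `x ^ (q - 1)` on the interval (`min` of the end values, or compactness),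
`|√a - √b| ≤ |a - b| / √(2 a₀)`, `|a ^ q - b ^ q| ≤ L |a - b|` (mean value inequality `Convex.norm_image_sub_le_of_norm_hasDerivWithin_le`). Then `φ = f - g` has `|φ'| ≤ K' |φ|` while both values stay in the interval (`nsqv`, `ip3_sq_le`).
Continuation: `IsClosed.Icc_subset_of_forall_mem_nhdsWithin` for `{t | φ t = 0}` on `Icc 0 1`; on a short interval to the right of a zero use `eq_zero_of_abs_deriv_le_mul_abs_self_of_eq_zero_right`. -/

namespace Vale.Agent.P211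

open Filter Topology Set

noncomputable section

variable {O : Type*} {μ q c₀ : ℝ} {A : Bool → O → M3} {D : Bool → O → Fin 4 → M3}
  {D2 : Bool → O → Fin 4 → Fin 4 → M3} {v : Fin 4 → ℝ} {c : ℝ → O} {m : Fin 4}

theorem Sys.bound (h : Sys μ A D D2) (hq : 1 / 6 < q)
    (hc : ∀ o, nsq (A true o) ^ q + nsq (A false o) ^ q = c₀) {a₀ : ℝ} (ha : 0 < a₀) :
    ∃ K : ℝ, 0 ≤ K ∧ ∀ o, nsq (A true o) ∈ Icc (a₀ / 2) (2 * a₀) →
      nsq (A false o) ∈ Icc (a₀ / 2) (2 * a₀) → ∀ ε,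
      ∑ m, nsq (D ε o m) ≤ K * (nsq (A true o) - nsq (A false o)) ^ 2 := by
  have h0 : ∀ x ∈ Icc (a₀ / 2) (2 * a₀), 0 < x := fun x hx => by linarith [hx.1]
  have hp : ∀ r : ℝ, ContDiffOn ℝ 1 (fun x : ℝ => x ^ r) (Icc (a₀ / 2) (2 * a₀)) := fun r =>
    contDiffOn_id.rpow_const_of_ne fun x hx => (h0 x hx).ne'
  obtain ⟨L₁, h1⟩ := (contDiffOn_id.sqrt (n := 1) fun x hx => (h0 x hx).ne').exists_lipschitzOnWith
    one_ne_zero (convex_Icc _ _) isCompact_Icc
  obtain ⟨L₂, h2⟩ := (hp q).exists_lipschitzOnWith one_ne_zero (convex_Icc _ _) isCompact_Icc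
  obtain ⟨x₀, hx₀, h3⟩ := isCompact_Icc.exists_isMinOn
    (nonempty_Icc.2 (by linarith : a₀ / 2 ≤ 2 * a₀)) (hp (q - 1)).continuousOn
  have hl : 0 < x₀ ^ (q - 1) := Real.rpow_pos_of_pos (h0 _ hx₀) _
  have hκ : 0 < min 2 (2 - 12 / 5 * (1 - q)) := lt_min two_pos (by linarith)
  refine ⟨√6 * L₁ * L₂ / (min 2 (2 - 12 / 5 * (1 - q)) * x₀ ^ (q - 1)), by positivity,
    fun o a1 a2 ε => ?_⟩
  have h4 := h.pt hq hc o (h0 _ a1) (h0 _ a2)
  have s1 : 0 ≤ ∑ m, nsq (D true o m) := Finset.sum_nonneg fun _ _ => nsq_nonneg _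
  have s2 : 0 ≤ ∑ m, nsq (D false o m) := Finset.sum_nonneg fun _ _ => nsq_nonneg _
  have m1 : x₀ ^ (q - 1) ≤ nsq (A true o) ^ (q - 1) := h3 a1
  have m2 : x₀ ^ (q - 1) ≤ nsq (A false o) ^ (q - 1) := h3 a2
  have h5 : x₀ ^ (q - 1) * ∑ m, nsq (D ε o m) ≤ nsq (A true o) ^ (q - 1) * ∑ m, nsq (D true o m) +
      nsq (A false o) ^ (q - 1) * ∑ m, nsq (D false o m) := by
    have b1 := mul_le_mul_of_nonneg_right m1 s1
    have b2 := mul_le_mul_of_nonneg_right m2 s2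
    have b3 := mul_nonneg hl.le s1
    have b4 := mul_nonneg hl.le s2
    cases ε <;> linarith
  have d1 : |√(nsq (A true o)) - √(nsq (A false o))| ≤ L₁ * |nsq (A true o) - nsq (A false o)| :=
    h1.dist_le_mul _ a1 _ a2
  have d2 : |nsq (A true o) ^ q - nsq (A false o) ^ q| ≤ L₂ * |nsq (A true o) - nsq (A false o)| :=
    h2.dist_le_mul _ a1 _ a2
  have h6 := mul_le_mul d1 d2 (abs_nonneg _) (by positivity)
  rw [← abs_mul, mul_mul_mul_comm, abs_mul_abs_self] at h6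
  have h7 := mul_le_mul_of_nonneg_left ((le_abs_self _).trans h6) (Real.sqrt_nonneg 6)
  have h8 := mul_le_mul_of_nonneg_left h5 hκ.le
  rw [div_mul_eq_mul_div, le_div_iff₀ (mul_pos hκ hl)]
  nlinarith

end

end Vale.Agent.P211
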