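import Vale.Agent.P211.HalfB

/-! P211 Half (TASK, owner helper99). Helper names end with `_Half`. One half vanishes at each frame, the other has constant norm.
`const`: `f t = nsq (A ε (c t))` takes values in `{0, a₀}`, so `f (a₀ - f) = 0`, `f' (a₀ - 2 f) = 0`; if `a₀ ≠ 0` then `f' = 0` (`nsqv`, `is_const_of_deriv_eq_zero`), if `a₀ = 0` then `f = 0`.
`dd`: along `crv o (Pi.single m 1)` the function is constant, so `nsq1` is zero for all `t` and `nsq2` is zero at `0` (`HasDerivAt.unique`); sum, `sum_ip`, `ip3_wz`.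
`le`: suppose `6 μ ^ 2 < a₀`. `cpt` for `Φ = -(cub ·.1 + cub ·.2)` gives `o₀`; let `ε` be the sign with `nsq = a₀` there. Along the curves the other half is zero (`const`, `eq_zero_of_nsq`), so `cub (A ε (c t))` has a minimum at `0`:
`second_le` for its negative with `cub1`, `cub2`; sum: `0 ≤ 6 ∑ ip3 A (D D) + 3 (6 μ τ - a₀ ^ 2)` (`ip3_sq_wz`), while `6 μ τ < a₀ ^ 2` by `cub_le`. The sum vanishes by `add_zero3`: first case if `6 τ ^ 2 ≠ a₀ ^ 3`;
otherwise `τ > 0` (`dd`: `τ ≥ μ a₀`), along the curve `cub ≥ τ` and `6 cub ^ 2 ≤ a₀ ^ 3` force `cub = τ`, so `typeD` holds for all `t` with the same constants; differentiate by `mul1`, `e1`.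
`half`: if `nsq (A ε o) = 0` then `A ε (c t) = 0` for all `t`, use `e1`; otherwise `dd`, `cub_le`, `le` give `∑ nsq (D ε o m) ≤ 0`. -/

namespace Vale.Agent.P211

open Filter Topology Set

noncomputable section

variable {O : Type*} {μ q c₀ : ℝ} {A : Bool → O → M3} {D : Bool → O → Fin 4 → M3}
  {D2 : Bool → O → Fin 4 → Fin 4 → M3} {v : Fin 4 → ℝ} {c : ℝ → O} {m : Fin 4}

theorem Sys.zero_of {o : O} {ε : Bool} (h : Sys μ A D D2)
    (hz : ∀ c : ℝ → O, c 0 = o → Crv A D D2 (Pi.single m 1) c → ∀ t, nsq (A ε (c t)) = 0) :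
    D ε o m = 0 := by
  obtain ⟨c, hc0, hc⟩ := h.crv o (Pi.single m 1)
  funext i j
  have h1 := hc.e1 ε 0 i j
  have h2 : (fun s => A ε (c s) i j) = fun _ => 0 := funext fun s => by
    rw [eq_zero_of_nsq (hz c hc0 hc s)]
    rfl
  rw [h2, hc0] at h1
  exact h1.unique (hasDerivAt_const 0 0)

theorem Sys.half {a₀ : ℝ} (h : Sys μ A D D2) (hμ : 0 < μ)
    (h0 : ∀ o, nsq (A true o) = 0 ∨ nsq (A false o) = 0)
    (hc : ∀ o, nsq (A true o) + nsq (A false o) = a₀) (ε : Bool) (o : O) (m : Fin 4) :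
    D ε o m = 0 := by
  have h1 := h.dd h0 hc ε o
  have h2 := cub_le (h.st ε o)
  have h3 := h.le hμ h0 hc
  have ha := nsq_nonneg (A ε o)
  have h4 : nsq (A ε o) ≤ 6 * μ ^ 2 := by
    have := hc o
    have b1 := nsq_nonneg (A true o)
    have b2 := nsq_nonneg (A false o)
    cases ε <;> linarith
  have h6 : (0 : ℝ) < √6 := Real.sqrt_pos.2 (by norm_num)
  have h66 : √6 * √6 = (6 : ℝ) := Real.mul_self_sqrt (by norm_num)
  have h5 : √(nsq (A ε o)) ≤ √6 * μ := by
    refine Real.sqrt_le_iff.2 ⟨by positivity, ?_⟩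
    rw [mul_pow, Real.sq_sqrt (by norm_num)]
    exact h4
  have h7 : cub (A ε o) ≤ μ * nsq (A ε o) := by
    refine le_of_mul_le_mul_left ?_ h6
    have := mul_le_mul_of_nonneg_left h5 ha
    linarith
  have h8 : ∑ m, nsq (D ε o m) = 0 :=
    le_antisymm (by linarith) (Finset.sum_nonneg fun m _ => nsq_nonneg _)
  exact eq_zero_of_nsq ((Finset.sum_eq_zero_iff_of_nonneg fun m _ => nsq_nonneg _).1 h8 m
    (Finset.mem_univ m))

end

end Vale.Agent.P211
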