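import Vale.Agent.P211.Der

/-! P211 HalfA (TASK, owner helper99). Helper names end with `_HalfA`. One half vanishes at each frame, the other has constant norm.
`const`: `f t = nsq (A ε (c t))` takes values in `{0, a₀}`, so `f (a₀ - f) = 0`, `f' (a₀ - 2 f) = 0`; if `a₀ ≠ 0` then `f' = 0` (`nsqv`, `is_const_of_deriv_eq_zero`), if `a₀ = 0` then `f = 0`.
`dd`: along `crv o (Pi.single m 1)` the function is constant, so `nsq1` is zero for all `t` and `nsq2` is zero at `0` (`HasDerivAt.unique`); sum, `sum_ip`, `ip3_wz`.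
`le`: suppose `6 μ ^ 2 < a₀`. `cpt` for `Φ = -(cub ·.1 + cub ·.2)` gives `o₀`; let `ε` be the sign with `nsq = a₀` there. Along the curves the other half is zero (`const`, `eq_zero_of_nsq`), so `cub (A ε (c t))` has a minimum at `0`:
`second_le` for its negative with `cub1`, `cub2`; sum: `0 ≤ 6 ∑ ip3 A (D D) + 3 (6 μ τ - a₀ ^ 2)` (`ip3_sq_wz`), while `6 μ τ < a₀ ^ 2` by `cub_le`. The sum vanishes by `add_zero3`: first case if `6 τ ^ 2 ≠ a₀ ^ 3`;
otherwise `τ > 0` (`dd`: `τ ≥ μ a₀`), along the curve `cub ≥ τ` and `6 cub ^ 2 ≤ a₀ ^ 3` force `cub = τ`, so `typeD` holds for all `t` with the same constants; differentiate by `mul1`, `e1`.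
`half`: if `nsq (A ε o) = 0` then `A ε (c t) = 0` for all `t`, use `e1`; otherwise `dd`, `cub_le`, `le` give `∑ nsq (D ε o m) ≤ 0`. -/

namespace Vale.Agent.P211

open Filter Topology Set

noncomputable section

variable {O : Type*} {μ q c₀ : ℝ} {A : Bool → O → M3} {D : Bool → O → Fin 4 → M3}
  {D2 : Bool → O → Fin 4 → Fin 4 → M3} {v : Fin 4 → ℝ} {c : ℝ → O} {m : Fin 4}

theorem Crv.const {a₀ : ℝ} (h : Crv A D D2 v c) (h0 : ∀ o, nsq (A true o) = 0 ∨ nsq (A false o) = 0)
    (hc : ∀ o, nsq (A true o) + nsq (A false o) = a₀) (ε : Bool) (t : ℝ) :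
    nsq (A ε (c t)) = nsq (A ε (c 0)) := by
  have hv : ∀ s, nsq (A ε (c s)) = 0 ∨ nsq (A ε (c s)) = a₀ := fun s => by
    have h1 := hc (c s)
    rcases h0 (c s) with h2 | h2 <;> cases ε
    · exact Or.inr (by linarith)
    · exact Or.inl h2
    · exact Or.inl h2
    · exact Or.inr (by linarith)
  by_cases ha : a₀ = 0
  · have h1 : ∀ s, nsq (A ε (c s)) = 0 := fun s => (hv s).elim id fun h => h.trans ha
    rw [h1, h1]
  refine is_const_of_deriv_eq_zero (f := fun s => nsq (A ε (c s)))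
    (fun s => (h.nsqv ε s).differentiableAt) (fun s => ?_) t 0
  have h1 := h.nsqv ε s
  rw [h1.deriv]
  have h2 := h1.mul (h1.const_sub a₀)
  have h3 : ((fun s => nsq (A ε (c s))) * fun s => a₀ - nsq (A ε (c s))) = fun _ => (0 : ℝ) := by
    funext r
    rcases hv r with h4 | h4 <;> simp [h4]
  rw [h3] at h2
  have h4 := h2.unique (hasDerivAt_const s (0 : ℝ))
  generalize 2 * ∑ m, v m * ip3 (A ε (c s)) (D ε (c s) m) = x at h4 ⊢
  refine (mul_eq_zero.1 (?_ : x * a₀ = 0)).resolve_right ha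
  rcases hv s with h5 | h5 <;> rw [h5] at h4 <;> linarith

theorem Sys.dd {a₀ : ℝ} (h : Sys μ A D D2) (h0 : ∀ o, nsq (A true o) = 0 ∨ nsq (A false o) = 0)
    (hc : ∀ o, nsq (A true o) + nsq (A false o) = a₀) (ε : Bool) (o : O) :
    ∑ m, nsq (D ε o m) = 6 * cub (A ε o) - 6 * μ * nsq (A ε o) := by
  have h1 : ∀ m, nsq (D ε o m) = -ip3 (A ε o) (D2 ε o m m) := fun m => by
    obtain ⟨c, rfl, hC⟩ := h.crv o (Pi.single m 1)
    have h2 : (fun s => nsq (A ε (c s))) = fun _ => nsq (A ε (c 0)) :=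
      funext fun s => hC.const h0 hc ε s
    have h3 : (fun s => 2 * ip3 (A ε (c s)) (D ε (c s) m)) = fun _ => (0 : ℝ) := funext fun s => by
      have h4 := hC.nsq1 ε s
      rw [h2] at h4
      exact h4.unique (hasDerivAt_const s _)
    have h4 := hC.nsq2 ε 0
    rw [h3] at h4
    have h5 := h4.unique (hasDerivAt_const (0 : ℝ) (0 : ℝ))
    linarith
  simp only [h1]
  rw [Finset.sum_neg_distrib, h.sum_ip, ip3_wz (h.st ε o)]
  ring

end

end Vale.Agent.P211
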