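import Vale.Agent.P211.HalfA
import Vale.Agent.P211.Diag

/-! P211 HalfB (TASK, owner helper99). Helper names end with `_HalfB`. One half vanishes at each frame, the other has constant norm.
`const`: `f t = nsq (A ε (c t))` takes values in `{0, a₀}`, so `f (a₀ - f) = 0`, `f' (a₀ - 2 f) = 0`; if `a₀ ≠ 0` then `f' = 0` (`nsqv`, `is_const_of_deriv_eq_zero`), if `a₀ = 0` then `f = 0`.
`dd`: along `crv o (Pi.single m 1)` the function is constant, so `nsq1` is zero for all `t` and `nsq2` is zero at `0` (`HasDerivAt.unique`); sum, `sum_ip`, `ip3_wz`.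
`le`: suppose `6 μ ^ 2 < a₀`. `cpt` for `Φ = -(cub ·.1 + cub ·.2)` gives `o₀`; let `ε` be the sign with `nsq = a₀` there. Along the curves the other half is zero (`const`, `eq_zero_of_nsq`), so `cub (A ε (c t))` has a minimum at `0`:
`second_le` for its negative with `cub1`, `cub2`; sum: `0 ≤ 6 ∑ ip3 A (D D) + 3 (6 μ τ - a₀ ^ 2)` (`ip3_sq_wz`), while `6 μ τ < a₀ ^ 2` by `cub_le`. The sum vanishes by `add_zero3`: first case if `6 τ ^ 2 ≠ a₀ ^ 3`;
otherwise `τ > 0` (`dd`: `τ ≥ μ a₀`), along the curve `cub ≥ τ` and `6 cub ^ 2 ≤ a₀ ^ 3` force `cub = τ`, so `typeD` holds for all `t` with the same constants; differentiate by `mul1`, `e1`.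
`half`: if `nsq (A ε o) = 0` then `A ε (c t) = 0` for all `t`, use `e1`; otherwise `dd`, `cub_le`, `le` give `∑ nsq (D ε o m) ≤ 0`. -/

namespace Vale.Agent.P211

open Filter Topology Set

noncomputable section

variable {O : Type*} {μ q c₀ : ℝ} {A : Bool → O → M3} {D : Bool → O → Fin 4 → M3}
  {D2 : Bool → O → Fin 4 → Fin 4 → M3} {v : Fin 4 → ℝ} {c : ℝ → O} {m : Fin 4}

theorem cub_zero_HalfB : cub 0 = 0 := by simp [cub, ip3]

theorem lt_HalfB {a τ : ℝ} (h1 : 6 * μ ^ 2 < a) (h2 : 6 * τ ^ 2 ≤ a ^ 3) : 6 * μ * τ < a ^ 2 := by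
  have ha : 0 < a := lt_of_le_of_lt (by positivity) h1
  refine lt_of_pow_lt_pow_left₀ 2 (by positivity) ?_
  have h3 : 6 * μ ^ 2 * (6 * τ ^ 2) ≤ 6 * μ ^ 2 * a ^ 3 :=
    mul_le_mul_of_nonneg_left h2 (by positivity)
  have h4 : 6 * μ ^ 2 * a ^ 3 < a * a ^ 3 := mul_lt_mul_of_pos_right h1 (by positivity)
  calc (6 * μ * τ) ^ 2 = 6 * μ ^ 2 * (6 * τ ^ 2) := by ring
    _ < a * a ^ 3 := h3.trans_lt h4
    _ = (a ^ 2) ^ 2 := by ring

theorem min_HalfB {a₀ : ℝ} (h : Sys μ A D D2)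
    (h0 : ∀ o, nsq (A true o) = 0 ∨ nsq (A false o) = 0)
    (hc : ∀ o, nsq (A true o) + nsq (A false o) = a₀) :
    ∃ o ε, nsq (A ε o) = a₀ ∧ ∀ v c, c 0 = o → Crv A D D2 v c → ∀ t,
      nsq (A ε (c t)) = a₀ ∧ cub (A ε o) ≤ cub (A ε (c t)) := by
  obtain ⟨o, ho⟩ := h.cpt (fun p => -(cub p.1 + cub p.2))
    ((continuous_cub.comp continuous_fst).add (continuous_cub.comp continuous_snd)).neg
  rcases h0 o with h1 | h1
  · have h2 : nsq (A false o) = a₀ := by rw [← hc o, h1, zero_add]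
    refine ⟨o, false, h2, fun v c hc0 hcv t => ⟨by rw [hcv.const h0 hc, hc0, h2], ?_⟩⟩
    have h3 := ho (c t)
    have h4 : A true (c t) = 0 := eq_zero_of_nsq (by rw [hcv.const h0 hc, hc0, h1])
    simp only [h4, eq_zero_of_nsq h1, cub_zero_HalfB] at h3
    linarith
  · have h2 : nsq (A true o) = a₀ := by rw [← hc o, h1, add_zero]
    refine ⟨o, true, h2, fun v c hc0 hcv t => ⟨by rw [hcv.const h0 hc, hc0, h2], ?_⟩⟩
    have h3 := ho (c t)
    have h4 : A false (c t) = 0 := eq_zero_of_nsq (by rw [hcv.const h0 hc, hc0, h1])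
    simp only [h4, eq_zero_of_nsq h1, cub_zero_HalfB] at h3
    linarith

theorem Sys.le {a₀ : ℝ} (h : Sys μ A D D2) (hμ : 0 < μ)
    (h0 : ∀ o, nsq (A true o) = 0 ∨ nsq (A false o) = 0)
    (hc : ∀ o, nsq (A true o) + nsq (A false o) = a₀) : a₀ ≤ 6 * μ ^ 2 := by
  by_contra hlt
  replace hlt := not_le.1 hlt
  have ha : 0 < a₀ := lt_of_le_of_lt (by positivity) hlt
  obtain ⟨o, ε, ho, hm⟩ := min_HalfB h h0 hc
  choose c hc0 hcv using fun m : Fin 4 => h.crv o (Pi.single m 1)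
  have h1 : ∀ m, ip3 (A ε o) (D ε o m) = 0 := fun m => by
    have h2 := (hcv m).nsq1 ε 0
    have e : (fun s => nsq (A ε (c m s))) = fun _ => a₀ :=
      funext fun s => (hm _ _ (hc0 m) (hcv m) s).1
    rw [e, hc0] at h2
    have h3 := h2.unique (hasDerivAt_const (0 : ℝ) a₀)
    linarith
  have h2 : ∀ m, ip3 (mul3 (A ε o) (A ε o)) (D ε o m) = 0 ∧
      0 ≤ 6 * ip3 (A ε o) (mul3 (D ε o m) (D ε o m)) +
        3 * ip3 (mul3 (A ε o) (A ε o)) (D2 ε o m m) := fun m => by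
    have h3 := second_le (f := fun s => -cub (A ε (c m s)))
      (Filter.Eventually.of_forall fun s => by
        simp only [hc0]
        exact neg_le_neg (hm _ _ (hc0 m) (hcv m) s).2)
      (Filter.Eventually.of_forall fun t => (h.cub1 (hcv m) ε t).neg) (h.cub2 (hcv m) ε 0).neg
    simp only [hc0] at h3
    exact ⟨by linarith [h3.1], by linarith [h3.2]⟩
  have h3 := Finset.sum_nonneg fun m (_ : m ∈ Finset.univ) => (h2 m).2
  rw [Finset.sum_add_distrib, ← Finset.mul_sum, ← Finset.mul_sum, h.sum_ip,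
    ip3_sq_wz (h.st ε o), ho] at h3
  have h4 := cub_sq_le (h.st ε o)
  rw [ho] at h4
  have h5 := lt_HalfB hlt h4
  have h6 : ∑ m, ip3 (A ε o) (mul3 (D ε o m) (D ε o m)) = 0 := by
    refine add_zero3 (h.st ε o) (h.std ε o) (sg_cases ε) (h.dv ε o) ?_
    by_cases h7 : 6 * cub (A ε o) ^ 2 = nsq (A ε o) ^ 3
    · have hn : nsq (A ε o) ≠ 0 := by rw [ho]; exact ha.ne'
      refine Or.inr ⟨hn, cub (A ε o) / nsq (A ε o), typeD (h.st ε o) h7 hn, fun m i j => ?_⟩
      have h8 : 0 ≤ cub (A ε o) := by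
        have h9 := h.dd h0 hc ε o
        have h10 := Finset.sum_nonneg fun m (_ : m ∈ Finset.univ) => nsq_nonneg (D ε o m)
        have h11 : 0 < μ * a₀ := mul_pos hμ ha
        rw [h9, ho] at h10
        linarith
      have h9 : ∀ s, cub (A ε (c m s)) = cub (A ε o) := fun s => by
        obtain ⟨h10, h11⟩ := hm _ _ (hc0 m) (hcv m) s
        refine le_antisymm (le_of_pow_le_pow_left₀ two_ne_zero h8 ?_) h11
        have h12 := cub_sq_le (h.st ε (c m s))
        rw [h10] at h12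
        rw [ho] at h7
        linarith
      have e : (fun s => mul3 (A ε (c m s)) (A ε (c m s)) i j) = fun s =>
          cub (A ε o) / nsq (A ε o) * A ε (c m s) i j + if i = j then a₀ / 3 else 0 := by
        funext s
        have h10 := (hm _ _ (hc0 m) (hcv m) s).1
        rw [typeD (h.st ε (c m s)) (by rw [h9, h10, h7, ho]) (by rw [h10]; exact ha.ne'), h9, h10,
          ho]
      have h10 := (hcv m).mul1 ε 0 i j
      rw [e] at h10
      have h11 := h10.unique ((((hcv m).e1 ε 0 i j).const_mul _).add_const _)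
      rwa [hc0] at h11
    · exact Or.inl ⟨h7, fun m => ⟨h1 m, (h2 m).1⟩⟩
  rw [h6] at h3
  linarith

end

end Vale.Agent.P211
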