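import Vale.Agent.P211.JetA
import Vale.Agent.P211.Crv
import Vale.Agent.P211.BiaB

/-! P211 Jet (TASK, owner helper99). Helper names end with `_Jet`. The two-jet of the curvature.
`Curv.deriv`: differentiate the four linear identities (`HasDerivAt.unique`, `HasDerivAt.fun_sum`, `funext`). `c0`: `rmT_anti`, `rmT_pair`, `rmT_bia` in the chart at `x` (`g.loc (chart_mem_atlas _ _)`, `mem_chart_target`), and
`r0 o a b c d = rm g x (e a) (e b) (e c) (e d)` by `rfl`. `c1`, `c2`, `b2`: `crv o (Pi.single p 1)` at `t = 0` and `Curv.deriv`. `b1`: `cov_rmT`, `dRiem_cyc`.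
`ric`: `Tens.ricci`, `Fin.sum_univ_four`; expand `riem q p (e a) = ∑ f, r0 o q p f a • e f` (`ON.span`) and use `(rmT_tens _).lin` in each slot (`update ![..] i h` by `funext`, `fin_cases`). -/

namespace Vale.Agent.P211

open scoped ContDiff Manifold Topology
open Vale.Agent.P255 Vale.Agent.P234 Vale.Agent.P231 Filter Set Function

noncomputable section

variable {M : Type*} [TopologicalSpace M] [ChartedSpace E4 M] [IsManifold 𝓘(ℝ, E4) ∞ M]
  [T2Space M] [CompactSpace M] {g : Metric E4 M} {x : M} {v : E4} {l : ℝ}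
  {e : OpenPartialHomeomorph M E4}

theorem crv_Jet (o : Fm g) (q : Fin 4) : ∃ c : ℝ → Fm g,
    (∀ a b c' d, HasDerivAt (fun s => r0 (c s) a b c' d) (r1 o q a b c' d) 0) ∧
    ∀ p a b c' d, HasDerivAt (fun s => r1 (c s) p a b c' d) (r2 o q p a b c' d) 0 := by
  obtain ⟨c, h0, -, h1, h2⟩ := crv o (Pi.single q 1)
  refine ⟨c, fun a b c' d => ?_, fun p a b c' d => ?_⟩
  · simpa [h0, Pi.single_apply] using h1 0 a b c' d
  · simpa [h0, Pi.single_apply] using h2 0 p a b c' d

theorem c1_Jet (hE : Einstein g l) (o : Fm g) (p : Fin 4) : Curv 0 (r1 o p) := by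
  obtain ⟨c, h1, -⟩ := crv_Jet o p
  exact Curv.deriv (fun s => curv_r0 hE (c s)) h1

theorem b1_Jet (o : Fm g) (p a b c d : Fin 4) :
    r1 o p a b c d + r1 o a b p c d + r1 o b p a c d = 0 := by
  have h := g.loc (chart_mem_atlas E4 o.1.1)
  have hy := mem_chart_target E4 o.1.1
  simp only [r1, R1, cov_rmT h hy]
  rw [← add_apply, ← add_apply, ← map_add, ← map_add, dRiem_cyc h hy, map_zero, zero_apply]

theorem jet_of (hE : Einstein g l) (o : Fm g) : Jet (l / 3) (r0 o) (r1 o) (r2 o) := by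
  refine ⟨curv_r0 hE o, c1_Jet hE o, fun q p => ?_, b1_Jet o, fun q p a b c d => ?_, ric_r2 o⟩
  · obtain ⟨c, -, h2⟩ := crv_Jet o q
    exact Curv.deriv (fun s => c1_Jet hE (c s) p) (h2 p)
  · obtain ⟨γ, -, h2⟩ := crv_Jet o q
    have h := ((h2 p a b c d).fun_add (h2 a b p c d)).fun_add (h2 b p a c d)
    simp only [b1_Jet] at h
    exact h.unique (hasDerivAt_const _ _)

end

end Vale.Agent.P211
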