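import Vale.Agent.P211.TenA

/-! P211 TenR (TASK, owner helper99). Helper names end with `_TenR`. The Ricci identity.
`fderiv (cov G T · p m) y q = ∂q ∂p T m - ∑ i, (∂q T (update m i (Γ p (m i))) + T (update m i (∂q Γ p (m i))))`: chain rule for `z ↦ F (z, update m i (chr G z p (m i)))` with `Tens.fderiv_eq` (in the slots `j ≠ i` the increment is `0`).
`∂q ∂p` is symmetric (`ContDiffAt.isSymmSndFDerivAt` for `z ↦ T z m`, `loc_fderiv_app1c`), `chr_symm` removes the middle term, the double sum over `i ≠ j` is symmetric (`Finset.sum_comm`, `update_comm`, `update_of_ne`), the diagonal gives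
`T (update m i (Γ p (Γ q (m i))))` (`update_idem`, `update_self`); collect with `lin` and the definition of `riem`. A convenient device: write the double sum as `∑ j, ∑ i, if i = j then a j else b i j`. -/

namespace Vale.Agent.P211

open scoped ContDiff Topology
open Vale.Agent.P255 Filter Set Function

noncomputable section

variable {E : Type*} [NormedAddCommGroup E] [NormedSpace ℝ E] [FiniteDimensional ℝ E]
  {ι : Type} [Fintype ι] [DecidableEq ι] {G : E → E →L[ℝ] E →L[ℝ] ℝ} {U : Set E}
  {T : E → (ι → E) → ℝ} {y : E}

theorem term_TenR (hT : Tens U T) (hy : y ∈ U) (m : ι → E) (i : ι) {c : E → E}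
    (hc : DifferentiableAt ℝ c y) (q : E) :
    DifferentiableAt ℝ (fun z => T z (update m i (c z))) y ∧
      fderiv ℝ (fun z => T z (update m i (c z))) y q =
        fderiv ℝ (fun z => T z (update m i (c y))) y q + T y (update m i (fderiv ℝ c y q)) := by
  have e1 : (fun z => update m i (c z)) =
      fun z => update m i 0 + ContinuousLinearMap.single ℝ (fun _ : ι => E) i (c z) := by
    funext z j
    by_cases h : j = i
    · subst h
      simp
    · simp [h]
  have h1 : HasFDerivAt (fun z => update m i (c z))
      ((ContinuousLinearMap.single ℝ (fun _ : ι => E) i).comp (fderiv ℝ c y)) y := by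
    rw [e1]
    exact ((ContinuousLinearMap.single ℝ (fun _ : ι => E) i).hasFDerivAt.comp y
      hc.hasFDerivAt).const_add _
  have h2 := (hasFDerivAt_id y).prodMk h1
  have h3 : DifferentiableAt ℝ (fun q : E × (ι → E) => T q.1 q.2) (y, update m i (c y)) :=
    (hT.smooth y hy _).differentiableAt (by simp)
  have h5 := HasFDerivAt.comp y (f := fun z => ((id z, update m i (c z)) : E × (ι → E)))
    (g := fun q : E × (ι → E) => T q.1 q.2) h3.hasFDerivAt h2
  have h4 : HasFDerivAt (fun z => T z (update m i (c z))) _ y := h5
  refine ⟨h4.differentiableAt, ?_⟩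
  rw [h4.fderiv]
  simp only [ContinuousLinearMap.comp_apply, ContinuousLinearMap.prod_apply,
    ContinuousLinearMap.id_apply, ContinuousLinearMap.single_apply]
  rw [hT.fderiv_eq hy, Finset.sum_eq_single i]
  · rw [update_idem, Pi.single_eq_same]
  · intro j _ hj
    rw [Pi.single_eq_of_ne hj]
    exact (hT.lin y hy _ j).map_zero
  · intro h
    exact absurd (Finset.mem_univ i) h

theorem slice_TenR (hT : Tens U T) (hy : y ∈ U) (m : ι → E) :
    ContDiffAt ℝ ∞ (fun z => T z m) y :=
  (hT.smooth y hy m).comp y (f := fun z : E => ((z, m) : E × (ι → E)))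
    (contDiffAt_id.prodMk contDiffAt_const)

theorem dd_TenR (hT : Tens U T) (hy : y ∈ U) (m : ι → E) :
    DifferentiableAt ℝ (fderiv ℝ fun z => T z m) y :=
  ((slice_TenR hT hy m).fderiv_right (m := ∞) (by simp)).differentiableAt (by simp)

theorem dcov_TenR (hG : LocMetric G U) (hT : Tens U T) (hy : y ∈ U) (q p : E) (m : ι → E) :
    fderiv ℝ (fun z => cov G T z p m) y q = fderiv ℝ (fderiv ℝ fun z => T z m) y q p -
      ∑ i, (fderiv ℝ (fun z => T z (update m i (chr G y p (m i)))) y q +
        T y (update m i (fderiv ℝ (fun z => chr G z p (m i)) y q))) := by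
  have hc : ∀ i, DifferentiableAt ℝ (fun z => chr G z p (m i)) y := by
    intro i
    have := ((hG.loc_diff_chrL hy).clm_apply (differentiableAt_const p)).clm_apply
      (differentiableAt_const (m i))
    simpa only [chrL_apply] using this
  have h1 : DifferentiableAt ℝ (fun z => fderiv ℝ (fun z => T z m) z p) y :=
    (dd_TenR hT hy m).clm_apply (differentiableAt_const p)
  have h2 := h1.hasFDerivAt.fun_sub (HasFDerivAt.fun_sum (u := Finset.univ)
    fun i _ => (term_TenR hT hy m i (hc i) q).1.hasFDerivAt)
  unfold cov
  rw [h2.fderiv, sub_apply, _root_.sum_apply, loc_fderiv_app1c (dd_TenR hT hy m)]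
  congr 1
  exact Finset.sum_congr rfl fun i _ => (term_TenR hT hy m i (hc i) q).2

theorem dbl_TenR (f : (ι → E) → ℝ) (a b : E → E) (m : ι → E) :
    ∑ i, ∑ j, f (update (update m i (a (m i))) j (b (update m i (a (m i)) j))) -
      ∑ i, ∑ j, f (update (update m i (b (m i))) j (a (update m i (b (m i)) j))) =
        ∑ i, (f (update m i (b (a (m i)))) - f (update m i (a (b (m i))))) := by
  rw [Finset.sum_comm (f := fun i j =>
    f (update (update m i (b (m i))) j (a (update m i (b (m i)) j)))), ← Finset.sum_sub_distrib]
  refine Finset.sum_congr rfl fun i _ => ?_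
  rw [← Finset.sum_sub_distrib, Finset.sum_eq_single i]
  · rw [update_idem, update_idem, update_self, update_self]
  · intro j _ hj
    rw [update_of_ne hj, update_of_ne hj.symm, update_comm hj, sub_self]
  · intro h
    exact absurd (Finset.mem_univ i) h

theorem Tens.ricci (hG : LocMetric G U) (hT : Tens U T) (hy : y ∈ U) (q p : E) (m : ι → E) :
    cov2 G T y q p m - cov2 G T y p q m = -∑ i, T y (update m i (riem G y q p (m i))) := by
  have h1 : fderiv ℝ (fderiv ℝ fun z => T z m) y q p = fderiv ℝ (fderiv ℝ fun z => T z m) y p q :=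
    ((slice_TenR hT hy m).isSymmSndFDerivAt
      (by simpa using (ENat.LEInfty.out : (2 : WithTop ℕ∞) ≤ ∞))).eq q p
  have h2 := dbl_TenR (T y) (chr G y q) (chr G y p) m
  have h3 : ∀ i, T y (update m i (riem G y q p (m i))) =
      T y (update m i (fderiv ℝ (fun z => chr G z p (m i)) y q)) -
        T y (update m i (fderiv ℝ (fun z => chr G z q (m i)) y p)) -
        (T y (update m i (chr G y p (chr G y q (m i)))) -
          T y (update m i (chr G y q (chr G y p (m i))))) := by
    intro i
    have l := hT.lin y hy m i
    unfold riem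
    rw [l.map_sub, l.map_add, l.map_sub]
    ring
  unfold cov2
  rw [dcov_TenR hG hT hy, dcov_TenR hG hT hy, hG.chr_symm hy q p, h1]
  simp only [h3]
  unfold cov
  simp only [Finset.sum_sub_distrib, Finset.sum_add_distrib] at h2 ⊢
  linarith

end

end Vale.Agent.P211
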