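import Vale.Agent.P211.Frm
import Vale.Agent.P211.TenR
import Vale.Agent.P211.BiaS

/-! P211 JetA (TASK, owner helper99). Helper names end with `_JetA`. The two-jet of the curvature.
`Curv.deriv`: differentiate the four linear identities (`HasDerivAt.unique`, `HasDerivAt.fun_sum`, `funext`). `c0`: `rmT_anti`, `rmT_pair`, `rmT_bia` in the chart at `x` (`g.loc (chart_mem_atlas _ _)`, `mem_chart_target`), and
`r0 o a b c d = rm g x (e a) (e b) (e c) (e d)` by `rfl`. `c1`, `c2`, `b2`: `crv o (Pi.single p 1)` at `t = 0` and `Curv.deriv`. `b1`: `cov_rmT`, `dRiem_cyc`.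
`ric`: `Tens.ricci`, `Fin.sum_univ_four`; expand `riem q p (e a) = ∑ f, r0 o q p f a • e f` (`ON.span`) and use `(rmT_tens _).lin` in each slot (`update ![..] i h` by `funext`, `fin_cases`). -/

namespace Vale.Agent.P211

open scoped ContDiff Manifold Topology
open Vale.Agent.P255 Vale.Agent.P234 Vale.Agent.P231 Filter Set Function

noncomputable section

variable {M : Type*} [TopologicalSpace M] [ChartedSpace E4 M] [IsManifold 𝓘(ℝ, E4) ∞ M]
  [T2Space M] [CompactSpace M] {g : Metric E4 M} {x : M} {v : E4} {l : ℝ}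
  {e : OpenPartialHomeomorph M E4}

theorem Curv.deriv {μ t : ℝ} {f : ℝ → Arr} {f' : Arr} (h : ∀ s, Curv μ (f s))
    (hd : ∀ a b c d, HasDerivAt (fun s => f s a b c d) (f' a b c d) t) : Curv 0 f' := by
  refine ⟨fun a b c d => ?_, fun a b c d => ?_, fun a b c d => ?_, fun b c => ?_⟩
  · refine (hd a b c d).unique ?_
    rw [funext fun s => (h s).anti a b c d]
    exact (hd b a c d).fun_neg
  · refine (hd a b c d).unique ?_
    rw [funext fun s => (h s).pair a b c d]
    exact hd c d a b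
  · refine (((hd a b c d).fun_add (hd b c a d)).fun_add (hd c a b d)).unique ?_
    rw [funext fun s => (h s).bia a b c d]
    exact hasDerivAt_const t 0
  · rw [mul_zero, ite_self]
    refine (HasDerivAt.fun_sum fun a _ => hd a b a c).unique ?_
    rw [funext fun s => (h s).ein b c]
    exact hasDerivAt_const t _

theorem curv_r0 (hE : Einstein g l) (o : Fm g) : Curv (l / 3) (r0 o) := by
  have hG := g.loc (chart_mem_atlas E4 o.1.1)
  have hy := mem_chart_target E4 o.1.1
  refine ⟨fun a b c d => rmT_anti hG hy _ _ _ _, fun a b c d => rmT_pair hG hy _ _ _ _,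
    fun a b c d => rmT_bia hG hy _ _ _ _, fun b c => ?_⟩
  have h := hE o.1.1 o.1.2 o.2 (o.1.2 b) (o.1.2 c)
  rw [o.2 b c] at h
  refine Eq.trans h ?_
  split_ifs <;> ring

theorem lin_JetA {F : E4 → ℝ} (h : IsLinearMap ℝ F) (c : Fin 4 → ℝ) (w : Fin 4 → E4) :
    F (∑ f, c f • w f) = ∑ f, c f * F (w f) := by
  have := map_sum (IsLinearMap.mk' F h) (fun f => c f • w f) Finset.univ
  simpa only [map_smul, IsLinearMap.mk'_apply, smul_eq_mul] using this

theorem ric_r2 (o : Fm g) (q p a b c d : Fin 4) :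
    r2 o q p a b c d - r2 o p q a b c d = -com (r0 o) q p a b c d := by
  have hG := g.loc (chart_mem_atlas E4 o.1.1)
  have hy := mem_chart_target E4 o.1.1
  have hT := rmT_tens hG
  have key : ∀ (m : Fin 4 → E4) (i j : Fin 4),
      rmT (g.g (chartAt E4 o.1.1)) (chartAt E4 o.1.1 o.1.1) (update m i
        (riem (g.g (chartAt E4 o.1.1)) (chartAt E4 o.1.1 o.1.1) (o.1.2 q) (o.1.2 p) (o.1.2 j))) =
      ∑ f, r0 o q p f j * R0 g o.1.1 (update m i (o.1.2 f)) := fun m i j => by
    rw [ON.span o.2 (riem _ _ (o.1.2 q) (o.1.2 p) (o.1.2 j))]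
    exact lin_JetA (hT.lin _ hy m i) _ _
  refine (hT.ricci hG hy (o.1.2 q) (o.1.2 p) ![o.1.2 a, o.1.2 b, o.1.2 c, o.1.2 d]).trans ?_
  rw [Fin.sum_univ_four, com, Finset.sum_add_distrib, Finset.sum_add_distrib,
    Finset.sum_add_distrib]
  congr 1
  refine congrArg₂ (· + ·) (congrArg₂ (· + ·) (congrArg₂ (· + ·) ((key _ 0 a).trans ?_)
    ((key _ 1 b).trans ?_)) ((key _ 2 c).trans ?_)) ((key _ 3 d).trans ?_)
  all_goals
    refine Finset.sum_congr rfl fun f _ =>
      congrArg₂ (· * ·) rfl (congrArg (R0 g o.1.1) (funext fun i => ?_))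
    fin_cases i <;> rfl

end

end Vale.Agent.P211
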