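import Vale.Agent.P211.Defs

/-! P211 Kato (TASK, owner helper99). Helper names end with `_Kato`. The refined Kato inequality (checked numerically).
Put `v m = ip3 A (D m)`, `y i n = ∑ k, ∑ n', eta s k n n' * A i k * v n'`, `raw m i j = ∑ n, eta s j n m * y i n`, `N m i j = (raw m i j + raw m j i) / 2`, `T m i j = v m * A i j - 2 / 5 * N m i j`.
Then `∑ m, ip3 (N m) (D m) = ∑ m, ip3 (raw m) (D m) = ∑ i n, y i n * (Dv sum) = 0` (symmetry of `D m`), so `∑ v m ^ 2 = ∑ m, ip3 (T m) (D m)`; and for ARBITRARY `v` the polynomial identity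
`∑ m, nsq (T m) = 3 / 5 * nsq A * ∑ v m ^ 2` (five entries of `A`, four of `v`, each sign; `ring`). Cauchy-Schwarz over `Fin 4 × Fin 3 × Fin 3` (`Finset.sum_mul_sq_le_sq_mul_sq`), cancel `∑ v m ^ 2`. -/

namespace Vale.Agent.P211

open Filter Topology Set

noncomputable section

variable {μ s : ℝ} {r : Arr} {r1 : Fin 4 → Arr} {r2 : Fin 4 → Fin 4 → Arr} {A B : M3}
  {D : Fin 4 → M3}

/-- The multiplier. -/
def yy_Kato (s : ℝ) (A : M3) (v : Fin 4 → ℝ) (i : Fin 3) (n : Fin 4) : ℝ :=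
  ∑ k, ∑ n', eta s k n n' * A i k * v n'

/-- The adjoint of the divergence applied to the multiplier. -/
def raw_Kato (s : ℝ) (A : M3) (v : Fin 4 → ℝ) (m : Fin 4) : M3 :=
  fun i j => ∑ n, eta s j n m * yy_Kato s A v i n

/-- The projected test tensor. -/
def tt_Kato (s : ℝ) (A : M3) (v : Fin 4 → ℝ) (m : Fin 4) : M3 :=
  fun i j => v m * A i j - 1 / 5 * (raw_Kato s A v m i j + raw_Kato s A v m j i)

theorem yy_val_Kato (s : ℝ) (A : M3) (v : Fin 4 → ℝ) (i : Fin 3) :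
    yy_Kato s A v i 0 = A i 0 * v 1 + A i 1 * v 2 + A i 2 * v 3 ∧
    yy_Kato s A v i 1 = -(A i 0 * v 0) - s * A i 1 * v 3 + s * A i 2 * v 2 ∧
    yy_Kato s A v i 2 = s * A i 0 * v 3 - A i 1 * v 0 - s * A i 2 * v 1 ∧
    yy_Kato s A v i 3 = -(s * A i 0 * v 2) + s * A i 1 * v 1 - A i 2 * v 0 := by
  refine ⟨?_, ?_, ?_, ?_⟩ <;>
    simp [yy_Kato, eta, Fin.sum_univ_three, Fin.sum_univ_four] <;> ring

theorem raw0_Kato (s : ℝ) (A : M3) (v : Fin 4 → ℝ) (i : Fin 3) :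
    raw_Kato s A v 0 i 0 = -yy_Kato s A v i 1 ∧ raw_Kato s A v 1 i 0 = yy_Kato s A v i 0 ∧
    raw_Kato s A v 2 i 0 = -(s * yy_Kato s A v i 3) ∧
    raw_Kato s A v 3 i 0 = s * yy_Kato s A v i 2 := by
  refine ⟨?_, ?_, ?_, ?_⟩ <;> simp [raw_Kato, eta, Fin.sum_univ_four]

theorem raw1_Kato (s : ℝ) (A : M3) (v : Fin 4 → ℝ) (i : Fin 3) :
    raw_Kato s A v 0 i 1 = -yy_Kato s A v i 2 ∧ raw_Kato s A v 1 i 1 = s * yy_Kato s A v i 3 ∧
    raw_Kato s A v 2 i 1 = yy_Kato s A v i 0 ∧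
    raw_Kato s A v 3 i 1 = -(s * yy_Kato s A v i 1) := by
  refine ⟨?_, ?_, ?_, ?_⟩ <;> simp [raw_Kato, eta, Fin.sum_univ_four]

theorem raw2_Kato (s : ℝ) (A : M3) (v : Fin 4 → ℝ) (i : Fin 3) :
    raw_Kato s A v 0 i 2 = -yy_Kato s A v i 3 ∧ raw_Kato s A v 1 i 2 = -(s * yy_Kato s A v i 2) ∧
    raw_Kato s A v 2 i 2 = s * yy_Kato s A v i 1 ∧
    raw_Kato s A v 3 i 2 = yy_Kato s A v i 0 := by
  refine ⟨?_, ?_, ?_, ?_⟩ <;> simp [raw_Kato, eta, Fin.sum_univ_four]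

theorem norm_tt_Kato (hA : ST A) (hs : s = 1 ∨ s = -1) (v : Fin 4 → ℝ) :
    ∑ m, nsq (tt_Kato s A v m) = 3 / 5 * nsq A * ∑ m, v m ^ 2 := by
  have h10 := hA.symm 1 0
  have h20 := hA.symm 2 0
  have h21 := hA.symm 2 1
  have h22 : A 2 2 = -A 0 0 - A 1 1 := by
    have := hA.tr
    rw [Fin.sum_univ_three] at this
    linarith
  simp only [nsq, tt_Kato, Fin.sum_univ_three, Fin.sum_univ_four, raw0_Kato, raw1_Kato, raw2_Kato,
    yy_val_Kato, h10, h20, h21, h22]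
  rcases hs with rfl | rfl <;> ring

theorem raw_orth_Kato (h : Dv s D) (A : M3) (v : Fin 4 → ℝ) :
    ∑ m, ip3 (raw_Kato s A v m) (D m) = 0 := by
  have h1 : ∑ m, ip3 (raw_Kato s A v m) (D m) =
      ∑ i, ∑ n, yy_Kato s A v i n * ∑ j, ∑ m, eta s j n m * D m i j := by
    simp only [ip3, raw_Kato, Finset.mul_sum, Finset.sum_mul]
    rw [Finset.sum_comm]
    refine Finset.sum_congr rfl fun i _ => ?_
    rw [Finset.sum_comm]
    rw [Finset.sum_comm (f := fun n j => ∑ m, yy_Kato s A v i n * (eta s j n m * D m i j))]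
    refine Finset.sum_congr rfl fun j _ => ?_
    rw [Finset.sum_comm]
    refine Finset.sum_congr rfl fun n _ => Finset.sum_congr rfl fun m _ => ?_
    ring
  rw [h1]
  refine Finset.sum_eq_zero fun i _ => Finset.sum_eq_zero fun n _ => ?_
  rw [h i n, mul_zero]

theorem ip_tt_Kato (hD : ST B) (s : ℝ) (A : M3) (v : Fin 4 → ℝ) (m : Fin 4) :
    ip3 (tt_Kato s A v m) B = v m * ip3 A B - 2 / 5 * ip3 (raw_Kato s A v m) B := by
  simp only [ip3, tt_Kato, Fin.sum_univ_three, hD.symm 1 0, hD.symm 2 0, hD.symm 2 1]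
  ring

theorem kato (hA : ST A) (hD : ∀ m, ST (D m)) (hs : s = 1 ∨ s = -1) (h : Dv s D) :
    ∑ m, ip3 A (D m) ^ 2 ≤ 3 / 5 * nsq A * ∑ m, nsq (D m) := by
  obtain ⟨v, hv⟩ : ∃ v : Fin 4 → ℝ, ∀ m, v m = ip3 A (D m) := ⟨_, fun _ => rfl⟩
  have h1 : ∑ m, ip3 (tt_Kato s A v m) (D m) = ∑ m, v m ^ 2 := by
    simp only [ip_tt_Kato (hD _), Finset.sum_sub_distrib, ← Finset.mul_sum, raw_orth_Kato h, ← hv,
      mul_zero, sub_zero, sq]
  have h2 := Finset.sum_mul_sq_le_sq_mul_sq (Finset.univ : Finset (Fin 4 × Fin 3 × Fin 3))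
    (fun q => tt_Kato s A v q.1 q.2.1 q.2.2) (fun q => D q.1 q.2.1 q.2.2)
  simp only [Fintype.sum_prod_type] at h2
  have h3 : (∑ m, ip3 (tt_Kato s A v m) (D m)) ^ 2 ≤
      (∑ m, nsq (tt_Kato s A v m)) * ∑ m, nsq (D m) := h2
  rw [h1, norm_tt_Kato hA hs] at h3
  simp only [← hv]
  have hS : 0 ≤ ∑ m, v m ^ 2 := Finset.sum_nonneg fun _ _ => sq_nonneg _
  have hN : 0 ≤ ∑ m, nsq (D m) := Finset.sum_nonneg fun _ _ => nsq_nonneg _
  rcases hS.eq_or_lt with h0 | h0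
  · rw [← h0]
    have := nsq_nonneg A
    positivity
  · refine le_of_mul_le_mul_left ?_ h0
    calc (∑ m, v m ^ 2) * ∑ m, v m ^ 2 = (∑ m, v m ^ 2) ^ 2 := by ring
      _ ≤ _ := h3
      _ = _ := by ring

end

end Vale.Agent.P211
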