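import Vale.Agent.P211.Der
import Vale.Agent.P211.Kato

/-! P211 Pt (TASK, owner helper99). Helper names end with `_Pt`. The pointwise gradient bound.
Along `crv o (Pi.single m 1)` let `f t = nsq (A true (c t))`, `g t = nsq (A false (c t))`, positive near `0`. `f ^ q + g ^ q` is constant, so near `0` `q f ^ (q-1) f' + q g ^ (q-1) g' = 0` (`HasDerivAt.rpow_const`, `nsq1`), and its
derivative at `0` vanishes (`nsq2`): `f ^ (q-1) f'' + (q-1) f ^ (q-2) f' ^ 2 + (same for g) = 0`. Sum over `m`; `sum_ip`, `ip3_wz`: `∑ f'' = 2 dd + 12 μ a - 12 τ`; `∑ f' ^ 2 = 4 ∑ ip3 ^ 2 ≤ 12 / 5 a dd` (`kato`, `sg_cases`);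
`12 τ ≤ 2 √6 a √a` (`cub_le`), and `pos`: `√a - √6 μ ≤ (√a - √b) / 2`, `√b - √6 μ ≤ (√b - √a) / 2`. Cases `q ≤ 1`, `q ≥ 1`. A one sided lemma (for one half, real numbers only) saves work. -/

namespace Vale.Agent.P211

open Filter Topology Set

noncomputable section

variable {O : Type*} {μ q c₀ : ℝ} {A : Bool → O → M3} {D : Bool → O → Fin 4 → M3}
  {D2 : Bool → O → Fin 4 → Fin 4 → M3} {v : Fin 4 → ℝ} {c : ℝ → O} {m : Fin 4}

theorem der_Pt {f g f1 g1 : ℝ → ℝ} {f2 g2 : ℝ} (hq : q ≠ 0) (hf : ∀ t, HasDerivAt f (f1 t) t)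
    (hg : ∀ t, HasDerivAt g (g1 t) t) (hf2 : HasDerivAt f1 f2 0) (hg2 : HasDerivAt g1 g2 0)
    (hf0 : 0 < f 0) (hg0 : 0 < g 0) (hc : ∀ t, f t ^ q + g t ^ q = c₀) :
    f 0 ^ (q - 1) * f2 + (q - 1) * f 0 ^ (q - 1 - 1) * f1 0 ^ 2 +
      (g 0 ^ (q - 1) * g2 + (q - 1) * g 0 ^ (q - 1 - 1) * g1 0 ^ 2) = 0 := by
  have e1 : ∀ᶠ t in 𝓝 (0 : ℝ), f t ≠ 0 := (hf 0).continuousAt.eventually_ne hf0.ne'
  have e2 : ∀ᶠ t in 𝓝 (0 : ℝ), g t ≠ 0 := (hg 0).continuousAt.eventually_ne hg0.ne'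
  have e3 : (fun t => f1 t * f t ^ (q - 1) + g1 t * g t ^ (q - 1)) =ᶠ[𝓝 (0 : ℝ)] fun _ => 0 := by
    filter_upwards [e1, e2] with t h1 h2
    have h3 : HasDerivAt (fun t => f t ^ q + g t ^ q)
        (f1 t * q * f t ^ (q - 1) + g1 t * q * g t ^ (q - 1)) t :=
      ((hf t).rpow_const (Or.inl h1)).add ((hg t).rpow_const (Or.inl h2))
    rw [funext hc] at h3
    have h4 := h3.unique (hasDerivAt_const t c₀)
    apply mul_left_cancel₀ hq
    linear_combination h4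
  have h5 : HasDerivAt (fun t => f1 t * f t ^ (q - 1) + g1 t * g t ^ (q - 1))
      (f2 * f 0 ^ (q - 1) + f1 0 * (f1 0 * (q - 1) * f 0 ^ (q - 1 - 1)) +
        (g2 * g 0 ^ (q - 1) + g1 0 * (g1 0 * (q - 1) * g 0 ^ (q - 1 - 1)))) 0 :=
    (hf2.mul ((hf 0).rpow_const (Or.inl hf0.ne'))).add
      (hg2.mul ((hg 0).rpow_const (Or.inl hg0.ne')))
  have h6 := h5.unique ((hasDerivAt_const (0 : ℝ) (0 : ℝ)).congr_of_eventuallyEq e3)
  linear_combination h6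

theorem half_Pt {a dd S τ s : ℝ} (ha : 0 < a) (hdd : 0 ≤ dd) (hS0 : 0 ≤ S)
    (hS : S ≤ 3 / 5 * a * dd) (hτ : √6 * τ ≤ a * √a) (hp : √a + s ≤ 2 * √6 * μ) :
    min 2 (2 - 12 / 5 * (1 - q)) * (a ^ (q - 1) * dd) + √6 * a ^ q * (s - √a) ≤
      a ^ (q - 1) * (2 * dd + 2 * (6 * μ * a - 6 * τ)) + (q - 1) * a ^ (q - 1 - 1) * (4 * S) := by
  have hP : 0 < a ^ (q - 1 - 1) := Real.rpow_pos_of_pos ha _
  have e1 : a ^ (q - 1) = a ^ (q - 1 - 1) * a := by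
    rw [Real.rpow_sub_one ha.ne' (q - 1), div_mul_cancel₀ _ ha.ne']
  have e2 : a ^ q = a ^ (q - 1 - 1) * a * a := by
    rw [← e1, Real.rpow_sub_one ha.ne' q, div_mul_cancel₀ _ ha.ne']
  rw [e2, e1]
  generalize a ^ (q - 1 - 1) = P at hP
  have h6 : √6 * √6 = 6 := Real.mul_self_sqrt (by norm_num)
  have h60 : 0 < √6 := Real.sqrt_pos.2 (by norm_num)
  have h1 : min 2 (2 - 12 / 5 * (1 - q)) * (a * dd) ≤ 2 * (a * dd) + (q - 1) * (4 * S) := by
    have had : 0 ≤ a * dd := mul_nonneg ha.le hdd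
    rcases le_total q 1 with h | h
    · have h2 := mul_le_mul_of_nonneg_right (min_le_right 2 (2 - 12 / 5 * (1 - q))) had
      have h3 := mul_le_mul_of_nonneg_left hS (sub_nonneg.2 h)
      linarith
    · have h2 := mul_le_mul_of_nonneg_right (min_le_left 2 (2 - 12 / 5 * (1 - q))) had
      have h3 := mul_nonneg (sub_nonneg.2 h) hS0
      linarith
  have h2 : √6 * a * (s - √a) ≤ 2 * (6 * μ * a - 6 * τ) := by
    have h3 := mul_le_mul_of_nonneg_left hτ h60.le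
    have h4 := mul_le_mul_of_nonneg_left hp (mul_pos h60 ha).le
    have h5 : √6 * (√6 * τ) = 6 * τ := by rw [← mul_assoc, h6]
    have h7 : √6 * a * (2 * √6 * μ) = 12 * μ * a := by linear_combination 2 * a * μ * h6
    linarith
  have h3 := mul_le_mul_of_nonneg_left h1 hP.le
  have h4 := mul_le_mul_of_nonneg_left h2 (mul_pos hP ha).le
  linarith

theorem Sys.pt (h : Sys μ A D D2) (hq : 1 / 6 < q)
    (hc : ∀ o, nsq (A true o) ^ q + nsq (A false o) ^ q = c₀) (o : O) (ha : 0 < nsq (A true o))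
    (hb : 0 < nsq (A false o)) :
    min 2 (2 - 12 / 5 * (1 - q)) * (nsq (A true o) ^ (q - 1) * ∑ m, nsq (D true o m) +
      nsq (A false o) ^ (q - 1) * ∑ m, nsq (D false o m)) ≤
      √6 * (√(nsq (A true o)) - √(nsq (A false o))) *
        (nsq (A true o) ^ q - nsq (A false o) ^ q) := by
  have h1 : ∀ m : Fin 4,
      nsq (A true o) ^ (q - 1) * (2 * nsq (D true o m) + 2 * ip3 (A true o) (D2 true o m m)) +
        (q - 1) * nsq (A true o) ^ (q - 1 - 1) * (2 * ip3 (A true o) (D true o m)) ^ 2 +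
      (nsq (A false o) ^ (q - 1) * (2 * nsq (D false o m) + 2 * ip3 (A false o) (D2 false o m m)) +
        (q - 1) * nsq (A false o) ^ (q - 1 - 1) * (2 * ip3 (A false o) (D false o m)) ^ 2) = 0 := by
    intro m
    obtain ⟨c, rfl, hc1⟩ := h.crv o (Pi.single m 1)
    exact der_Pt (by linarith) (hc1.nsq1 true) (hc1.nsq1 false) (hc1.nsq2 true 0)
      (hc1.nsq2 false 0) ha hb fun t => hc (c t)
  have h2 : ∀ ε, ∑ m, ip3 (A ε o) (D2 ε o m m) = 6 * μ * nsq (A ε o) - 6 * cub (A ε o) :=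
    fun ε => by rw [h.sum_ip, ip3_wz (h.st ε o)]
  have h3 : ∀ ε s, 0 < nsq (A ε o) → √(nsq (A ε o)) + s ≤ 2 * √6 * μ → _ := fun ε s h0 hp =>
    half_Pt (q := q) h0 (Finset.sum_nonneg fun m _ => nsq_nonneg (D ε o m))
      (Finset.sum_nonneg fun m _ => sq_nonneg _)
      (kato (h.st ε o) (h.std ε o) (sg_cases ε) (h.dv ε o)) (cub_le (h.st ε o)) hp
  have h4 := h3 true _ ha (h.pos o)
  have h5 := h3 false _ hb ((add_comm _ _).trans_le (h.pos o))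
  rw [← h2] at h4 h5
  simp only [Fin.sum_univ_four] at h4 h5 ⊢
  linarith [h1 0, h1 1, h1 2, h1 3]

end

end Vale.Agent.P211
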