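import Vale.Agent.P234.Defs

/-!
Curvature of a Riemannian four-manifold: Einstein condition, sectional curvature, the two halves of the Weyl tensor, local symmetry.
-/

namespace Vale.Agent.P211

open Vale.Agent.P255 Vale.Agent.P234

/-- Euclidean four-space. -/
abbrev E4 : Type := EuclideanSpace ℝ (Fin 4)

/-- The covariant derivative `(∇_p R)(u, v) w` of the curvature tensor in a chart. -/
noncomputable def dRiem {E : Type*} [NormedAddCommGroup E] [NormedSpace ℝ E]
    (G : E → E →L[ℝ] E →L[ℝ] ℝ) (y p u v w : E) : E :=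
  fderiv ℝ (fun z => riem G z u v w) y p + chr G y p (riem G y u v w) -
    riem G y (chr G y p u) v w - riem G y u (chr G y p v) w - riem G y u v (chr G y p w)

/-- The matrix of `W⁺` (`s = 1`) or `W⁻` (`s = -1`) on the basis
`(e₀∧e₁ + s e₂∧e₃)/√2, (e₀∧e₂ + s e₃∧e₁)/√2, (e₀∧e₃ + s e₁∧e₂)/√2`, for the curvature components `r`
and scalar curvature `12 μ`. -/
noncomputable def weyl (s μ : ℝ) (r : Fin 4 → Fin 4 → Fin 4 → Fin 4 → ℝ) (i j : Fin 3) : ℝ :=
  (r 0 (![1, 2, 3] i) 0 (![1, 2, 3] j) + s * r 0 (![1, 2, 3] i) (![2, 3, 1] j) (![3, 1, 2] j) +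
    s * r (![2, 3, 1] i) (![3, 1, 2] i) 0 (![1, 2, 3] j) +
    r (![2, 3, 1] i) (![3, 1, 2] i) (![2, 3, 1] j) (![3, 1, 2] j)) / 2 - if i = j then μ else 0

variable {M : Type*} [TopologicalSpace M] [ChartedSpace E4 M] (g : Metric E4 M)

/-- The curvature operator `Rm(u ∧ v, w ∧ z) = g(R(u, v) z, w)` at `x`. -/
noncomputable def rm (x : M) (u v w z : E4) : ℝ :=
  ipr g x (riem (g.g (chartAt E4 x)) (chartAt E4 x x) u v z) w

/-- Orthonormal frames at `x`. -/
def ON (x : M) (e : Fin 4 → E4) : Prop := ∀ i j, ipr g x (e i) (e j) = if i = j then 1 else 0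

/-- `Ric = l g`. -/
def Einstein (l : ℝ) : Prop :=
  ∀ x e, ON g x e → ∀ v w, ∑ i, rm g x (e i) v (e i) w = l * ipr g x v w

/-- Nonnegative sectional curvature. -/
def SecNonneg : Prop := ∀ x u v, 0 ≤ rm g x u v u v

/-- The norm of `W⁺` (`s = 1`) or `W⁻` (`s = -1`) for the orientation of the frame `e`. -/
noncomputable def wn (l s : ℝ) (x : M) (e : Fin 4 → E4) : ℝ :=
  √(∑ i, ∑ j, weyl s (l / 3) (fun a b c d => rm g x (e a) (e b) (e c) (e d)) i j ^ 2)

/-- The curvature tensor is parallel. -/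
def LocSymm : Prop := ∀ x p u v w, dRiem (g.g (chartAt E4 x)) (chartAt E4 x x) p u v w = 0

end Vale.Agent.P211
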