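import Vale.Agent.P255.Loc
import Vale.Agent.P211.Defs

/-! P211 Ten0 (owner helper99, no task): covariant tensor fields in a chart and their covariant derivatives. -/

namespace Vale.Agent.P211

open scoped ContDiff
open Vale.Agent.P255 Function

noncomputable section

variable {E : Type*} [NormedAddCommGroup E] [NormedSpace ℝ E] {ι : Type} [Fintype ι]
  [DecidableEq ι]

/-- Smooth covariant tensor fields on `U`. -/
structure Tens (U : Set E) (T : E → (ι → E) → ℝ) : Prop where
  smooth : ∀ y ∈ U, ∀ m, ContDiffAt ℝ ∞ (fun q : E × (ι → E) => T q.1 q.2) (y, m)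
  lin : ∀ y ∈ U, ∀ m i, IsLinearMap ℝ fun h => T y (update m i h)

/-- The covariant derivative in the direction `p`. -/
def cov (G : E → E →L[ℝ] E →L[ℝ] ℝ) (T : E → (ι → E) → ℝ) (y p : E) (m : ι → E) : ℝ :=
  fderiv ℝ (fun z => T z m) y p - ∑ i, T y (update m i (chr G y p (m i)))

/-- The covariant derivative as a tensor field. -/
def covT (G : E → E →L[ℝ] E →L[ℝ] ℝ) (T : E → (ι → E) → ℝ) : E → (Option ι → E) → ℝ :=
  fun y m => cov G T y (m none) fun i => m (some i)

/-- The second covariant derivative. -/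
def cov2 (G : E → E →L[ℝ] E →L[ℝ] ℝ) (T : E → (ι → E) → ℝ) (y q p : E) (m : ι → E) : ℝ :=
  fderiv ℝ (fun z => cov G T z p m) y q - cov G T y (chr G y q p) m -
    ∑ i, cov G T y p (update m i (chr G y q (m i)))

/-- The curvature tensor with all indices down. -/
def rmT (G : E → E →L[ℝ] E →L[ℝ] ℝ) (y : E) (m : Fin 4 → E) : ℝ :=
  G y (riem G y (m 0) (m 1) (m 3)) (m 2)

end

end Vale.Agent.P211
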