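import Vale.Agent.P211.Ten0

/-! P211 TenA (TASK, owner helper99). Helper names end with `_TenA`. Library: P255/Loc (`chrL`, `chrL_apply`, `LocMetric.contDiffOn_chrL`, `loc_fderiv_chr`).
`fderiv_eq`: let `F q = T q.1 q.2`, `L = fderiv F (y, m)`. Write `(p, h) = (p, 0) + ∑ i, (0, Pi.single i (h i))`. `L (p, 0)` is the derivative of `z ↦ T z m` (chain rule with `z ↦ (z, m)`), and `L (0, Pi.single i k)` is the derivative at `0` of
`s ↦ T y (update m i (m i + s • k)) = T y m + s * T y (update m i k)` (`lin`, `update_eq_self`). `curve`: chain rule for `s ↦ (x s, X s)` (`hasDerivAt_pi`, `HasDerivAt.prodMk`), `fderiv_eq`, `IsLinearMap.map_neg`.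
`cov_lin`: `chr G y p w = chrL G y p w` is linear in `p`. `lin_zero`: build a `MultilinearMap` (or induct on the finite set of slots already expanded) and use `MultilinearMap.map_sum`, `map_smul_univ`. -/

namespace Vale.Agent.P211

open scoped ContDiff Topology
open Vale.Agent.P255 Filter Set Function

noncomputable section

variable {E : Type*} [NormedAddCommGroup E] [NormedSpace ℝ E] [FiniteDimensional ℝ E]
  {ι : Type} [Fintype ι] [DecidableEq ι] {G : E → E →L[ℝ] E →L[ℝ] ℝ} {U : Set E}
  {T : E → (ι → E) → ℝ} {y : E}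

theorem Tens.fderiv_eq (hT : Tens U T) (hy : y ∈ U) (m : ι → E) (p : E) (h : ι → E) :
    fderiv ℝ (fun q : E × (ι → E) => T q.1 q.2) (y, m) (p, h) =
      fderiv ℝ (fun z => T z m) y p + ∑ i, T y (update m i (h i)) := by
  have hF := ((hT.smooth y hy m).differentiableAt (by simp)).hasFDerivAt
  have e : ((p, h) : E × (ι → E)) = (p, 0) + ∑ i, (0, Pi.single i (h i)) := by
    refine Prod.ext ?_ ?_
    · simp [Prod.fst_sum]
    · simp [Prod.snd_sum, Finset.univ_sum_single]
  rw [e, map_add, map_sum]
  refine congrArg₂ (· + ·) ?_ (Finset.sum_congr rfl fun i _ => ?_)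
  · exact (congrArg (fun A : E →L[ℝ] ℝ => A p)
      (hF.comp y (hasFDerivAt_prodMk_left (𝕜 := ℝ) y m)).fderiv).symm
  · have h1 : HasDerivAt (fun s : ℝ => ((y, m + s • (Pi.single i (h i) : ι → E)) : E × (ι → E)))
        (0, Pi.single i (h i)) 0 := by
      simpa using (hasDerivAt_const (0 : ℝ) y).prodMk
        (((hasDerivAt_id (0 : ℝ)).smul_const (Pi.single i (h i) : ι → E)).const_add m)
    have h2 := HasFDerivAt.comp_hasDerivAt_of_eq (0 : ℝ) hF h1 (by simp)
    have h3 : ∀ s : ℝ, T y (m + s • (Pi.single i (h i) : ι → E)) =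
        T y m + s * T y (update m i (h i)) := fun s => by
      have e1 : m + s • (Pi.single i (h i) : ι → E) = update m i (m i + s • h i) := by
        funext j
        by_cases hj : j = i
        · subst hj
          simp
        · simp [hj]
      have e2 := (hT.lin y hy m i).map_add (m i) (s • h i)
      have e3 := (hT.lin y hy m i).map_smul s (h i)
      rw [e1, e2, e3, update_eq_self, smul_eq_mul]
    have h4 : HasDerivAt (fun s : ℝ => T y (m + s • (Pi.single i (h i) : ι → E)))
        (T y (update m i (h i))) 0 := by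
      simp only [h3]
      simpa using ((hasDerivAt_id (0 : ℝ)).mul_const (T y (update m i (h i)))).const_add (T y m)
    exact h2.unique h4

theorem Tens.curve (hT : Tens U T) {x : ℝ → E} {X : ℝ → ι → E} {x' : E} {t : ℝ} (hU : x t ∈ U)
    (hx : HasDerivAt x x' t) (hX : ∀ i, HasDerivAt (fun s => X s i) (-chr G (x t) x' (X t i)) t) :
    HasDerivAt (fun s => T (x s) (X s)) (cov G T (x t) x' (X t)) t := by
  have hF := ((hT.smooth _ hU (X t)).differentiableAt (by simp)).hasFDerivAt
  have h1 := hF.comp_hasDerivAt t (hx.prodMk (hasDerivAt_pi.2 hX))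
  rw [hT.fderiv_eq hU] at h1
  have h2 : ∀ i, T (x t) (update (X t) i (-chr G (x t) x' (X t i))) =
      -T (x t) (update (X t) i (chr G (x t) x' (X t i))) := fun i =>
    (hT.lin _ hU (X t) i).map_neg _
  simp only [h2, Finset.sum_neg_distrib, ← sub_eq_add_neg] at h1
  exact h1

theorem Tens.cov_lin (hT : Tens U T) (hy : y ∈ U) (m : ι → E) :
    IsLinearMap ℝ fun p => cov G T y p m := by
  have ha : ∀ i a b, T y (update m i (a + b)) = T y (update m i a) + T y (update m i b) :=
    fun i => (hT.lin y hy m i).map_add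
  have hs : ∀ i (c : ℝ) a, T y (update m i (c • a)) = c * T y (update m i a) :=
    fun i => (hT.lin y hy m i).map_smul
  refine ⟨fun p q => ?_, fun c p => ?_⟩
  · simp only [cov, ← chrL_apply, map_add, add_apply, ha, Finset.sum_add_distrib]
    ring
  · simp only [cov, ← chrL_apply, map_smul, smul_apply, hs, smul_eq_mul, ← Finset.mul_sum]
    ring

theorem lin_zero {f : (ι → E) → ℝ} (hf : ∀ m i, IsLinearMap ℝ fun h => f (update m i h))
    {κ : Type} [Fintype κ] (b : κ → E) (hb : ∀ w, ∃ c : κ → ℝ, w = ∑ a, c a • b a)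
    (h0 : ∀ idx : ι → κ, f (fun i => b (idx i)) = 0) (m : ι → E) : f m = 0 := by
  choose c hc using hb
  let F : MultilinearMap ℝ (fun _ : ι => E) ℝ := MultilinearMap.mk' f
    (fun m i => (hf m i).map_add) fun m i => (hf m i).map_smul
  have e : m = fun i => ∑ a, c (m i) a • b a := funext fun i => hc (m i)
  show F m = 0
  rw [e, F.map_sum]
  refine Finset.sum_eq_zero fun r _ => ?_
  rw [F.map_smul_univ]
  exact smul_eq_zero_of_right _ (h0 r)

end

end Vale.Agent.P211
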