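import Vale.Agent.P211.TenA

/-! P211 TenB (TASK, owner helper99). Helper names end with `_TenB`. The covariant derivative is a tensor field.
Smoothness: by `Tens.fderiv_eq` with `h = 0`, for `z ∈ U` (open, `hG.isOpen`) `fderiv (T · m) z p = fderiv F (z, m) (p, 0)` (the sum vanishes, `IsLinearMap.map_zero`), smooth by `ContDiffAt.fderiv_right`, `clm_apply`; the other terms are
`F` composed with smooth maps (`contDiffAt_pi`, `update_apply`, `contDiffOn_chrL`); finish with `ContDiffAt.congr_of_eventuallyEq`. Linearity in the slot `none` is `cov_lin`; in the slot `some i`: `z ↦ T z (update m i (a + b))` is near `y`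
the sum of two differentiable functions (`fderiv_add`, `EventuallyEq.fderiv_eq`), and in the sum treat `j = i` (`update_idem`) and `j ≠ i` (`update_comm`).
`cov_covT`: `Fintype.sum_option`, unfold. `curve2`, `cov2_lin`: `Tens.curve`, `Tens.cov_lin` for `covT` and `cov_covT`. -/

namespace Vale.Agent.P211

open scoped ContDiff Topology
open Vale.Agent.P255 Filter Set Function

noncomputable section

variable {E : Type*} [NormedAddCommGroup E] [NormedSpace ℝ E] [FiniteDimensional ℝ E]
  {ι : Type} [Fintype ι] [DecidableEq ι] {G : E → E →L[ℝ] E →L[ℝ] ℝ} {U : Set E}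
  {T : E → (ι → E) → ℝ} {y : E}

theorem diff_TenB (hT : Tens U T) (hy : y ∈ U) (m : ι → E) :
    DifferentiableAt ℝ (fun z => T z m) y :=
  ((hT.smooth y hy m).comp y (contDiffAt_id.prodMk contDiffAt_const)).differentiableAt (by simp)

theorem fd_lin_TenB (hU : IsOpen U) (hT : Tens U T) (hy : y ∈ U) (p : E) (m : ι → E) (i : ι) :
    IsLinearMap ℝ fun h => fderiv ℝ (fun z => T z (update m i h)) y p := by
  constructor
  · intro a b
    have h1 : (fun z => T z (update m i (a + b))) =ᶠ[𝓝 y]
        fun z => T z (update m i a) + T z (update m i b) := by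
      filter_upwards [hU.mem_nhds hy] with z hz using (hT.lin z hz m i).map_add a b
    rw [h1.fderiv_eq, fderiv_fun_add (diff_TenB hT hy _) (diff_TenB hT hy _)]
    rfl
  · intro c a
    have h1 : (fun z => T z (update m i (c • a))) =ᶠ[𝓝 y] fun z => c • T z (update m i a) := by
      filter_upwards [hU.mem_nhds hy] with z hz using (hT.lin z hz m i).map_smul c a
    rw [h1.fderiv_eq, fderiv_fun_const_smul (diff_TenB hT hy _)]
    rfl

theorem term_lin_TenB (hT : Tens U T) (hy : y ∈ U) (p : E) (m : ι → E) (i j : ι) :
    IsLinearMap ℝ fun h => T y (update (update m i h) j (chr G y p (update m i h j))) := by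
  by_cases hj : j = i
  · subst hj
    simp only [update_idem, update_self, ← chrL_apply]
    constructor
    · intro a b
      rw [map_add]
      exact (hT.lin y hy m j).map_add _ _
    · intro c a
      rw [map_smul]
      exact (hT.lin y hy m j).map_smul _ _
  · simp only [update_of_ne hj, update_comm (Ne.symm hj)]
    exact hT.lin y hy _ i

theorem cov_lin_TenB (hU : IsOpen U) (hT : Tens U T) (hy : y ∈ U) (p : E) (m : ι → E) (i : ι) :
    IsLinearMap ℝ fun h => cov G T y p (update m i h) := by
  constructor
  · intro a b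
    have h1 := (fd_lin_TenB hU hT hy p m i).map_add a b
    have h2 := fun j => (term_lin_TenB (G := G) hT hy p m i j).map_add a b
    simp only [cov, h1, h2, Finset.sum_add_distrib]
    ring
  · intro c a
    have h1 := (fd_lin_TenB hU hT hy p m i).map_smul c a
    have h2 := fun j => (term_lin_TenB (G := G) hT hy p m i j).map_smul c a
    simp only [cov, h1, h2, smul_eq_mul, ← Finset.mul_sum]
    ring

theorem upd_none_TenB (m : Option ι → E) (h : E) :
    (fun i => update m none h (some i)) = fun i => m (some i) :=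
  funext fun i => update_of_ne (Option.some_ne_none i) _ _

theorem upd_some_TenB (m : Option ι → E) (i : ι) (h : E) :
    (fun j => update m (some i) h (some j)) = update (fun j => m (some j)) i h := by
  funext j
  by_cases hj : j = i
  · subst hj
    simp
  · rw [update_of_ne hj, update_of_ne fun h0 => hj (Option.some_injective _ h0)]

theorem smooth_TenB (hG : LocMetric G U) (hT : Tens U T) (hy : y ∈ U) (m : Option ι → E) :
    ContDiffAt ℝ ∞ (fun q : E × (Option ι → E) => covT G T q.1 q.2) (y, m) := by
  have hc : ∀ o, ContDiffAt ℝ ∞ (fun q : E × (Option ι → E) => q.2 o) (y, m) := fun o =>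
    contDiffAt_pi.1 contDiffAt_snd o
  have hs : ContDiffAt ℝ ∞ (fun q : E × (Option ι → E) => (q.1, fun i => q.2 (some i))) (y, m) :=
    contDiffAt_fst.prodMk (contDiffAt_pi.2 fun i => hc (some i))
  have h1 : ContDiffAt ℝ ∞ (fun q : E × (Option ι → E) =>
      fderiv ℝ (fun q : E × (ι → E) => T q.1 q.2) (q.1, fun i => q.2 (some i)) (q.2 none, 0))
      (y, m) :=
    (((hT.smooth y hy fun i => m (some i)).fderiv_right (m := ∞) (by simp)).comp (y, m) hs).clm_apply
      ((hc none).prodMk contDiffAt_const)
  have h2 : ∀ i, ContDiffAt ℝ ∞ (fun q : E × (Option ι → E) =>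
      T q.1 (update (fun i => q.2 (some i)) i (chr G q.1 (q.2 none) (q.2 (some i))))) (y, m) := by
    intro i
    have h0 : ContDiffAt ℝ ∞ (fun q : E × (Option ι → E) => chrL G q.1) (y, m) :=
      ContDiffAt.comp (g := chrL G) (f := Prod.fst) (y, m)
        (hG.contDiffOn_chrL.contDiffAt (hG.isOpen.mem_nhds hy)) contDiffAt_fst
    have h3 := (h0.clm_apply (hc none)).clm_apply (hc (some i))
    simp only [chrL_apply] at h3
    have h4 : ContDiffAt ℝ ∞ (fun q : E × (Option ι → E) =>
        (q.1, update (fun i => q.2 (some i)) i (chr G q.1 (q.2 none) (q.2 (some i))))) (y, m) := by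
      refine contDiffAt_fst.prodMk (contDiffAt_pi.2 fun j => ?_)
      by_cases hj : j = i
      · subst hj
        simpa only [update_self] using h3
      · simpa only [update_of_ne hj] using hc (some j)
    exact (hT.smooth y hy _).comp (y, m) h4
  refine (h1.sub (ContDiffAt.sum fun i (_ : i ∈ Finset.univ) => h2 i)).congr_of_eventuallyEq ?_
  have h5 : ∀ᶠ q : E × (Option ι → E) in 𝓝 (y, m), q.1 ∈ U :=
    continuousAt_fst.preimage_mem_nhds (hG.isOpen.mem_nhds hy)
  filter_upwards [h5] with q hq
  have h6 : ∀ i, T q.1 (update (fun i => q.2 (some i)) i 0) = 0 := fun i =>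
    (hT.lin q.1 hq _ i).map_zero
  rw [hT.fderiv_eq hq]
  simp only [covT, cov, Pi.zero_apply, h6, Finset.sum_const_zero, add_zero]

theorem Tens.covT (hG : LocMetric G U) (hT : Tens U T) : Tens U (covT G T) := by
  refine ⟨fun y hy m => smooth_TenB hG hT hy m, fun y hy m o => ?_⟩
  rcases o with _ | i
  · simp only [P211.covT, upd_none_TenB, update_self]
    exact hT.cov_lin hy _
  · simp only [P211.covT, upd_some_TenB, update_of_ne (Option.some_ne_none i).symm]
    exact cov_lin_TenB hG.isOpen hT hy _ _ i

theorem cov_covT (G : E → E →L[ℝ] E →L[ℝ] ℝ) (T : E → (ι → E) → ℝ) (y q p : E) (m : ι → E) :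
    cov G (covT G T) y q (fun o => Option.elim o p m) = cov2 G T y q p m := by
  rw [cov, Fintype.sum_option, cov2, sub_sub]
  simp only [covT, upd_none_TenB, upd_some_TenB, update_self, Option.elim_none, Option.elim_some]
  congr 2

theorem Tens.curve2 (hG : LocMetric G U) (hT : Tens U T) {x P : ℝ → E} {X : ℝ → ι → E} {x' : E}
    {t : ℝ} (hU : x t ∈ U) (hx : HasDerivAt x x' t)
    (hP : HasDerivAt P (-chr G (x t) x' (P t)) t)
    (hX : ∀ i, HasDerivAt (fun s => X s i) (-chr G (x t) x' (X t i)) t) :
    HasDerivAt (fun s => cov G T (x s) (P s) (X s)) (cov2 G T (x t) x' (P t) (X t)) t := by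
  rw [← cov_covT]
  refine (hT.covT hG).curve (X := fun s o => Option.elim o (P s) (X s)) hU hx ?_
  rintro (_ | i)
  · exact hP
  · exact hX i

theorem Tens.cov2_lin (hG : LocMetric G U) (hT : Tens U T) (hy : y ∈ U) (p : E) (m : ι → E) :
    IsLinearMap ℝ fun q => cov2 G T y q p m := by
  simp only [← cov_covT]
  exact (hT.covT hG).cov_lin hy _

end

end Vale.Agent.P211
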